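import Vale.Agent.P073.H267.Inter
import Vale.Agent.P073.H950.Cell

/-!
# P073, block H267 (CONE3): transport of the caps to a cell with a chart
-/

open Set Metric Topology Filter

namespace P073.H267

open P073 P073.H936 P073.H880 P073.H950 P073.TR P073.TR.DM

variable {E F : Type*} [NormedAddCommGroup E] [NormedSpace ℝ E]
  [NormedAddCommGroup F] [NormedSpace ℝ F]

/-! ### fibred sheets under conical homeomorphisms and sign changes -/

/-- image of a fibred sheet -/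
noncomputable def fibImage {D N X : Set E} {Y : Set F} {s : E → ℝ} (G : Fib D N s)
    (T : ConHomeo X Y) (hN : N ⊆ X) (s' : F → ℝ) (hs : ∀ p ∈ N, s' (T.toFun p) = s p) :
    Fib (T.toFun '' D) (T.toFun '' N) s' where
  Γ := (((T.restr G.conicalSet_D (G.sub.trans hN)).symm.prod
    (ConHomeo.refl (conicalSet_Icc (-1) 1))).trans G.Γ).trans (T.restr G.Γ.conicalSet_right hN)
  lev := by
    rintro _ ⟨z, hz, rfl⟩ t ht
    show s' (T.toFun (G.Γ.toFun (T.invFun (T.toFun z), t))) = t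
    rw [T.left_inv (hN (G.sub hz)), hs _ (G.mem_N hz ht), G.lev z hz t ht]
  zero := by
    rintro _ ⟨z, hz, rfl⟩
    show T.toFun (G.Γ.toFun (T.invFun (T.toFun z), 0)) = _
    rw [T.left_inv (hN (G.sub hz)), G.zero z hz]

theorem fibImage_apply {D N X : Set E} {Y : Set F} {s : E → ℝ} (G : Fib D N s)
    (T : ConHomeo X Y) (hN : N ⊆ X) (s' : F → ℝ) (hs : ∀ p ∈ N, s' (T.toFun p) = s p) {z : E}
    (hz : z ∈ D) (t : ℝ) : (fibImage G T hN s' hs).Γ.toFun (T.toFun z, t) =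
      T.toFun (G.Γ.toFun (z, t)) := by
  show T.toFun (G.Γ.toFun (T.invFun (T.toFun z), t)) = _
  rw [T.left_inv (hN (G.sub hz))]

theorem pres_image {D N X N' : Set E} {Y : Set F} {s r : E → ℝ} {G : Fib D N s}
    (T : ConHomeo X Y) (hN : N ⊆ X) {s' : F → ℝ} (hs : ∀ p ∈ N, s' (T.toFun p) = s p)
    (h : Pres G N' r) (hN' : N' ⊆ X) {r' : F → ℝ} (hr : ∀ p ∈ N', r' (T.toFun p) = r p) :
    Pres (fibImage G T hN s' hs) (T.toFun '' N') r' := by
  rintro _ ⟨z, hz, rfl⟩ t ht t' ht' hmem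
  rw [fibImage_apply G T hN s' hs hz] at hmem ⊢
  rw [fibImage_apply G T hN s' hs hz]
  obtain ⟨w, hw, hwe⟩ := hmem
  have h1 : w = G.Γ.toFun (z, t) := T.injOn (hN' hw) (hN (G.mem_N hz ht)) hwe
  subst h1
  obtain ⟨h2, h3⟩ := h z hz t ht t' ht' hw
  exact ⟨⟨_, h2, rfl⟩, by rw [hr _ h2, hr _ hw, h3]⟩

/-- sign change of the interval -/
noncomputable def sgIcc {e : ℝ} (he : e = 1 ∨ e = -1) : ConHomeo (Icc (-1:ℝ) 1) (Icc (-1:ℝ) 1) where
  toFun := fun t => e * t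
  invFun := fun t => e * t
  mapsTo := fun t ht => by
    rcases he with rfl | rfl
    · exact ⟨by linarith [ht.1], by linarith [ht.2]⟩
    · exact ⟨by linarith [ht.2], by linarith [ht.1]⟩
  mapsTo_inv := fun t ht => by
    rcases he with rfl | rfl
    · exact ⟨by linarith [ht.1], by linarith [ht.2]⟩
    · exact ⟨by linarith [ht.2], by linarith [ht.1]⟩
  left_inv := fun t _ => by rcases he with rfl | rfl <;> ring
  right_inv := fun t _ => by rcases he with rfl | rfl <;> ring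
  cont := by fun_prop
  cont_inv := by fun_prop
  conical := by
    intro x hx
    obtain ⟨r, hr, H⟩ := conicalSet_Icc (-1) 1 x hx
    refine ⟨r, hr, fun v hv hxv t ht => ⟨H v hv hxv t ht, ?_⟩⟩
    simp only [smul_eq_mul]
    ring

/-- sign change of the level of a fibred sheet -/
noncomputable def fibSg {D N : Set E} {s : E → ℝ} {e : ℝ} (he : e = 1 ∨ e = -1) (G : Fib D N s) :
    Fib D N (fun x => e * s x) where
  Γ := ((ConHomeo.refl G.conicalSet_D).prod (sgIcc he)).trans G.Γ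
  lev := fun z hz t ht => by
    have h1 : e * t ∈ Icc (-1:ℝ) 1 := (sgIcc he).mapsTo ht
    show e * s (G.Γ.toFun (z, e * t)) = t
    rw [G.lev z hz _ h1]
    rcases he with rfl | rfl <;> ring
  zero := fun z hz => by
    show G.Γ.toFun (z, e * 0) = z
    rw [mul_zero, G.zero z hz]

@[simp] theorem fibSg_apply {D N : Set E} {s : E → ℝ} {e : ℝ} (he : e = 1 ∨ e = -1)
    (G : Fib D N s) (z : E) (t : ℝ) : (fibSg he G).Γ.toFun (z, t) = G.Γ.toFun (z, e * t) := rfl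

theorem pres_sg {D N N' : Set E} {s r : E → ℝ} {e e' : ℝ} (he : e = 1 ∨ e = -1) {G : Fib D N s}
    (h : Pres G N' r) : Pres (fibSg he G) N' (fun x => e' * r x) := by
  intro z hz t ht t' ht' hm
  rw [fibSg_apply] at hm ⊢
  rw [fibSg_apply]
  obtain ⟨h1, h2⟩ := h z hz _ ((sgIcc he).mapsTo ht) _ ((sgIcc he).mapsTo ht') hm
  exact ⟨h1, congrArg (e' * ·) h2⟩

namespace Circles

variable {n m k : ℕ} {Q S : Set E} {J : Type*} (D : Circles n S J m) (C : Chart k Q S)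

theorem top_add_one : D.top + 1 = 4 * m + 2 := by unfold top; ring

theorem neg_one_lt_top : -1 < D.top := by
  unfold top
  have : (0:ℝ) ≤ m := Nat.cast_nonneg m
  linarith

include C in
theorem conicalSet_S : ConicalSet S := C.bd.conicalSet_right

/-- polar coordinates with the depth coordinate `y ∈ [-1, top]` -/
noncomputable def T : ConHomeo (S ×ˢ Icc (-1:ℝ) D.top) C.sh :=
  ((ConHomeo.refl (conicalSet_S C)).prod (ConHomeo.affIcc D.neg_one_lt_top zero_lt_one)).trans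
    C.polar

theorem T_apply (x : E) (y : ℝ) :
    (D.T C).toFun (x, y) = C.polar.toFun (x, (y + 1) / (4 * m + 2)) := by
  show C.polar.toFun (x, 0 + (y - -1) / (D.top - -1) * (1 - 0)) = _
  rw [sub_neg_eq_add, sub_neg_eq_add, D.top_add_one, sub_zero, mul_one, zero_add]

theorem T_top {x : E} (hx : x ∈ S) : (D.T C).toFun (x, D.top) = x := by
  have : (0:ℝ) ≤ m := Nat.cast_nonneg m
  rw [T_apply, D.top_add_one, div_self (by linarith), C.polar_one hx]

/-- **The dome functions of `H950` are the level functions of the caps.** -/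
theorem dome_T (c : J) {p : E × ℝ} (hp : p ∈ S ×ˢ Icc (-1:ℝ) D.top) :
    C.dome m (D.rk c) (D.s c) ((D.T C).toFun p) = D.b c p := by
  have hm : (0:ℝ) ≤ m := Nat.cast_nonneg m
  obtain ⟨x, y⟩ := p
  obtain ⟨hx, hy1, hy2⟩ := hp
  have hρ : (y + 1) / (4 * m + 2) ∈ Icc (0:ℝ) 1 := by
    refine ⟨div_nonneg (by linarith) (by linarith), (div_le_one (by linarith)).2 ?_⟩
    have := D.top_add_one
    linarith
  rw [T_apply, C.dome_polar (p := (x, (y + 1) / (4 * m + 2))) ⟨hx, hρ⟩]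
  show min (D.s c x) (ram m (D.rk c) ((y + 1) / (4 * m + 2))) = min (D.s c x) (clip (y - D.yy c))
  congr 1
  unfold ram clip
  congr 2
  unfold al be uu yy
  field_simp
  ring

theorem N_subX (c : J) : D.N c ⊆ S ×ˢ Icc (-1:ℝ) D.top := fun _ hp =>
  ⟨(D.N_sub c hp).1, by linarith [(D.N_sub c hp).2.1], (D.N_sub c hp).2.2⟩

theorem N0_subX (c : J) : D.N0 c ⊆ S ×ˢ Icc (-1:ℝ) D.top := (D.fib c).sub.trans (D.N_subX c)

/-- the thick cap in the cell -/
def cap (c : J) : Set E := (D.T C).toFun '' D.N c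

/-- the middle of the cap in the cell -/
def cap0 (c : J) : Set E := (D.T C).toFun '' D.N0 c

/-- the level function of the cap -/
noncomputable def dm (c : J) : E → ℝ := C.dome m (D.rk c) (D.s c)

/-- **The cap as a fibred sheet.** -/
noncomputable def fibQ (c : J) : Fib (D.cap0 C c) (D.cap C c) (D.dm C c) :=
  fibImage (D.fib c) (D.T C) (D.N_subX c) (D.dm C c) fun _ hp => D.dome_T C c (D.N_subX c hp)

theorem fibQ_apply (c : J) {z : E × ℝ} (hz : z ∈ D.N0 c) (t : ℝ) :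
    (D.fibQ C c).Γ.toFun ((D.T C).toFun z, t) = (D.T C).toFun ((D.Gam c).toFun (z, t)) :=
  fibImage_apply (D.fib c) (D.T C) (D.N_subX c) (D.dm C c) _ hz t

/-- **commuting fibres** -/
theorem presQ (c c' : J) (h : D.typ c ≠ D.typ c') : Pres (D.fibQ C c) (D.cap C c') (D.dm C c') :=
  pres_image (D.T C) (D.N_subX c) _ (D.pres c c' h) (D.N_subX c')
    fun _ hp => D.dome_T C c' (D.N_subX c' hp)

theorem cap_disj {c c' : J} (h : c ≠ c') (ht : D.typ c = D.typ c') :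
    Disjoint (D.cap C c) (D.cap C c') := by
  have h1 := D.N_disj h ht
  rw [Set.disjoint_left] at h1 ⊢
  rintro _ ⟨p, hp, rfl⟩ ⟨q, hq, he⟩
  have h2 : q = p := (D.T C).injOn (D.N_subX c' hq) (D.N_subX c hp) he
  subst h2
  exact h1 hp hq

theorem T_mem_S {p : E × ℝ} (hp : p ∈ S ×ˢ Icc (-1:ℝ) D.top) :
    (D.T C).toFun p ∈ S ↔ p.2 = D.top := by
  have hm : (0:ℝ) ≤ m := Nat.cast_nonneg m
  obtain ⟨x, y⟩ := p
  obtain ⟨hx, hy1, hy2⟩ := hp
  have hρ : (y + 1) / (4 * m + 2) ∈ Icc (0:ℝ) 1 := by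
    refine ⟨div_nonneg (by linarith) (by linarith), (div_le_one (by linarith)).2 ?_⟩
    have := D.top_add_one
    linarith
  rw [C.mem_S_iff ((D.T C).mapsTo ⟨hx, hy1, hy2⟩), T_apply,
    C.rho_polar (p := (x, (y + 1) / (4 * m + 2))) ⟨hx, hρ⟩]
  show (y + 1) / (4 * m + 2) = 1 ↔ y = D.top
  rw [div_eq_one_iff_eq (by linarith), ← D.top_add_one]
  constructor <;> intro h <;> linarith

theorem T_image_top {B : Set E} (hB : B ⊆ S) : (D.T C).toFun '' (B ×ˢ {D.top}) = B := by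
  ext x
  constructor
  · rintro ⟨⟨w, y⟩, ⟨hw, hy⟩, rfl⟩
    have hy : y = D.top := hy
    subst hy
    rw [D.T_top C (hB hw)]
    exact hw
  · intro hx
    exact ⟨(x, D.top), ⟨hx, rfl⟩, D.T_top C (hB hx)⟩

/-- **The middle of the cap is a ball with boundary the middle circle.** -/
theorem cap_ball (c : J) : ConBall n (D.cap0 C c) (D.gm c) := by
  have h := (D.ball c).image (D.T C) (D.N0_subX c)
  rw [D.mid_eq, D.T_image_top C (D.gm_sub c)] at h
  exact h

theorem A_sub (c : J) : D.A c ⊆ S := fun _ hx => D.sub c (Or.inr hx)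

theorem cap_sub_sh (c : J) : D.cap C c ⊆ C.sh := by
  rintro _ ⟨p, hp, rfl⟩
  exact (D.T C).mapsTo (D.N_subX c hp)

/-- the cap meets the boundary in the thick circle -/
theorem cap_inter_S (c : J) : D.cap C c ∩ S = D.A c := by
  ext x
  constructor
  · rintro ⟨⟨p, hp, rfl⟩, hS⟩
    have h1 := (D.T_mem_S C (D.N_subX c hp)).1 hS
    have h2 : p ∈ D.A c ×ˢ {D.top} := by
      rw [← D.N_top c]; exact ⟨hp, mem_univ _, h1⟩
    have h3 : p = (p.1, D.top) := Prod.ext rfl h1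
    rw [h3, D.T_top C (D.A_sub c h2.1)]
    exact h2.1
  · intro hx
    have h2 : (x, D.top) ∈ D.A c ×ˢ {D.top} := ⟨hx, rfl⟩
    rw [← D.N_top c] at h2
    exact ⟨⟨_, h2.1, D.T_top C (D.A_sub c hx)⟩, D.A_sub c hx⟩

theorem cap0_inter_S (c : J) : D.cap0 C c ∩ S = D.gm c := by
  ext x
  constructor
  · rintro ⟨⟨p, hp, rfl⟩, hS⟩
    have h1 := (D.T_mem_S C (D.N0_subX c hp)).1 hS
    have h2 : p ∈ D.gm c ×ˢ {D.top} := by
      rw [← D.mid_eq, ← D.N0_top c]; exact ⟨hp, mem_univ _, h1⟩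
    have h3 : p = (p.1, D.top) := Prod.ext rfl h1
    rw [h3, D.T_top C (D.gm_sub c h2.1)]
    exact h2.1
  · intro hx
    have h2 : (x, D.top) ∈ D.gm c ×ˢ {D.top} := ⟨hx, rfl⟩
    rw [← D.mid_eq, ← D.N0_top c] at h2
    exact ⟨⟨_, h2.1, D.T_top C (D.gm_sub c hx)⟩, D.gm_sub c hx⟩

/-- the fibres over the boundary -/
theorem fibQ_bd (c : J) {x : Fin n → ℝ} (hx : x ∈ Sn n) {t : ℝ} (ht : t ∈ Icc (-1:ℝ) 1) :
    (D.fibQ C c).Γ.toFun ((D.a c).toFun (x, 0), t) = (D.a c).toFun (x, t) := by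
  have hg : (D.a c).toFun (x, 0) ∈ D.gm c := ⟨(x, 0), ⟨hx, rfl⟩, rfl⟩
  have hm : ((D.a c).toFun (x, 0), D.top) ∈ D.N0 c := D.mid_sub c ⟨hg, rfl⟩
  have h1 := D.fibQ_apply C c hm t
  rw [D.T_top C (D.gm_sub c hg), D.Gam_top c hx ht,
    D.T_top C (D.A_sub c ((D.a c).mapsTo ⟨hx, ht⟩))] at h1
  exact h1

/-- the fibres over the boundary stay in the boundary, the others never reach it -/
theorem fibQ_mem_S (c : J) {z : E} (hz : z ∈ D.cap0 C c) {t : ℝ} (ht : t ∈ Icc (-1:ℝ) 1) :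
    (D.fibQ C c).Γ.toFun (z, t) ∈ S ↔ z ∈ S := by
  obtain ⟨p, hp, rfl⟩ := hz
  have h1 : (D.Gam c).toFun (p, t) ∈ D.N c := (D.fib c).mem_N hp ht
  rw [D.fibQ_apply C c hp, D.T_mem_S C (D.N_subX c h1), D.T_mem_S C (D.N0_subX c hp)]
  exact D.Gam_top_iff c hp ht

/-- off the cap the level function is `±1` -/
theorem dm_off {c : J} {z : E} (hz : z ∈ Q) (hn : z ∉ D.cap C c) :
    D.dm C c z = -1 ∨ D.dm C c z = 1 := by
  rcases C.cover hz with h | h
  · exact Or.inl (C.dome_core (D.rk_lt c) (fun _ hθ => (D.s_mem hθ).1) h)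
  · have h1 := (D.T C).mapsTo_inv h
    have h2 : (D.T C).toFun ((D.T C).invFun z) = z := (D.T C).right_inv h
    have h3 := D.dome_T C c h1
    rw [h2] at h3
    show C.dome m (D.rk c) (D.s c) z = -1 ∨ C.dome m (D.rk c) (D.s c) z = 1
    rw [h3]
    exact D.b_off h1.1 h1.2.2 fun hN => hn ⟨_, hN, h2⟩

theorem dm_mem (c : J) (z : E) : D.dm C c z ∈ Icc (-1:ℝ) 1 :=
  C.dome_mem (fun _ hθ => D.s_mem hθ) z

theorem dm_bd (c : J) {z : E} (hz : z ∈ S) : D.dm C c z = D.s c z :=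
  C.dome_bd (fun _ hθ => (D.s_mem hθ).2) hz

theorem continuousOn_dm (c : J) : ContinuousOn (D.dm C c) Q :=
  C.continuousOn_dome (D.rk_lt c) (fun _ hθ => (D.s_mem hθ).1) (D.s_cont c)

theorem conicalOn_dm (c : J) : ConicalOn (D.dm C c) Q :=
  C.conicalOn_dome (D.rk_lt c) (fun _ hθ => (D.s_mem hθ).1) (D.s_cont c) (D.s_con c)

theorem mem_cap0_iff {c : J} {z : E} (hz : z ∈ Q) : z ∈ D.cap0 C c ↔ D.dm C c z = 0 := by
  constructor
  · intro h
    exact ((D.fibQ C c).mem_D_iff.1 h).2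
  · intro h
    refine (D.fibQ C c).mem_D_iff.2 ⟨?_, h⟩
    by_contra hn
    rcases D.dm_off C hz hn with h1 | h1
    · rw [h] at h1; norm_num at h1
    · rw [h] at h1; norm_num at h1

end Circles

namespace Circles

variable {m k : ℕ} {Q S : Set E} {J : Type*} (D : Circles 2 S J m) (C : Chart k Q S)

theorem cap0_inter (c c' : J) :
    D.cap0 C c ∩ D.cap0 C c' = (D.T C).toFun '' (D.N0 c ∩ D.N0 c') := by
  apply Subset.antisymm
  · rintro _ ⟨⟨p, hp, rfl⟩, ⟨q, hq, he⟩⟩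
    have h2 : q = p := (D.T C).injOn (D.N0_subX c' hq) (D.N0_subX c hp) he
    subst h2
    exact ⟨q, ⟨hp, hq⟩, rfl⟩
  · rintro _ ⟨p, ⟨hp, hq⟩, rfl⟩
    exact ⟨⟨p, hp, rfl⟩, ⟨p, hq, rfl⟩⟩

/-- **Directions of the double curves**: one on the boundary, two inside. -/
theorem encard_dirs_cap {c c' : J} (ht : D.typ c ≠ D.typ c') (hF : (D.gm c ∩ D.gm c').Finite)
    {z : E} (hz : z ∈ D.cap0 C c ∩ D.cap0 C c') :
    (z ∈ S → (dirs (D.cap0 C c ∩ D.cap0 C c') z).encard = 1) ∧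
    (z ∉ S → (dirs (D.cap0 C c ∩ D.cap0 C c') z).encard = 2) := by
  rw [D.cap0_inter C] at hz ⊢
  obtain ⟨p, hp, rfl⟩ := hz
  have hsub : D.N0 c ∩ D.N0 c' ⊆ S ×ˢ Icc (-1:ℝ) D.top := inter_subset_left.trans (D.N0_subX c)
  have hcon : ConicalSet (D.N0 c ∩ D.N0 c') :=
    (D.fib c).conicalSet_D.inter (D.fib c').conicalSet_D
  have h1 := encard_dirs ((D.T C).restr hcon hsub) hp
  have h2 : ((D.T C).restr hcon hsub).toFun p = (D.T C).toFun p := rfl
  rw [h2] at h1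
  rw [h1, D.T_mem_S C (hsub hp)]
  exact D.encard_dirs_inter ht hF hp

end Circles

end P073.H267
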