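import Vale.Agent.P073.H267.BaseDisc
import Vale.Agent.P073.H267.Trans

/-!
# P073, block H267 (CONE3, A6): production of the data `Circles` from thick circles in a sphere
-/

open Set Metric Topology Filter

namespace P073.H267

open P073 P073.H936

variable {E : Type*} [NormedAddCommGroup E] [NormedSpace ℝ E]

/-- **Thick circles in a set**: two families, same type disjoint, different types vertical -/
structure Rings (S : Set E) (J : Type*) where
  typ : J → Bool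
  A : J → Set E
  a : ∀ c, ConHomeo (Sn 2 ×ˢ Icc (-1:ℝ) 1) (A c)
  r : J → E → ℝ
  r_a : ∀ c, ∀ x ∈ Sn 2, ∀ t ∈ Icc (-1:ℝ) 1, r c ((a c).toFun (x, t)) = t
  sub : ∀ c, A c ⊆ S
  disj : ∀ c c', c ≠ c' → typ c = typ c' → Disjoint (A c) (A c')
  vert : ∀ c c', typ c ≠ typ c' → ∀ x ∈ Sn 2, ∀ t ∈ Icc (-1:ℝ) 1,
    ((a c).toFun (x, t) ∈ A c' ↔ (a c).toFun (x, 0) ∈ A c') ∧
      ((a c).toFun (x, 0) ∈ A c' → r c' ((a c).toFun (x, t)) = r c' ((a c).toFun (x, 0)))

theorem lv_sq (σ : Bool) : lv σ = 1 ∨ lv σ = -1 := by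
  cases σ
  · right; rfl
  · left; rfl

theorem lv_not (σ : Bool) : lv (!σ) = -lv σ := by cases σ <;> simp [lv]

theorem lv_mul_self (σ : Bool) : lv σ * lv σ = 1 := by cases σ <;> simp [lv]

namespace Rings

variable {S : Set E} {J : Type*} (R : Rings S J)

theorem level_eq (c : J) {x : E} (hx : x ∈ R.A c) : R.r c x = ((R.a c).invFun x).2 := by
  have h1 := (R.a c).mapsTo_inv hx
  have h2 := R.r_a c _ h1.1 _ h1.2
  have h3 : (R.a c).toFun (((R.a c).invFun x).1, ((R.a c).invFun x).2) = x := (R.a c).right_inv hx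
  rwa [h3] at h2

theorem conicalOn_r (c : J) : ConicalOn (R.r c) (R.A c) :=
  ((R.a c).conical_inv.linear_comp (LinearMap.snd ℝ (Fin 2 → ℝ) ℝ)).congr fun _ hx =>
    R.level_eq c hx

theorem continuousOn_r (c : J) : ContinuousOn (R.r c) (R.A c) :=
  (continuous_snd.comp_continuousOn (R.a c).cont_inv).congr fun _ hx => R.level_eq c hx

theorem isCompact_A (c : J) : IsCompact (R.A c) :=
  (R.a c).isCompact_right ((isCompact_sphere _ _).prod isCompact_Icc)

/-- the boundary circles by their level -/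
theorem mem_ring_iff {c : J} {σ : Bool} {x : E} (hx : x ∈ R.A c) :
    x ∈ ring (R.a c) σ ↔ R.r c x = lv σ := by
  constructor
  · rintro ⟨⟨y, t⟩, ⟨hy, ht⟩, rfl⟩
    have ht : t = lv σ := ht
    subst ht
    exact R.r_a c y hy _ (lv_mem σ)
  · intro h
    have h1 := (R.a c).mapsTo_inv hx
    rw [R.level_eq c hx] at h
    exact ⟨(R.a c).invFun x, ⟨h1.1, h⟩, (R.a c).right_inv hx⟩

/-- **The inner discs** of thick circles in a sphere with a base point -/
structure Discs (p0 : E) where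
  e : J → Bool
  I : J → Set E
  inner : ∀ c, ConBall 2 (I c) (ring (R.a c) (!e c))
  outer : ∀ c, ConBall 2 (I c ∪ R.A c) (ring (R.a c) (e c))
  IA : ∀ c, I c ∩ R.A c = ring (R.a c) (!e c)
  sub : ∀ c, I c ∪ R.A c ⊆ S
  base : ∀ c, p0 ∉ I c ∪ R.A c
  lam : ∀ c c', c ≠ c' → R.typ c = R.typ c' → (I c ∪ R.A c ⊆ I c' \ R.A c') ∨
    (I c' ∪ R.A c' ⊆ I c \ R.A c) ∨ Disjoint (I c ∪ R.A c) (I c' ∪ R.A c')

/-- **Existence of the inner discs** (in a sphere with a base point off all thick circles). -/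
theorem exists_discs [Finite J] (hS : ConSphere 2 S) {p0 : E} (hp : p0 ∈ S)
    (h0 : ∀ c, p0 ∉ R.A c) : Nonempty (R.Discs p0) := by
  classical
  obtain ⟨S0, B0, hb, hS0, hp0, hK⟩ := exists_base_disc hS hp
    (K := ⋃ c, R.A c) (isCompact_iUnion fun c => R.isCompact_A c)
    (iUnion_subset fun c => R.sub c) (by simpa using h0)
  obtain ⟨hB0, χ, hχ⟩ := hb
  have hA0 : ∀ c, R.A c ⊆ S0 := fun c x hx => (hK (mem_iUnion.2 ⟨c, hx⟩)).1
  -- the planar annuli
  let a' : ∀ c, ConHomeo (sphere (0 : P2) 1 ×ˢ Icc (-1:ℝ) 1) (χ.toFun '' R.A c) := fun c =>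
    (R.a c).trans (χ.restr (R.a c).conicalSet_right (hA0 c))
  have ha' : ∀ c q, (a' c).toFun q = χ.toFun ((R.a c).toFun q) := fun _ _ => rfl
  have hball : ∀ c, χ.toFun '' R.A c ⊆ ball 0 1 := by
    rintro c _ ⟨x, hx, rfl⟩
    have h1 := hK (mem_iUnion.2 ⟨c, hx⟩)
    rcases eq_or_lt_of_le (mem_closedBall_zero_iff.1 (χ.mapsTo h1.1)) with h | h
    · exfalso
      have h2 : χ.toFun x ∈ χ.toFun '' B0 := by
        rw [hχ]; exact mem_sphere_zero_iff_norm.2 h
      obtain ⟨y, hy, hye⟩ := h2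
      exact h1.2 (χ.injOn (hB0 hy) h1.1 hye ▸ hy)
    · exact mem_ball_zero_iff.2 h
  have hinner := fun τ : Bool => exists_inner (J := {c // R.typ c = τ}) (fun j => a' j.1)
    (fun j => hball j.1) (by
      rintro ⟨c, hc⟩ ⟨c', hc'⟩ hne
      have h1 := R.disj c c' (fun h => hne (Subtype.ext h)) (hc.trans hc'.symm)
      rw [Set.disjoint_left] at h1 ⊢
      rintro _ ⟨x, hx, rfl⟩ ⟨y, hy, hye⟩
      exact h1 hx (χ.injOn (hA0 c' hy) (hA0 c hx) hye ▸ hy))
  choose e I' k1 k2 k3 k4 k5 using hinner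
  -- back to the sphere
  let I : J → Set E := fun c => χ.invFun '' I' (R.typ c) ⟨c, rfl⟩
  have hIb : ∀ c, I' (R.typ c) ⟨c, rfl⟩ ∪ χ.toFun '' R.A c ⊆ closedBall 0 1 := fun c =>
    (k4 (R.typ c) ⟨c, rfl⟩).trans ball_subset_closedBall
  have hring : ∀ c σ, χ.invFun '' ring (a' c) σ = ring (R.a c) σ := by
    intro c σ
    ext y
    constructor
    · rintro ⟨_, ⟨q, hq, rfl⟩, rfl⟩
      refine ⟨q, hq, ?_⟩
      rw [ha', χ.left_inv (hA0 c ((R.a c).mapsTo (sub_cyl σ hq)))]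
    · rintro ⟨q, hq, rfl⟩
      refine ⟨_, ⟨q, hq, rfl⟩, ?_⟩
      rw [ha', χ.left_inv (hA0 c ((R.a c).mapsTo (sub_cyl σ hq)))]
  have hAimg : ∀ c, χ.invFun '' (χ.toFun '' R.A c) = R.A c := by
    intro c
    rw [image_image, image_congr (fun x hx => χ.left_inv (hA0 c hx)), image_id']
  have hU : ∀ c, I c ∪ R.A c = χ.invFun '' (I' (R.typ c) ⟨c, rfl⟩ ∪ χ.toFun '' R.A c) := by
    intro c
    rw [image_union, hAimg]
  have hUS : ∀ c, I c ∪ R.A c ⊆ S0 := by
    intro c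
    rw [hU]
    rintro _ ⟨y, hy, rfl⟩
    exact χ.mapsTo_inv (hIb c hy)
  have hmem : ∀ T : Set P2, T ⊆ closedBall 0 1 → ∀ x ∈ S0, (x ∈ χ.invFun '' T ↔ χ.toFun x ∈ T) := by
    intro T hT x hx
    constructor
    · rintro ⟨y, hy, rfl⟩; rwa [χ.right_inv (hT hy)]
    · intro h; exact ⟨_, h, χ.left_inv hx⟩
  have hI'b : ∀ c, I' (R.typ c) ⟨c, rfl⟩ ⊆ closedBall 0 1 := fun c =>
    subset_union_left.trans (hIb c)
  have hI : ∀ c, ∀ x ∈ S0, (x ∈ I c ↔ χ.toFun x ∈ I' (R.typ c) ⟨c, rfl⟩) := fun c =>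
    hmem _ (hI'b c)
  have hA : ∀ c, ∀ x ∈ S0, (x ∈ R.A c ↔ χ.toFun x ∈ χ.toFun '' R.A c) := by
    intro c x hx
    refine ⟨fun h => ⟨x, h, rfl⟩, ?_⟩
    rintro ⟨y, hy, hye⟩
    exact χ.injOn (hA0 c hy) hx hye ▸ hy
  have hO : ∀ c, ∀ x ∈ S0, (x ∈ I c ∪ R.A c ↔
      χ.toFun x ∈ I' (R.typ c) ⟨c, rfl⟩ ∪ χ.toFun '' R.A c) := fun c x hx =>
    or_congr (hI c x hx) (hA c x hx)
  refine ⟨⟨fun c => e (R.typ c) ⟨c, rfl⟩, I, fun c => ?_, fun c => ?_, fun c => ?_,
    fun c => (hUS c).trans hS0, fun c h => hp0 (hUS c h), ?_⟩⟩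
  · have h := (k1 (R.typ c) ⟨c, rfl⟩).image χ.symm (hI'b c)
    show ConBall 2 (χ.invFun '' _) _
    rw [← hring]
    exact h
  · have h := (k2 (R.typ c) ⟨c, rfl⟩).image χ.symm (hIb c)
    rw [hU, ← hring]
    exact h
  · have h : I' (R.typ c) ⟨c, rfl⟩ ∩ χ.toFun '' R.A c = ring (a' c) (!e (R.typ c) ⟨c, rfl⟩) :=
      k3 (R.typ c) ⟨c, rfl⟩
    ext x
    constructor
    · rintro ⟨h1, h2⟩
      have hx := hA0 c h2
      rw [← hring, hmem _ (h ▸ inter_subset_left.trans (hI'b c)) x hx, ← h]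
      exact ⟨(hI c x hx).1 h1, (hA c x hx).1 h2⟩
    · intro h1
      have h2 : x ∈ R.A c := ring_sub _ _ h1
      have hx := hA0 c h2
      rw [← hring, hmem _ (h ▸ inter_subset_left.trans (hI'b c)) x hx, ← h] at h1
      exact ⟨(hI c x hx).2 h1.1, h2⟩
  · intro c c' hne ht
    have hgen : ∀ (τ τ' : Bool) (hτ : R.typ c = τ) (hτ' : R.typ c' = τ'), τ = τ' →
        (I' τ ⟨c, hτ⟩ ∪ χ.toFun '' R.A c ⊆ I' τ' ⟨c', hτ'⟩ \ ring (a' c') (!e τ' ⟨c', hτ'⟩) ∨
        I' τ' ⟨c', hτ'⟩ ∪ χ.toFun '' R.A c' ⊆ I' τ ⟨c, hτ⟩ \ ring (a' c) (!e τ ⟨c, hτ⟩) ∨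
        Disjoint (I' τ ⟨c, hτ⟩ ∪ χ.toFun '' R.A c) (I' τ' ⟨c', hτ'⟩ ∪ χ.toFun '' R.A c')) := by
      rintro τ _ hτ hτ' rfl
      exact k5 τ ⟨c, hτ⟩ ⟨c', hτ'⟩ (fun h => hne (congrArg Subtype.val h))
    have hsub : ∀ c c', (I' (R.typ c) ⟨c, rfl⟩ ∪ χ.toFun '' R.A c ⊆
        I' (R.typ c') ⟨c', rfl⟩ \ ring (a' c') (!e (R.typ c') ⟨c', rfl⟩)) →
        I c ∪ R.A c ⊆ I c' \ R.A c' := by
      intro c c' h x hx
      have hx0 := hUS c hx
      have h1 := h ((hO c x hx0).1 hx)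
      have h3 : I' (R.typ c') ⟨c', rfl⟩ ∩ χ.toFun '' R.A c' =
        ring (a' c') (!e (R.typ c') ⟨c', rfl⟩) := k3 (R.typ c') ⟨c', rfl⟩
      refine ⟨(hI c' x hx0).2 h1.1, fun hA' => h1.2 ?_⟩
      rw [← h3]
      exact ⟨h1.1, (hA c' x hx0).1 hA'⟩
    rcases hgen _ _ rfl rfl ht with h | h | h
    · exact Or.inl (hsub c c' h)
    · exact Or.inr (Or.inl (hsub c' c h))
    · right; right
      rw [Set.disjoint_left] at h ⊢
      intro x hx hx'
      have hx0 := hUS c hx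
      exact h ((hO c x hx0).1 hx) ((hO c' x hx0).1 hx')

namespace Discs

variable {R} {p0 : E} (d : R.Discs p0)

/-- the sign of a thick circle -/
def sg (c : J) : ℝ := lv (!d.e c)

theorem sg_cases (c : J) : d.sg c = 1 ∨ d.sg c = -1 := lv_sq _

theorem sg_mul_self (c : J) : d.sg c * d.sg c = 1 := lv_mul_self _

/-- the parametrisation with the inner circle at level `1` -/
noncomputable def aa (c : J) : ConHomeo (Sn 2 ×ˢ Icc (-1:ℝ) 1) (R.A c) :=
  ((ConHomeo.refl (conicalSet_sphere_pi 2)).prod (sgIcc (d.sg_cases c))).trans (R.a c)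

theorem aa_apply (c : J) (x : Fin 2 → ℝ) (t : ℝ) :
    (d.aa c).toFun (x, t) = (R.a c).toFun (x, d.sg c * t) := rfl

theorem aa_ring (c : J) : (d.aa c).toFun '' (Sn 2 ×ˢ {(1:ℝ)}) = ring (R.a c) (!d.e c) := by
  ext y
  constructor
  · rintro ⟨⟨x, t⟩, ⟨hx, ht⟩, rfl⟩
    have ht : t = 1 := ht
    subst ht
    exact ⟨(x, lv (!d.e c)), ⟨hx, rfl⟩, by rw [aa_apply, mul_one]; rfl⟩
  · rintro ⟨⟨x, t⟩, ⟨hx, ht⟩, rfl⟩
    have ht : t = lv (!d.e c) := ht
    subst ht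
    exact ⟨(x, 1), ⟨hx, rfl⟩, by rw [aa_apply, mul_one]; rfl⟩

open Classical in
/-- the level function of a thick circle, extended by `1` inside and `-1` outside -/
noncomputable def ss (c : J) (x : E) : ℝ :=
  if x ∈ R.A c then d.sg c * R.r c x else if x ∈ d.I c then 1 else -1

theorem ss_A {c : J} {x : E} (hx : x ∈ R.A c) : d.ss c x = d.sg c * R.r c x := if_pos hx

theorem ss_I {c : J} {x : E} (hx : x ∈ d.I c) : d.ss c x = 1 := by
  by_cases hA : x ∈ R.A c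
  · have h1 : x ∈ ring (R.a c) (!d.e c) := by rw [← d.IA]; exact ⟨hx, hA⟩
    rw [d.ss_A hA, (R.mem_ring_iff hA).1 h1]
    exact lv_mul_self _
  · unfold ss
    rw [if_neg hA, if_pos hx]

theorem ss_out {c : J} {x : E} (hx : x ∉ d.I c ∪ R.A c) : d.ss c x = -1 := by
  unfold ss
  rw [if_neg fun h => hx (Or.inr h), if_neg fun h => hx (Or.inl h)]

/-- the closed complement of the outer disc -/
def W (c : J) : Set E := S \ ((d.I c ∪ R.A c) \ ring (R.a c) (d.e c))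

theorem ball_W (hS : ConSphere 2 S) (c : J) : ConBall 2 (d.W c) (ring (R.a c) (d.e c)) :=
  H894.compl_disc hS (d.outer c) (d.sub c)

theorem ss_W {c : J} {x : E} (hx : x ∈ d.W c) : d.ss c x = -1 := by
  obtain ⟨hxS, hx⟩ := hx
  by_cases hA : x ∈ R.A c
  · have h1 : x ∈ ring (R.a c) (d.e c) := by
      by_contra h
      exact hx ⟨Or.inr hA, h⟩
    rw [d.ss_A hA, (R.mem_ring_iff hA).1 h1]
    show lv (!d.e c) * lv (d.e c) = -1
    rw [lv_not, neg_mul, lv_mul_self]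
  · refine d.ss_out ?_
    rintro (h | h)
    · refine hx ⟨Or.inl h, fun h1 => hA (ring_sub _ _ h1)⟩
    · exact hA h

theorem cover_W (c : J) : d.I c ∪ R.A c ∪ d.W c = S := by
  apply Subset.antisymm (union_subset (d.sub c) sdiff_subset)
  intro x hx
  by_cases h : x ∈ d.I c ∪ R.A c
  · exact Or.inl h
  · exact Or.inr ⟨hx, fun h1 => h h1.1⟩

theorem isClosed_I (c : J) : IsClosed (d.I c) := (d.inner c).isClosed

theorem continuousOn_ss (hS : ConSphere 2 S) (c : J) : ContinuousOn (d.ss c) S := by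
  suffices h : ContinuousOn (d.ss c) (d.I c ∪ R.A c ∪ d.W c) from h.mono (d.cover_W c).ge
  refine ContinuousOn.union_of_isClosed (ContinuousOn.union_of_isClosed ?_ ?_ (d.isClosed_I c)
    (R.isCompact_A c).isClosed) ?_ ((d.isClosed_I c).union (R.isCompact_A c).isClosed)
    (d.ball_W hS c).isClosed
  · exact (continuousOn_const (c := (1:ℝ))).congr fun x hx => d.ss_I hx
  · exact (continuousOn_const.mul (R.continuousOn_r c)).congr fun x hx => d.ss_A hx
  · exact (continuousOn_const (c := (-1:ℝ))).congr fun x hx => d.ss_W hx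

theorem conicalOn_ss (hS : ConSphere 2 S) (c : J) : ConicalOn (d.ss c) S := by
  suffices h : ConicalOn (d.ss c) (d.I c ∪ R.A c ∪ d.W c) by
    have e := d.cover_W c
    exact Eq.mp (congrArg (fun X => ConicalOn (d.ss c) X) e) h
  have h1 : ConicalOn (d.ss c) (d.I c) :=
    (conicalOn_const (1:ℝ) (d.inner c).conicalSet).congr fun x hx => d.ss_I hx
  have h2 : ConicalOn (d.ss c) (R.A c) := ((R.conicalOn_r c).const_smul (d.sg c)).congr
    fun x hx => by rw [d.ss_A hx]; rfl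
  have h3 : ConicalOn (d.ss c) (d.W c) :=
    (conicalOn_const (-1:ℝ) (d.ball_W hS c).conicalSet).congr fun x hx => d.ss_W hx
  exact (h1.union h2 (fun x _ hx => (d.isClosed_I c).closure_subset hx)
    (fun x _ hx => (R.isCompact_A c).isClosed.closure_subset hx)).union h3
    (fun x _ hx => ((d.isClosed_I c).union (R.isCompact_A c).isClosed).closure_subset hx)
    (fun x _ hx => (d.ball_W hS c).isClosed.closure_subset hx)

/-- the extended level functions are constant along the fibres of the other family -/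
theorem ss_vert (hS : ConSphere 2 S) {c c' : J} (ht : R.typ c ≠ R.typ c') {x : Fin 2 → ℝ}
    (hx : x ∈ Sn 2) {t : ℝ} (htt : t ∈ Icc (-1:ℝ) 1) :
    d.ss c' ((R.a c).toFun (x, t)) = d.ss c' ((R.a c).toFun (x, 0)) := by
  have h00 : (0:ℝ) ∈ Icc (-1:ℝ) 1 := ⟨by norm_num, zero_le_one⟩
  by_cases hA : (R.a c).toFun (x, 0) ∈ R.A c'
  · rw [d.ss_A ((R.vert c c' ht x hx t htt).1.2 hA), d.ss_A hA, (R.vert c c' ht x hx t htt).2 hA]
  · have hnA : ∀ r ∈ Icc (-1:ℝ) 1, (R.a c).toFun (x, r) ∉ R.A c' := fun r hr h =>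
      hA ((R.vert c c' ht x hx r hr).1.1 h)
    have hmaps : MapsTo (fun r : ℝ => d.ss c' ((R.a c).toFun (x, r))) (Icc (-1:ℝ) 1)
        ({1, -1} : Set ℝ) := by
      intro r hr
      by_cases hI : (R.a c).toFun (x, r) ∈ d.I c'
      · left; exact d.ss_I hI
      · right; exact d.ss_out (by rintro (h | h); exacts [hI h, hnA r hr h])
    have hc : ContinuousOn (fun r : ℝ => d.ss c' ((R.a c).toFun (x, r))) (Icc (-1:ℝ) 1) := by
      refine (d.continuousOn_ss hS c').comp ((R.a c).cont.comp (by fun_prop) fun r hr =>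
        ⟨hx, hr⟩) ?_
      intro r hr
      exact R.sub c ((R.a c).mapsTo ⟨hx, hr⟩)
    exact isPreconnected_Icc.constant_of_mapsTo (toFinite _).isDiscrete hc hmaps htt h00

/-- **The data `Circles`** for any admissible ranking. -/
noncomputable def circles (hS : ConSphere 2 S) (m : ℕ) (rk : J → ℕ) (hlt : ∀ c, rk c < m)
    (hne : ∀ c c', R.typ c ≠ R.typ c' → rk c ≠ rk c')
    (hmono : ∀ c c', c ≠ c' → R.typ c = R.typ c' → d.I c ∪ R.A c ⊆ d.I c' \ R.A c' →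
      rk c < rk c') : Circles 2 S J m where
  typ := R.typ
  A := R.A
  I := d.I
  a := d.aa
  ballI := fun c => by rw [aa_ring]; exact d.inner c
  IA := fun c => by rw [aa_ring]; exact d.IA c
  sub := d.sub
  s := d.ss
  s_a := fun c x hx t ht => by
    have h1 : d.sg c * t ∈ Icc (-1:ℝ) 1 := (sgIcc (d.sg_cases c)).mapsTo ht
    rw [aa_apply, d.ss_A ((R.a c).mapsTo ⟨hx, h1⟩), R.r_a c x hx _ h1, ← mul_assoc, sg_mul_self,
      one_mul]
  s_I := fun _ _ hx => d.ss_I hx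
  s_out := fun _ _ _ hx => d.ss_out hx
  s_con := d.conicalOn_ss hS
  s_cont := d.continuousOn_ss hS
  A_disj := R.disj
  lam := d.lam
  vert := fun c c' ht x hx t htt => by
    have h1 : d.sg c * t ∈ Icc (-1:ℝ) 1 := (sgIcc (d.sg_cases c)).mapsTo htt
    rw [aa_apply, aa_apply, mul_zero]
    exact ⟨d.ss_vert hS ht hx h1, (R.vert c c' ht x hx _ h1).1⟩
  rk := rk
  rk_lt := hlt
  rk_ne := hne
  rk_mono := hmono

/-- nested discs of one type are strictly nested -/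
theorem ssubset_of_nested {c c' : J} (h : d.I c ∪ R.A c ⊆ d.I c' \ R.A c') :
    d.I c ∪ R.A c ⊂ d.I c' ∪ R.A c' := by
  refine ⟨h.trans (sdiff_subset.trans subset_union_left), fun h1 => ?_⟩
  obtain ⟨y, hy⟩ := ring_nonempty (R.a c') true
  have hyA := ring_sub _ _ hy
  exact (h (h1 (Or.inr hyA))).2 hyA

end Discs

/-- **The data `Circles`** from thick circles in a sphere with a base point off all of them, with
an injective rank which refines the inclusion of all discs. -/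
theorem exists_circles [Finite J] (hS : ConSphere 2 S) {p0 : E} (hp : p0 ∈ S)
    (h0 : ∀ c, p0 ∉ R.A c) :
    ∃ (D : Circles 2 S J (Nat.card J)) (e : J → ℝ), (∀ c, e c = 1 ∨ e c = -1) ∧
      (∀ c, D.typ c = R.typ c) ∧ (∀ c, D.A c = R.A c) ∧
      (∀ c x t, (D.a c).toFun (x, t) = (R.a c).toFun (x, e c * t)) ∧
      (∀ c, ∀ x ∈ R.A c, D.s c x = e c * R.r c x) ∧ (∀ c, p0 ∉ D.I c ∪ D.A c) ∧
      Function.Injective D.rk ∧
      (∀ c c', D.I c ∪ D.A c ⊂ D.I c' ∪ D.A c' → D.rk c < D.rk c') := by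
  classical
  cases nonempty_fintype J
  obtain ⟨d⟩ := R.exists_discs hS hp h0
  obtain ⟨rk, hinj, hlt, hmono⟩ := exists_rank (fun c => d.I c ∪ R.A c)
  refine ⟨d.circles hS (Nat.card J) rk (fun c => by rw [Nat.card_eq_fintype_card]; exact hlt c)
    (fun c c' ht h => ht (by rw [hinj h])) (fun c c' _ _ h => hmono c c' (d.ssubset_of_nested h)),
    d.sg, d.sg_cases, fun _ => rfl, fun _ => rfl, fun _ _ _ => rfl, fun c x hx => d.ss_A hx,
    d.base, hinj, hmono⟩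

end Rings

end P073.H267
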