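import Vale.Agent.P073.H267.Geo2

/-!
# P073, block A14.1 (GEO), part 3: the shell in the boxes, and the side walls of the plates
-/

open Set Metric Topology Filter

namespace Vale.Agent.P073.H267

open _root_.P073 _root_.P073.Net _root_.P073.PA691
open _root_.P073.PR720 (LF)
open Vale.Agent.P073.St (V)
open Vale.Agent.P073.H471

variable {Λ : Set V} {v : V} {K : BoxCx Λ v} {S : Rad K} {W : Wid K S} {B : Boxes W} {y z : V}

/-- A tile which contains an edge has, in each normal direction, a side containing the edge, or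
extends far beyond the edge. -/
theorem tile_far (S : Rad K) {e : K.G} {q : K.T} (he : K.edge e ⊆ K.cube q) {k : Fin 3}
    (hk : k ≠ K.dir e) :
    (K.w (K.a e) k ≠ K.lo q k → K.lo q k ≤ K.w (K.a e) k - 2 * S.q e) ∧
    (K.w (K.a e) k ≠ K.hi q k → K.w (K.a e) k + 2 * S.q e ≤ K.hi q k) := by
  have hq := S.q_pos e
  have hab := K.ab_dir e
  obtain ⟨k', hk'd, hk'k⟩ : ∃ k', k' ≠ K.dir e ∧ k' ≠ k := by
    have : ∀ a b : Fin 3, ∃ c, c ≠ a ∧ c ≠ b := by decide
    exact this _ _
  have hcase := Geo.fin3_cases hk'd hk'k hk.symm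
  have hwa := he (TM.wa_mem K e)
  have hwb := he (TM.wb_mem K e)
  have hlt := K.lt q k'
  -- a coordinate strictly inside the tile
  obtain ⟨c, hc1, hc2, hc3⟩ : ∃ c, K.lo q k' < c ∧ c < K.hi q k' ∧
      |c - K.w (K.a e) k'| ≤ 2 * S.q e := by
    rcases (hwa.1 k').lt_or_eq with h1 | h1
    · rcases (hwa.2 k').lt_or_eq with h2 | h2
      · exact ⟨_, h1, h2, by rw [sub_self, abs_zero]; linarith⟩
      · refine ⟨max (K.w (K.a e) k' - S.q e) ((K.lo q k' + K.hi q k') / 2), ?_, ?_, ?_⟩
        · exact lt_max_of_lt_right (by linarith)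
        · exact max_lt (by linarith) (by linarith)
        · rw [abs_le]
          constructor
          · linarith [le_max_left (K.w (K.a e) k' - S.q e) ((K.lo q k' + K.hi q k') / 2)]
          · have : max (K.w (K.a e) k' - S.q e) ((K.lo q k' + K.hi q k') / 2) ≤ K.w (K.a e) k' :=
              max_le (by linarith) (by linarith)
            linarith
    · refine ⟨min (K.w (K.a e) k' + S.q e) ((K.lo q k' + K.hi q k') / 2), ?_, ?_, ?_⟩
      · exact lt_min (by linarith) (by linarith)
      · exact min_lt_of_right_lt (by linarith)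
      · rw [abs_le]
        constructor
        · have : K.w (K.a e) k' ≤ min (K.w (K.a e) k' + S.q e) ((K.lo q k' + K.hi q k') / 2) :=
            le_min (by linarith) (by linarith)
          linarith
        · linarith [min_le_left (K.w (K.a e) k' + S.q e) ((K.lo q k' + K.hi q k') / 2)]
  set d := K.dir e with hd
  set M := (K.w (K.a e) d + K.w (K.b e) d) / 2 with hM
  have hM1 : K.w (K.a e) d < M := by rw [hM]; linarith
  have hM2 : M < K.w (K.b e) d := by rw [hM]; linarith
  -- the point with given coordinate `k`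
  set P : ℝ → V := fun t => Function.update (Function.update (Function.update (K.w (K.a e)) d M) k' c) k t
    with hP
  have Pk : ∀ t, P t k = t := fun t => by simp [hP]
  have Pk' : ∀ t, P t k' = c := fun t => by simp [hP, hk'k]
  have Pd : ∀ t, P t d = M := fun t => by
    simp only [hP]
    rw [Function.update_of_ne hk.symm, Function.update_of_ne hk'd.symm, Function.update_self]
  have main : ∀ t m, |t - K.w (K.a e) k| ≤ 2 * S.q e → (t < K.lo q k ∨ K.hi q k < t) →
      K.lo q k < m → m < K.hi q k → (t ≤ m ∧ m ≤ K.w (K.a e) k ∨ K.w (K.a e) k ≤ m ∧ m ≤ t) →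
      False := by
    intro t m ht hout hm1 hm2 hmt
    have htube : ∀ j, j ≠ K.dir e → |P t j - K.w (K.a e) j| ≤ 2 * S.q e := by
      intro j hj
      rcases hcase j with rfl | rfl | rfl
      · rw [Pk']; exact hc3
      · exact absurd rfl hj
      · rw [Pk]; exact ht
    have hPΛ : P t ∈ Λ := by
      refine S.tube_sub e ?_
      intro j
      by_cases hj : j = K.dir e
      · rw [hj, ← hd, Pd]; constructor <;> linarith
      · have h1 := abs_le.1 (htube j hj)
        have h2 := wab K e hj
        constructor <;> linarith [h1.1, h1.2]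
    obtain ⟨q', hq'⟩ := K.cover _ hPΛ
    have heq' : K.edge e ⊆ K.cube q' := by
      refine S.tube_tile e q' (P t) htube ?_ ?_ hq'
      · rw [← hd, Pd]; exact hM1
      · rw [← hd, Pd]; exact hM2
    have hne : q ≠ q' := by
      rintro rfl
      have h1 := hq'.1 k
      have h2 := hq'.2 k
      rw [Pk] at h1 h2
      rcases hout with h | h <;> linarith
    refine K.dis q q' hne (P m) ?_ ?_
    · intro j
      rcases hcase j with rfl | rfl | rfl
      · rw [Pk']; exact ⟨hc1, hc2⟩
      · rw [Pd]; exact ⟨(hwa.1 _).trans_lt hM1, hM2.trans_le (hwb.2 _)⟩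
      · rw [Pk]; exact ⟨hm1, hm2⟩
    · have hwa' := heq' (TM.wa_mem K e)
      have key : ∀ j, K.lo q' j ≤ P m j ∧ P m j ≤ K.hi q' j := by
        intro j
        have h1 := hq'.1 j
        have h2 := hq'.2 j
        rcases hcase j with rfl | rfl | rfl
        · rw [Pk'] at h1 h2 ⊢; exact ⟨h1, h2⟩
        · rw [Pd] at h1 h2 ⊢; exact ⟨h1, h2⟩
        · rw [Pk] at h1 h2 ⊢
          have h3 := hwa'.1 j
          have h4 := hwa'.2 j
          rcases hmt with ⟨h5, h6⟩ | ⟨h5, h6⟩
          · exact ⟨h1.trans h5, h6.trans h4⟩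
          · exact ⟨h3.trans h5, h6.trans h2⟩
      exact ⟨fun j => (key j).1, fun j => (key j).2⟩
  constructor
  · intro hne
    by_contra hcon
    push Not at hcon
    have h1 : K.lo q k < K.w (K.a e) k := lt_of_le_of_ne (hwa.1 k) (Ne.symm hne)
    have h2 := hwa.2 k
    have h3 := K.lt q k
    obtain ⟨t, ht1, ht2⟩ := exists_between hcon
    refine main t ((K.lo q k + K.w (K.a e) k) / 2) ?_ (Or.inl ht2) (by linarith) (by linarith)
      (Or.inl ⟨by linarith, by linarith⟩)
    rw [abs_le]; constructor <;> linarith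
  · intro hne
    by_contra hcon
    push Not at hcon
    have h1 : K.w (K.a e) k < K.hi q k := lt_of_le_of_ne (hwa.2 k) hne
    have h2 := hwa.1 k
    obtain ⟨t, ht1, ht2⟩ := exists_between hcon
    refine main t ((K.hi q k + K.w (K.a e) k) / 2) ?_ (Or.inr ht1) (by linarith) (by linarith)
      (Or.inr ⟨by linarith, by linarith⟩)
    rw [abs_le]; constructor <;> linarith

namespace Geo

variable {G : Geo B} {f : Bool}

/-- **(G5)** the shell in the tube of an edge -/
theorem shell_inl {e : K.G} (hy : y ∈ G.TB false (.inl e)) {q : K.T} (hq : y ∈ K.cube q)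
    (hyk : ∃ k, y k ≤ K.lo q k + G.κ q ∨ K.hi q k - G.κ q ≤ y k) :
    ∃ k, k ≠ K.dir e ∧ |y k - K.w (K.a e) k| ≤ G.κ q ∧
      (K.w (K.a e) k = K.lo q k ∨ K.w (K.a e) k = K.hi q k) := by
  have heq := tile_TB_inl hy hq
  rw [mem_inl] at hy
  simp only [Bool.false_eq_true, if_false] at hy
  have hwa := heq (TM.wa_mem K e)
  have hwb := heq (TM.wb_mem K e)
  have hκ := G.κ_pos q
  have hκa := G.κ_be q _ hwa
  have hκb := G.κ_be q _ hwb
  have hlT := G.lam_T e
  have hTq := (B.T_le e).trans (W.we_le e)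
  have hκu := G.κ_uT q e heq
  have hul := G.uT_lam e
  have hu0 := G.uT_pos e
  have hT0 := B.T_pos e
  obtain ⟨k, hk⟩ := hyk
  have hkd : k ≠ K.dir e := by
    rintro rfl
    rcases hk with hk | hk
    · linarith [hy.1.1, hwa.1 (K.dir e)]
    · linarith [hy.1.2, hwb.2 (K.dir e)]
  have h1 := abs_le.1 (hy.2 k hkd)
  obtain ⟨h2, h3⟩ := tile_far S heq hkd
  rcases hk with hk | hk
  · have h4 : K.w (K.a e) k = K.lo q k := by
      by_contra hne
      have := h2 hne
      linarith
    refine ⟨k, hkd, ?_, Or.inl h4⟩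
    rw [h4, abs_le]
    constructor <;> linarith [hq.1 k]
  · have h4 : K.w (K.a e) k = K.hi q k := by
      by_contra hne
      have := h3 hne
      linarith
    refine ⟨k, hkd, ?_, Or.inr h4⟩
    rw [h4, abs_le]
    constructor <;> linarith [hq.2 k]

theorem shell_aux {s : K.S} (h1 : B.τ s ≤ W.as s y)
    (h2 : |y (K.nrm s) - K.slo s (K.nrm s)| ≤ B.τ s) {q : K.T} (hq : y ∈ K.cube q)
    (hyk : ∃ k, y k ≤ K.lo q k + G.κ q ∨ K.hi q k - G.κ q ≤ y k) :
    |y (K.nrm s) - K.slo s (K.nrm s)| ≤ G.κ q := by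
  have hτ := B.τ_pos s
  have h0 : 0 < W.as s y := hτ.trans_le h1
  have hZ : y ∈ Zs W s := ⟨h0, h2.trans h1⟩
  have hqs := (near_self (Zs_subset hZ)).tile hq
  have hκτ := G.κ_τ q s hqs
  have hκ := G.κ_pos q
  have h2' := abs_le.1 h2
  have hws := B.τ_le s
  obtain ⟨hl1, hl2⟩ := K.s_lev s
  obtain ⟨k, hk⟩ := hyk
  by_cases hkn : k = K.nrm s
  · subst hkn
    rcases hqs with rfl | rfl
    · have h3 := W.ws_le s
      have h5 := hq.2 (K.nrm s)
      rcases hk with hk | hk
      · linarith
      · rw [abs_le]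
        constructor <;> linarith
    · have h3 := W.ws_le' s
      have h5 := hq.1 (K.nrm s)
      rcases hk with hk | hk
      · rw [abs_le]
        constructor <;> linarith
      · linarith
  · exfalso
    have ht := marg_taper h0 (k := k) (by simpa using hkn)
    have e : marg {K.nrm s} (K.slo s) (K.shi s) (W.ws s) y = W.as s y := rfl
    rw [e] at ht
    have hsub : K.sq s ⊆ K.cube q := by
      rcases hqs with rfl | rfl
      · exact (TM.sq_subset K s).1
      · exact (TM.sq_subset K s).2
    have h3 := (hsub (slo_mem s)).1 k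
    have h4 := (hsub (shi_mem s)).2 k
    rcases hk with hk | hk <;> linarith [ht.1, ht.2]

/-- **(G5)** the shell in the box at a hanging vertex -/
theorem shell_inr {h : Hang K} (hy : y ∈ G.TB false (.inr h)) {q : K.T} (hq : y ∈ K.cube q)
    (hyk : ∃ k, y k ≤ K.lo q k + G.κ q ∨ K.hi q k - G.κ q ≤ y k) :
    |y (K.nrm h.s) - K.slo h.s (K.nrm h.s)| ≤ G.κ q :=
  shell_aux (τ_as_TB hy) (by rw [mem_inr] at hy; simpa using hy.2.2) hq hyk

/-- **(G5)** the shell in a plate -/
theorem shell_PB {c : ℝ} (hc : 1 / 2 ≤ c) {s : K.S} (hy : y ∈ G.PB c s) {q : K.T}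
    (hq : y ∈ K.cube q) (hyk : ∃ k, y k ≤ K.lo q k + G.κ q ∨ K.hi q k - G.κ q ≤ y k) :
    |y (K.nrm s) - K.slo s (K.nrm s)| ≤ G.κ q :=
  shell_aux (τ_as_PB hc hy) (mem_PB.1 hy).2 hq hyk

/-! ### side walls -/

/-- position of a point near a side of a square -/
structure Wall (G : Geo B) (s : K.S) (k l : Fin 3) (β : Bool) (y : V) : Prop where
  k_n : k ≠ K.nrm s
  l_n : l ≠ K.nrm s
  k_l : k ≠ l
  n : |y (K.nrm s) - K.slo s (K.nrm s)| ≤ 1 / 2 * B.τ s
  u : 3 / 4 * G.p s ≤ (if β then K.shi s k - y k else y k - K.slo s k) ∧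
    (if β then K.shi s k - y k else y k - K.slo s k) ≤ 3 / 2 * G.p s
  lo : K.slo s l + G.a s ≤ y l
  hi : y l ≤ K.shi s l - G.a s

/-- **(G4)** the side walls of the plates, at distance `a s` from the corners, are in the full
zones of the boxes of round T -/
theorem wall {s : K.S} {k l : Fin 3} {β : Bool} (h : G.Wall s k l β y) :
    (∃ e, K.edge e ⊆ K.sq s ∧ K.dir e = l ∧
      K.w (K.a e) k = (if β then K.shi s k else K.slo s k) ∧ y ∈ G.TB true (.inl e)) ∨
    ∃ b : Hang K, b.s = s ∧ b.k = k ∧ b.l = l ∧ b.β = β ∧ y ∈ G.TB true (.inr b) := by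
  have ha := a_pos (G := G) s
  have hcase := fin3_cases h.k_n h.k_l h.l_n.symm
  set m : ℝ := if β then K.shi s k else K.slo s k with hm
  have hle := TM.slo_le_shi K s
  have hm1 : K.slo s k ≤ m ∧ m ≤ K.shi s k ∧ (m = K.slo s k ∨ m = K.shi s k) := by
    rw [hm]; cases β
    · rw [if_neg Bool.false_ne_true]; exact ⟨le_rfl, hle k, Or.inl rfl⟩
    · rw [if_pos rfl]; exact ⟨hle k, le_rfl, Or.inr rfl⟩
  have hu : |y k - m| ≤ 3 / 2 * G.p s := by
    have := h.u
    rw [hm]
    have hp := G.p_pos s
    cases β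
    · simp only [Bool.false_eq_true, if_false] at this ⊢
      rw [abs_le]; constructor <;> linarith
    · simp only [if_true] at this ⊢
      rw [abs_le]; constructor <;> linarith
  -- the point of the side
  set x : V := Function.update (Function.update (K.slo s) l (y l)) k m with hx
  have xk : x k = m := by simp [hx]
  have xl : x l = y l := by simp [hx, h.k_l.symm]
  have xn : x (K.nrm s) = K.slo s (K.nrm s) := by
    rw [hx, Function.update_of_ne h.k_n.symm, Function.update_of_ne h.l_n.symm]
  have hxs : x ∈ K.sq s := by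
    have : ∀ j, K.slo s j ≤ x j ∧ x j ≤ K.shi s j := by
      intro j
      rcases hcase j with rfl | rfl | rfl
      · rw [xk]; exact ⟨hm1.1, hm1.2.1⟩
      · rw [xn]; exact ⟨le_rfl, hle _⟩
      · rw [xl]; exact ⟨by linarith [h.lo], by linarith [h.hi]⟩
    exact ⟨fun j => (this j).1, fun j => (this j).2⟩
  obtain ⟨e, he, hxe⟩ := K.sq_bd s x hxs ⟨k, h.k_n, by rw [xk]; exact hm1.2.2⟩
  have hes : K.edge e ⊆ K.sq s := he
  have hwa := hes (TM.wa_mem K e)
  have hwb := hes (TM.wb_mem K e)
  have hwan := TM.nrm_eq hwa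
  have hdn : K.dir e ≠ K.nrm s := (nrm_ne_dir hes).symm
  have hdl : K.dir e = l := by
    by_contra hdl
    have hdk : K.dir e = k := by
      rcases hcase (K.dir e) with hh | hh | hh
      · exact hh
      · exact absurd hh hdn
      · exact absurd hh hdl
    -- the midpoint of the edge is in the open square
    have hab := K.ab_dir e
    set y' : V := Function.update (K.w (K.a e)) (K.dir e)
      ((K.w (K.a e) (K.dir e) + K.w (K.b e) (K.dir e)) / 2) with hy'
    have hye : y' ∈ K.edge e := by
      have : ∀ j, K.w (K.a e) j ≤ y' j ∧ y' j ≤ K.w (K.b e) j := by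
        intro j
        by_cases hj : j = K.dir e
        · rw [hj, hy', Function.update_self]; constructor <;> linarith
        · rw [hy', Function.update_of_ne hj]; exact ⟨le_rfl, (wab K e hj).le⟩
      exact ⟨fun j => (this j).1, fun j => (this j).2⟩
    refine K.sqo_edge s y' ?_ (fun j hj => ?_) e hye
    · rw [hy', Function.update_of_ne hdn.symm]; exact hwan
    · rcases hcase j with hjk | hjn | hjl
      · rw [hjk, ← hdk, hy', Function.update_self]
        constructor
        · linarith [hwa.1 (K.dir e)]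
        · linarith [hwb.2 (K.dir e)]
      · exact absurd hjn hj
      · have hld : l ≠ K.dir e := Ne.symm hdl
        rw [hjl, hy', Function.update_of_ne hld, ← edge_coord hxe hld, xl]
        constructor <;> linarith [h.lo, h.hi]
  have hkd : k ≠ K.dir e := by rw [hdl]; exact h.k_l
  have hek : K.w (K.a e) k = m := by rw [← edge_coord hxe hkd, xk]
  have hxl1 := hxe.1 l
  have hxl2 := hxe.2 l
  rw [xl] at hxl1 hxl2
  have hpu := G.p_uT s e hes
  have hτp := G.τ_p s
  have hτ0 := B.τ_pos s
  -- hanging vertices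
  have hang : ∀ i, (i = K.a e ∨ i = K.b e) → |y l - K.w i l| ≤ G.be i →
      ∃ b : Hang K, b.s = s ∧ b.k = k ∧ b.l = l ∧ b.β = β ∧ y ∈ G.TB true (.inr b) := by
    intro i hi hyi
    have hie : K.w i ∈ K.edge e := by
      rcases hi with rfl | rfl
      · exact TM.wa_mem K e
      · exact TM.wb_mem K e
    have his := hes hie
    have hba := G.be_a s i his
    have hyi' := abs_le.1 hyi
    have hbe := G.be_pos i
    let b : Hang K :=
      { i := i, s := s, k := k, l := l, β := β, k_n := h.k_n, l_n := h.l_n, k_l := h.k_l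
        nrm := TM.nrm_eq his
        side := by rw [edge_coord hie hkd, hek]
        lo := by linarith [h.lo]
        hi := by linarith [h.hi] }
    refine ⟨b, rfl, rfl, rfl, rfl, ?_⟩
    rw [mem_inr]
    simp only [if_true]
    exact ⟨hyi, h.u, h.n⟩
  by_cases h1 : K.w (K.a e) l + G.be (K.a e) ≤ y l
  · by_cases h2 : y l ≤ K.w (K.b e) l - G.be (K.b e)
    · left
      refine ⟨e, hes, hdl, hek, ?_⟩
      rw [mem_inl]
      refine ⟨by rw [hdl]; exact ⟨h1, h2⟩, fun j hj => ?_⟩
      simp only [if_true]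
      rcases hcase j with rfl | rfl | rfl
      · rw [hek]; linarith
      · rw [hwan]
        have := h.n
        linarith
      · exact absurd hdl.symm hj
    · right
      push Not at h2
      exact hang (K.b e) (Or.inr rfl) (by
        rw [abs_le]; constructor <;> linarith [G.be_pos (K.b e)])
  · right
    push Not at h1
    exact hang (K.a e) (Or.inl rfl) (by
      rw [abs_le]; constructor <;> linarith [G.be_pos (K.a e)])

end Geo

end Vale.Agent.P073.H267
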