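import Vale.Agent.P073.H267.Geo4
import Vale.Agent.P073.H236.Stage3
import Vale.Agent.P073.H238.StepT

/-!
# P073, block A14 (ROUND T / P): closeness of the output of a round

`h` (input), `hS` (after STEP S), `κ` (insertion map), `g` with `g '' X = Pre κ Λ hS X`, `S` (staircase
after the insertion). All changes take place in the boxes `K b` and have size at most `r b`.
-/

open Set Metric Topology Filter

namespace Vale.Agent.P073.H267

open _root_.P073 _root_.P073.Net _root_.P073.PA691 _root_.P073.TM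
open _root_.P073.PR720 (LF)
open Vale.Agent.P073.St (V)
open Vale.Agent.P073.H471

variable {ι : Type*} {K : ι → Set V} {r r' : ι → ℝ}

/-- `T` moves the points of `K b` by at most `r b`, inside `K b`, and fixes the other points. -/
structure Mv (K : ι → Set V) (r : ι → ℝ) (T : V → V) : Prop where
  mem : ∀ b, ∀ y ∈ K b, T y ∈ K b
  near : ∀ b, ∀ y ∈ K b, ‖T y - y‖ ≤ r b
  off : ∀ y, (∀ b, y ∉ K b) → T y = y

theorem Mv.mono {T : V → V} (h : Mv K r T) (hr : ∀ b, r b ≤ r' b) : Mv K r' T :=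
  ⟨h.mem, fun b y hy => (h.near b y hy).trans (hr b), h.off⟩

/-- the staircase of a family of boxes -/
theorem mv_isS {Λ : Set V} {F : P073.H236.BFam 3 ι Λ} {S : ConHomeo Λ Λ} (hS : F.IsS S) :
    Mv (fun b => (F.B b).K) F.D S.toFun where
  mem := fun _ _ hy => hS.mem hy
  near := fun _ _ hy => hS.norm_sub_le hy
  off := hS.off

/-- the change of a map in the boxes -/
structure Rl {E : Type*} (K : ι → Set V) (r : ι → ℝ) (Ω : Set E) (h h' : E → V) : Prop where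
  mem : ∀ b, ∀ x ∈ Ω, h' x ∈ K b → h x ∈ K b
  near : ∀ b, ∀ x ∈ Ω, h x ∈ K b → ‖h' x - h x‖ ≤ r b
  off : ∀ x ∈ Ω, (∀ b, h x ∉ K b) → h' x = h x

theorem Rl.mono {E : Type*} {Ω : Set E} {h h' : E → V} (H : Rl K r Ω h h')
    (hr : ∀ b, r b ≤ r' b) : Rl K r' Ω h h' :=
  ⟨H.mem, fun b x hx hy => (H.near b x hx hy).trans (hr b), H.off⟩

theorem Rl.refl {E : Type*} {Ω : Set E} {h : E → V} (hr : ∀ b, 0 ≤ r b) : Rl K r Ω h h :=
  ⟨fun _ _ _ hx => hx, fun b x _ _ => by rw [sub_self, norm_zero]; exact hr b, fun _ _ _ => rfl⟩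

/-- the output of STEP S, boxes with disjoint interiors -/
theorem rl_of_step {Ω Λ X : Set V} {h h' : ConHomeo Ω Λ} {J : ι → Type*} {A : ∀ g, J g → Set V}
    {F : ∀ g j, P073.H238.PFace (A g j)} {Lv : ι → Set (Fin 3 × ℝ)} {ω : ι → ℝ}
    {Q : ι → Set (Set V)} (hω : ∀ b, 0 ≤ ω b)
    (H : P073.H238.StepOut X h F Lv ω (fun b => interior (K b)) Q h')
    (hdis : ∀ b b', b ≠ b' → Disjoint (interior (K b)) (K b')) :
    Rl K (fun b => 12 * ω b) Ω h.toFun h'.toFun where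
  mem := by
    intro b x hx hb
    by_cases hex : ∃ c, h.toFun x ∈ interior (K c)
    · obtain ⟨c, hc⟩ := hex
      have h1 : h'.toFun x ∈ interior (K c) := (H.mem c x hx).2 hc
      have hcb : c = b := by
        by_contra hne
        exact (hdis c b hne).notMem_of_mem_left h1 hb
      subst hcb
      exact interior_subset hc
    · push Not at hex
      have := (H.off x hx hex).self_of_nhds
      rwa [this] at hb
  near := by
    intro b x hx hb
    by_cases hex : ∃ c, h.toFun x ∈ interior (K c)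
    · obtain ⟨c, hc⟩ := hex
      have hcb : c = b := by
        by_contra hne
        exact (hdis c b hne).notMem_of_mem_left hc hb
      subst hcb
      have := H.all c x hx hc
      rwa [dist_eq_norm] at this
    · push Not at hex
      rw [(H.off x hx hex).self_of_nhds, sub_self, norm_zero]
      have := hω b
      positivity
  off := fun x hx hno => (H.off x hx fun g hg => hno g (interior_subset hg)).self_of_nhds

section

variable {E : Type*} [NormedAddCommGroup E] [NormedSpace ℝ E] {Ω : Set E} {Λ : Set V}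
  {h hS g : ConHomeo Ω Λ} {S : ConHomeo Λ Λ} {κ : V → V} {X : Set E}

/-- **closeness**: every point of `S (g X)` is close to a point of `h X` -/
theorem exists_near (hr : ∀ b, 0 ≤ r b) (H : Rl K r Ω h.toFun hS.toFun) (hκ : Mv K r κ)
    (hSm : Mv K r S.toFun) (hX : g.toFun '' X = P073.H579.Pre κ Λ hS X) (hXΩ : X ⊆ Ω) {x : E}
    (hx : x ∈ X) : ∃ x' ∈ X, S.toFun (g.toFun x) = h.toFun x' ∨
      ∃ b, h.toFun x' ∈ K b ∧ ‖S.toFun (g.toFun x) - h.toFun x'‖ ≤ 3 * r b := by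
  have h1 : g.toFun x ∈ P073.H579.Pre κ Λ hS X := by rw [← hX]; exact ⟨x, hx, rfl⟩
  obtain ⟨x', hx', he⟩ := h1.2
  refine ⟨x', hx', ?_⟩
  by_cases hex : ∃ b, g.toFun x ∈ K b
  · obtain ⟨b, hb⟩ := hex
    right
    have h2 := hκ.mem b _ hb
    rw [← he] at h2
    have h3 := H.mem b x' (hXΩ hx') h2
    refine ⟨b, h3, ?_⟩
    have h4 := hSm.near b _ hb
    have h5 := hκ.near b _ hb
    have h6 := H.near b x' (hXΩ hx') h3
    rw [← he] at h5
    have h7 : S.toFun (g.toFun x) - h.toFun x' = (S.toFun (g.toFun x) - g.toFun x) -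
      (hS.toFun x' - g.toFun x) + (hS.toFun x' - h.toFun x') := by abel
    rw [h7]
    refine (norm_add_le _ _).trans ?_
    have := norm_sub_le (S.toFun (g.toFun x) - g.toFun x) (hS.toFun x' - g.toFun x)
    linarith
  · push Not at hex
    rw [hκ.off _ hex] at he
    rw [hSm.off _ hex, ← he]
    by_cases hex' : ∃ b, h.toFun x' ∈ K b
    · obtain ⟨b, hb⟩ := hex'
      right
      refine ⟨b, hb, (H.near b x' (hXΩ hx') hb).trans ?_⟩
      linarith [hr b]
    · push Not at hex'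
      left
      exact H.off x' (hXΩ hx') hex'

/-- **(T2)** in terms of numbers `om` of the tiles `C q` -/
theorem T2 {T : Type*} {C : T → Set V} {om : T → ℝ} (hr : ∀ b, 0 ≤ r b)
    (H : Rl K r Ω h.toFun hS.toFun) (hκ : Mv K r κ)
    (hSm : Mv K r S.toFun) (hX : g.toFun '' X = P073.H579.Pre κ Λ hS X) (hXΩ : X ⊆ Ω)
    (hrq : ∀ b q, (C q ∩ K b).Nonempty → 24 * r b ≤ om q)
    (hcov : ∀ y ∈ Λ, ∃ q, y ∈ C q)
    (hcmp : ∀ x ∈ X, ∀ x' ∈ X, ∀ q q', h.toFun x ∈ C q → h.toFun x' ∈ C q' →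
      ‖h.toFun x - h.toFun x'‖ ≤ om q / 2 ∧ om q' ≤ 4 * om q) {x : E} (hx : x ∈ X) {q : T}
    (hq : h.toFun x ∈ C q) : ‖S.toFun (g.toFun x) - h.toFun x‖ ≤ om q := by
  obtain ⟨x', hx', he⟩ := exists_near hr H hκ hSm hX hXΩ hx
  obtain ⟨q', hq'⟩ := hcov _ (h.mapsTo (hXΩ hx'))
  obtain ⟨h1, h2⟩ := hcmp x hx x' hx' q q' hq hq'
  rw [norm_sub_rev] at h1
  rcases he with he | ⟨b, hb, he⟩
  · rw [he]
    linarith [norm_nonneg (h.toFun x' - h.toFun x)]
  · have h3 := hrq b q' ⟨_, hq', hb⟩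
    have h4 := norm_sub_le_norm_sub_add_norm_sub (S.toFun (g.toFun x)) (h.toFun x') (h.toFun x)
    linarith

/-- **(T3)** nothing happens far from the boxes; `W`: the faces which miss the boxes are left alone
by the insertion -/
theorem T3 (H : Rl K r Ω h.toFun hS.toFun) (hSm : Mv K r S.toFun) (hXΩ : X ⊆ Ω)
    (hW : (∀ x ∈ X, ∀ b, hS.toFun x ∉ K b) → EqOn g.toFun hS.toFun X)
    (hno : ∀ x ∈ X, ∀ b, h.toFun x ∉ K b) :
    ∀ x ∈ X, S.toFun (g.toFun x) = h.toFun x := by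
  have h1 : ∀ x ∈ X, hS.toFun x = h.toFun x := fun x hx => H.off x (hXΩ hx) (hno x hx)
  have h2 := hW fun x hx b => by rw [h1 x hx]; exact hno x hx b
  intro x hx
  rw [h2 hx, h1 x hx, hSm.off _ (hno x hx)]

/-- the image of a set which misses the boxes does not change -/
theorem image_eq (H : Rl K r Ω h.toFun hS.toFun) (hκ : Mv K r κ) (hSm : Mv K r S.toFun)
    (hX : g.toFun '' X = P073.H579.Pre κ Λ hS X) (hXΩ : X ⊆ Ω)
    (hno : ∀ x ∈ X, ∀ b, h.toFun x ∉ K b) :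
    (g.trans S).toFun '' X = h.toFun '' X := by
  have h1 : ∀ x ∈ X, hS.toFun x = h.toFun x := fun x hx => H.off x (hXΩ hx) (hno x hx)
  have h2 : g.toFun '' X = h.toFun '' X := by
    rw [hX]
    ext y
    constructor
    · rintro ⟨-, x, hx, he⟩
      have h3 : ∀ b, y ∉ K b := by
        intro b hb
        have := hκ.mem b y hb
        rw [← he, h1 x hx] at this
        exact hno x hx b this
      rw [hκ.off y h3] at he
      exact ⟨x, hx, by rw [← h1 x hx, he]⟩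
    · rintro ⟨x, hx, rfl⟩
      refine ⟨h.mapsTo (hXΩ hx), x, hx, ?_⟩
      rw [h1 x hx, hκ.off _ (hno x hx)]
  have h3 : (g.trans S).toFun '' X = S.toFun '' (g.toFun '' X) := by
    rw [← image_comp]; rfl
  rw [h3, h2]
  ext y
  constructor
  · rintro ⟨_, ⟨x, hx, rfl⟩, rfl⟩
    exact ⟨x, hx, (hSm.off _ (hno x hx)).symm⟩
  · rintro ⟨x, hx, rfl⟩
    exact ⟨_, ⟨x, hx, rfl⟩, hSm.off _ (hno x hx)⟩

end

/-! ### numbers -/

variable {Λ : Set V} {ρ : V → ℝ} {v : V} {Kx : BoxCx Λ v}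

/-- tiles at nearby points have comparable sizes -/
theorem sT_near (C : Cells ρ v Kx) (hρ : SizeFn Λ ρ) {q q' : Kx.T} {y y' : V}
    (hy : y ∈ Kx.cube q) (hy' : y' ∈ Kx.cube q') (h : ‖y - y'‖ ≤ C.sT q) :
    C.sT q' ≤ 4 * C.sT q := by
  rw [C.cube_eq] at hy hy'
  have h1 := (C.tile q').1 y' hy'
  have h2 := Net.NC.upper hρ (C.tile q) hy
  have h3 := hρ.lip y' y
  rw [norm_sub_rev] at h3
  have e : C.sT q = 1 / 2 ^ (C.fT q).1 := rfl
  have e' : C.sT q' = 1 / 2 ^ (C.fT q').1 := rfl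
  have h4 : (4:ℝ) / 2 ^ (C.fT q).1 = 4 * (1 / 2 ^ (C.fT q).1) := by ring
  rw [e] at h
  have h5 : (1:ℝ) / 2 ^ (C.fT q').1 ≤ 5 * (1 / 2 ^ (C.fT q).1) := by
    have := abs_le.1 (le_refl |ρ y' - ρ y|)
    linarith [le_abs_self (ρ y' - ρ y)]
  have h6 := TM.IsCell.pow_le_of (C := 5) (by norm_num) h5
  rw [e, e']
  exact sd_le_of_le h6

/-- size of a box of round T -/
noncomputable def sB (C : Cells ρ v Kx) : TBx Kx → ℝ
  | .inl e => C.sG e
  | .inr h => C.sS h.s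

theorem sB_pos (C : Cells ρ v Kx) (b : TBx Kx) : 0 < sB C b := by
  rcases b with e | h
  · exact C.sG_pos e
  · exact C.sS_pos h.s

theorem sB_le (C : Cells ρ v Kx) (hρ : SizeFn Λ ρ) {S : Rad Kx} {W : Wid Kx S} {B : Boxes W}
    (G : Geo B) {b : TBx Kx} {q : Kx.T} (h : (Kx.cube q ∩ G.TB false b).Nonempty) :
    sB C b ≤ C.sT q ∧ C.sT q ≤ 4 * sB C b := by
  obtain ⟨y, hq, hy⟩ := h
  rcases b with e | h
  · exact C.sG_sT hρ (Geo.tile_TB_inl hy hq)
  · refine C.sS_sT hρ ?_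
    rcases Geo.tile_TB_inr hy hq with h1 | h1
    · rw [h1]; exact (TM.sq_subset Kx h.s).1
    · rw [h1]; exact (TM.sq_subset Kx h.s).2

theorem sS_le (C : Cells ρ v Kx) (hρ : SizeFn Λ ρ) {S : Rad Kx} {W : Wid Kx S} {B : Boxes W}
    (G : Geo B) {c : ℝ} (hc : 1 / 2 ≤ c) {s : Kx.S} {q : Kx.T}
    (h : (Kx.cube q ∩ G.PB c s).Nonempty) : C.sS s ≤ C.sT q ∧ C.sT q ≤ 4 * C.sS s := by
  obtain ⟨y, hq, hy⟩ := h
  refine C.sS_sT hρ ?_
  rcases Geo.tile_PB hc hy hq with h1 | h1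
  · rw [h1]; exact (TM.sq_subset Kx s).1
  · rw [h1]; exact (TM.sq_subset Kx s).2

end Vale.Agent.P073.H267
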