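import Vale.Agent.P073.H267.Geo6
import Vale.Agent.P073.H267.TNear
import Vale.Agent.P073.H471.GeoCover
import Vale.Agent.P073.H238.TStage1
import Vale.Agent.P073.H73.K2S
import Vale.Agent.P073.H471.TileSt

/-!
# P073, block A14 ([T2-NUM]): the numbers of `K2C`

For a number `η₀ ≤` scale of the sharp clauses: `μN` (slopes of the soft collapse), `AN`, `cN`
(zones), `κN` (shell), `oN` (margins), `δN` (oscillation of the faces), and for a box `b` resp. a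
square `s` the bounds `ωT b`, `ωS s` of the oscillation of the faces.
-/

open Set Metric Topology Filter

namespace Vale.Agent.P073.H267

open _root_.P073 _root_.P073.Net _root_.P073.PA691 _root_.P073.TM
open _root_.P073.PR720 (LF)
open Vale.Agent.P073.St (V)
open Vale.Agent.P073.H471
open Vale.Agent.P073.H73 (Mesh Aligned)
open Vale.Agent.P073.H238 (TProt)

/-- slopes of the soft collapse -/
noncomputable def μN (η₀ : ℝ) : ℝ := η₀ / 64
/-- size of the zones of the vertices -/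
noncomputable def AN (η₀ : ℝ) : ℝ := μN η₀ / 128
/-- size of the other zones -/
noncomputable def cN (η₀ : ℝ) : ℝ := μN η₀ ^ 2 / 64
/-- size of the shell -/
noncomputable def κN (η₀ : ℝ) : ℝ := μN η₀ * cN η₀ / 536870912
/-- margins -/
noncomputable def oN (η₀ : ℝ) : ℝ := κN η₀ / 4000
/-- oscillation -/
noncomputable def δN (η₀ : ℝ) : ℝ := oN η₀ / 4096

section
variable {η₀ : ℝ}

theorem μN_pos (h : 0 < η₀) : 0 < μN η₀ := by unfold μN; positivity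
theorem AN_pos (h : 0 < η₀) : 0 < AN η₀ := by have := μN_pos h; unfold AN; positivity
theorem cN_pos (h : 0 < η₀) : 0 < cN η₀ := by have := μN_pos h; unfold cN; positivity
theorem μN_lt (h : η₀ < 1 / 4) : μN η₀ < 1 / 256 := by unfold μN; linarith
theorem cN_μ (h : 0 < η₀) (h1 : η₀ < 1 / 4) : cN η₀ ≤ μN η₀ / 16384 := by
  have h2 := μN_pos h
  have h3 := μN_lt h1
  unfold cN
  nlinarith
theorem cN_AN : cN η₀ = 2 * (μN η₀ * AN η₀) := by unfold cN AN; ring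
theorem cN_A (h : 0 < η₀) (h1 : η₀ < 1 / 4) : cN η₀ ≤ AN η₀ := by
  have h2 := cN_μ h h1
  have h3 := μN_pos h
  unfold AN
  linarith
theorem AN_le (h : η₀ < 1 / 4) : AN η₀ ≤ 1 / 128 := by
  have := μN_lt h
  unfold AN; linarith
theorem AN_η (h : 0 < η₀) : 8 * AN η₀ ≤ η₀ := by unfold AN μN; linarith
theorem κN_pos (h : 0 < η₀) : 0 < κN η₀ := by
  have := cN_pos h
  have := μN_pos h
  unfold κN; positivity
theorem oN_pos (h : 0 < η₀) : 0 < oN η₀ := by have := κN_pos h; unfold oN; positivity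
theorem δN_pos (h : 0 < η₀) : 0 < δN η₀ := by have := oN_pos h; unfold δN; positivity
theorem cN_le (h : 0 < η₀) (h1 : η₀ < 1 / 4) : cN η₀ ≤ 1 / 128 := (cN_A h h1).trans (AN_le h1)
theorem κN_eq (h : 0 < η₀) (h1 : η₀ < 1 / 4) : κN η₀ ≤ cN η₀ / 536870912 := by
  have h2 := cN_pos h
  have h3 := μN_lt h1
  unfold κN
  nlinarith
theorem oN_eq : 4000 * oN η₀ ≤ κN η₀ := by unfold oN; linarith
theorem δN_eq : 4096 * δN η₀ = oN η₀ := by unfold δN; ring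
theorem cN_η (h : 0 < η₀) (h1 : η₀ < 1 / 4) : 8 * cN η₀ ≤ η₀ := by
  linarith [cN_A h h1, AN_η h]
theorem δN_κ (h : 0 < η₀) : δN η₀ ≤ κN η₀ := by
  have h1 := δN_eq (η₀ := η₀)
  have h2 := oN_eq (η₀ := η₀)
  have h3 := δN_pos h
  have h4 := oN_pos h
  linarith
theorem κN_le (h : 0 < η₀) (h1 : η₀ < 1 / 4) : 2 * κN η₀ ≤ η₀ := by
  have := cN_η h h1
  linarith [cN_pos h, κN_eq h h1]
theorem κN_le_one (h : 0 < η₀) (h1 : η₀ < 1 / 4) : 2 * κN η₀ ≤ 1 := by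
  have := κN_le h h1; linarith

end

/-- The hypotheses of `K2C`, with these numbers. -/
structure KIn (η₀ : ℝ) {Ω Λ : Set V} (w : V) (ρ : V → ℝ) (M : Mesh Ω) (h : ConHomeo Ω Λ)
    (P : Set M.ι) : Prop where
  pos : 0 < η₀
  lt : η₀ < 1 / 4
  bΩ : St.IsBoundedDomain Ω
  bΛ : St.IsBoundedDomain Λ
  hρ : SizeFn Λ ρ
  /-- the faces are mapped outside of the middle cubes -/
  out : ∀ k, ∀ x ∈ M.F k, ∀ m z, IsTile ρ w m z →
    h.toFun x ∉ closedBall (H73.ctr w m z) ((1 - 2 * κN η₀) / 2 / 2 ^ m)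
  /-- the images of the faces are small -/
  osc : ∀ k, ∀ x ∈ M.F k, ∀ y ∈ M.F k, ∀ m z, IsTile ρ w m z → h.toFun x ∈ dyc w m z →
    ‖h.toFun x - h.toFun y‖ ≤ δN η₀ / 2 ^ m
  al : Aligned w ρ M h.toFun P

variable {η₀ : ℝ} {Ω Λ : Set V} {w : V} {ρ : V → ℝ} {M : Mesh Ω} {h : ConHomeo Ω Λ} {P : Set M.ι}
  {K : BoxCx Λ w}

/-- the widths -/
noncomputable abbrev KIn.W (D : KIn η₀ w ρ M h P) (C : Cells ρ w K) : Wid K (C.rad D.hρ) :=
  C.wid D.hρ (A := AN η₀) (B := cN η₀) (D := 8 * cN η₀)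
    ((cN_pos D.pos).trans_le (cN_A D.pos D.lt)) (cN_pos D.pos)
    (by linarith [cN_pos D.pos]) (AN_le D.lt) ((cN_A D.pos D.lt).trans (AN_le D.lt))
    (by linarith [cN_le D.pos D.lt])

/-- the boxes -/
noncomputable abbrev KIn.B (D : KIn η₀ w ρ M h P) (C : Cells ρ w K) : Boxes (D.W C) :=
  uBoxes C D.hρ (cN_pos D.pos) (cN_A D.pos D.lt) (AN_le D.lt)

/-- the numbers -/
noncomputable abbrev KIn.G (D : KIn η₀ w ρ M h P) (C : Cells ρ w K) : Geo (D.B C) :=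
  uGeo C D.hρ (cN_pos D.pos) (cN_A D.pos D.lt) (AN_le D.lt) (κN_eq D.pos D.lt) (oN_pos D.pos)
    oN_eq

/-- oscillation of the faces at a box of round T -/
noncomputable def ωT (η₀ : ℝ) (C : Cells ρ w K) : TBx K → ℝ
  | .inl e => 4 * δN η₀ * C.sG e
  | .inr i => 4 * δN η₀ * C.sW i.i

/-- oscillation of the faces at a square -/
noncomputable def ωS (η₀ : ℝ) (C : Cells ρ w K) (s : K.S) : ℝ := 4 * δN η₀ * C.sS s

/-- oscillation of the faces at a vertex -/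
noncomputable def ωW (η₀ : ℝ) (C : Cells ρ w K) (i : K.W) : ℝ := 4 * δN η₀ * C.sW i

namespace KIn

variable (D : KIn η₀ w ρ M h P) (C : Cells ρ w K)
include D C

theorem ωT_pos (b : TBx K) : 0 < ωT η₀ C b := by
  have h1 := δN_pos D.pos
  rcases b with e | i
  · have := C.sG_pos e
    show 0 < 4 * δN η₀ * C.sG e
    positivity
  · have := C.sW_pos i.i
    show 0 < 4 * δN η₀ * C.sW i.i
    positivity

theorem ωS_pos (s : K.S) : 0 < ωS η₀ C s := by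
  have h1 := δN_pos D.pos
  have := C.sS_pos s
  unfold ωS; positivity

theorem ωW_pos (i : K.W) : 0 < ωW η₀ C i := by
  have h1 := δN_pos D.pos
  have := C.sW_pos i
  unfold ωW; positivity

theorem ωT_oT (b : TBx K) : 4096 * ωT η₀ C b = H238.oT (D.G C) b := by
  have h1 := δN_eq (η₀ := η₀)
  rcases b with e | i
  · show 4096 * (4 * δN η₀ * C.sG e) = 4 * oN η₀ * C.sG e
    rw [← h1]; ring
  · show 4096 * (4 * δN η₀ * C.sW i.i) = 4 * oN η₀ * C.sW i.i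
    rw [← h1]; ring

theorem ωT_le (b : TBx K) : ωT η₀ C b ≤ H238.oT (D.G C) b := by
  have h1 := D.ωT_oT C b
  have h2 := D.ωT_pos C b
  linarith

theorem ωS_oS (s : K.S) : 4096 * ωS η₀ C s = (D.G C).oS s := by
  have h1 := δN_eq (η₀ := η₀)
  show 4096 * (4 * δN η₀ * C.sS s) = 4 * oN η₀ * C.sS s
  rw [← h1]; ring

omit D C in
/-- the oscillation in terms of a tile -/
theorem osc_tile (D : KIn η₀ w ρ M h P) (C : Cells ρ w K) {k : M.κ} {x y : V} (hx : x ∈ M.F k)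
    (hy : y ∈ M.F k) {q : K.T} (hq : h.toFun x ∈ K.cube q) :
    ‖h.toFun x - h.toFun y‖ ≤ δN η₀ * C.sT q := by
  obtain ⟨m, z, h1, h2, h3⟩ := tile_of C q
  rw [h2] at hq
  have := D.osc k x hx y hy m z h1 hq
  rw [h3]
  calc _ ≤ δN η₀ / 2 ^ m := this
    _ = δN η₀ * (1 / 2 ^ m) := by ring

/-- `ωT b` is small compared with the tiles which meet the box -/
theorem ωT_tile {b : TBx K} {y : V} (hy : y ∈ (D.G C).TB false b) {q : K.T} (hq : y ∈ K.cube q) :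
    δN η₀ * C.sT q ≤ ωT η₀ C b ∧ ωT η₀ C b ≤ 4 * δN η₀ * C.sT q := by
  have h0 := δN_pos D.pos
  rcases b with e | i
  · obtain ⟨h1, h2⟩ := C.sG_sT D.hρ (Geo.tile_TB_inl hy hq)
    constructor
    · show _ ≤ 4 * δN η₀ * C.sG e
      nlinarith
    · show 4 * δN η₀ * C.sG e ≤ _
      exact mul_le_mul_of_nonneg_left h1 (by positivity)
  · have hsub : K.sq i.s ⊆ K.cube q := by
      rcases Geo.tile_TB_inr hy hq with h1 | h1
      · rw [h1]; exact (TM.sq_subset K i.s).1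
      · rw [h1]; exact (TM.sq_subset K i.s).2
    obtain ⟨h1, h2⟩ := C.sW_sT D.hρ (hsub (Geo.hang_mem i))
    constructor
    · show _ ≤ 4 * δN η₀ * C.sW i.i
      nlinarith
    · show 4 * δN η₀ * C.sW i.i ≤ _
      exact mul_le_mul_of_nonneg_left h1 (by positivity)

theorem ωS_tile {c : ℝ} (hc : 1 / 2 ≤ c) {s : K.S} {y : V} (hy : y ∈ (D.G C).PB c s) {q : K.T}
    (hq : y ∈ K.cube q) : δN η₀ * C.sT q ≤ ωS η₀ C s ∧ ωS η₀ C s ≤ 4 * δN η₀ * C.sT q := by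
  have h0 := δN_pos D.pos
  have hsub : K.sq s ⊆ K.cube q := by
    rcases Geo.tile_PB hc hy hq with h1 | h1
    · rw [h1]; exact (TM.sq_subset K s).1
    · rw [h1]; exact (TM.sq_subset K s).2
  obtain ⟨h1, h2⟩ := C.sS_sT D.hρ hsub
  constructor
  · unfold ωS; nlinarith
  · exact mul_le_mul_of_nonneg_left h1 (by positivity)

/-- **oscillation at the boxes of round T** -/
theorem osc_T (b : TBx K) (k : M.κ) : ∀ x ∈ M.F k, ∀ y ∈ M.F k, h.toFun x ∈ (D.G C).TB false b →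
    dist (h.toFun x) (h.toFun y) ≤ ωT η₀ C b := by
  intro x hx y hy hb
  obtain ⟨q, hq⟩ := K.cover _ (Geo.TB_sub b hb)
  rw [dist_eq_norm]
  exact (osc_tile D C hx hy hq).trans (D.ωT_tile C hb hq).1

/-- **oscillation at the plates** -/
theorem osc_S {c : ℝ} (hc : 1 / 2 ≤ c) (s : K.S) (k : M.κ) : ∀ x ∈ M.F k, ∀ y ∈ M.F k,
    h.toFun x ∈ (D.G C).PB c s → dist (h.toFun x) (h.toFun y) ≤ ωS η₀ C s := by
  intro x hx y hy hb
  obtain ⟨q, hq⟩ := K.cover _ (Geo.PB_sub hc s hb)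
  rw [dist_eq_norm]
  exact (osc_tile D C hx hy hq).trans (D.ωS_tile C hc hb hq).1

/-- the protected cells -/
theorem tprot : TProt K M h P where
  box := D.al.box
  tile := fun i hi q => by
    obtain ⟨m, z, h1, h2, -⟩ := tile_of C q
    rw [h2]
    refine (D.al.tile i hi m z h1).imp_right fun h3 => ?_
    have : interior (dyc w m z) = dyo w m z := by
      rw [dyc_eq_closedBall, dyo_eq_ball]
      exact interior_closedBall _ (by positivity)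
    rw [this]; exact h3
  aff := D.al.aff

/-- the points of the faces are in the shells of the tiles -/
theorem shell {k : M.κ} {x : V} (hx : x ∈ M.F k) (q : K.T) :
    ∃ j, h.toFun x j ≤ K.lo q j + (D.G C).κ q ∨ K.hi q j - (D.G C).κ q ≤ h.toFun x j :=
  shell_of C (D.out k x hx _ _ (C.tile q)) (κN_le_one D.pos D.lt)

/-- **every face is in one zone, with large margins** -/
theorem cover_face (k : M.κ) :
    (∃ s, (∀ x ∈ M.F k, closedBall (h.toFun x) (9000 * ωS η₀ C s) ⊆ (D.B C).P s ∧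
      closedBall (h.toFun x) (9000 * ωS η₀ C s) ⊆ (D.G C).PB 2 s) ∧
      ∀ x ∈ M.F k, |h.toFun x (K.nrm s) - K.slo s (K.nrm s)| ≤ (D.B C).τ s / 4) ∨
    (∃ e, (∀ x ∈ M.F k, closedBall (h.toFun x) (9000 * ωT η₀ C (.inl e)) ⊆ (D.B C).E e) ∧
      ((∀ x ∈ M.F k, closedBall (h.toFun x) (9000 * ωT η₀ C (.inl e)) ⊆
        (D.G C).TB true (.inl e)) ∨
        ∃ s, K.edge e ⊆ K.sq s ∧ (∀ x ∈ M.F k,
          closedBall (h.toFun x) (9000 * ωS η₀ C s) ⊆ (D.G C).PB 2 s) ∧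
          ∀ x ∈ M.F k, |h.toFun x (K.nrm s) - K.slo s (K.nrm s)| ≤ (D.B C).τ s / 4)) ∨
    ∃ i, ∀ x ∈ M.F k, closedBall (h.toFun x) (9000 * ωW η₀ C i) ⊆
      Zv (D.W C) i := by
  obtain ⟨x₀, hx₀⟩ : (M.F k).Nonempty := by
    obtain ⟨φ, -⟩ := (M.fat k).chart
    exact ⟨_, φ.mapsTo (show ((0:ℝ), (0:ℝ)) ∈ H73.usq from
      ⟨⟨le_rfl, zero_le_one⟩, ⟨le_rfl, zero_le_one⟩⟩)⟩
  have hxΛ : h.toFun x₀ ∈ Λ := h.mapsTo (H238.mesh_sub M k hx₀)
  obtain ⟨q, hq⟩ := K.cover _ hxΛ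
  have h0 := δN_pos D.pos
  have h1 := δN_eq (η₀ := η₀)
  have hT := C.sT_pos q
  have hom : (D.G C).om q = 4096 * (δN η₀ * C.sT q) := by
    show oN η₀ * C.sT q = _
    rw [← h1]; ring
  have hosc : ∀ x ∈ M.F k, ‖h.toFun x₀ - h.toFun x‖ ≤ δN η₀ * C.sT q := fun x hx =>
    osc_tile D C hx₀ hx hq
  have hδT : 0 < δN η₀ * C.sT q := mul_pos h0 hT
  -- transfer of margins
  have key : ∀ X : Set V, closedBall (h.toFun x₀) (10 * (D.G C).om q) ⊆ X → ∀ t : ℝ,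
      t ≤ 4 * δN η₀ * C.sT q → ∀ x ∈ M.F k, closedBall (h.toFun x) (9000 * t) ⊆ X := by
    intro X hX t ht x hx y hy
    refine hX ?_
    rw [mem_closedBall] at hy ⊢
    have h2 := dist_triangle y (h.toFun x) (h.toFun x₀)
    have h3 := hosc x hx
    rw [← dist_eq_norm, dist_comm] at h3
    rw [hom]
    linarith
  have keyn : ∀ s : K.S, (q = K.sm s ∨ q = K.sp s) →
      |h.toFun x₀ (K.nrm s) - K.slo s (K.nrm s)| ≤ (D.G C).κ q →
      ∀ x ∈ M.F k, |h.toFun x (K.nrm s) - K.slo s (K.nrm s)| ≤ (D.B C).τ s / 4 := by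
    intro s hs hn x hx
    have h2 := (D.G C).κ_τ q s hs
    have h3 := (D.G C).om_κ q
    rw [hom] at h3
    have h4 := norm_le_pi_norm (h.toFun x₀ - h.toFun x) (K.nrm s)
    rw [Pi.sub_apply, Real.norm_eq_abs, abs_sub_comm] at h4
    have h5 := hosc x hx
    have h6 := abs_sub_le (h.toFun x (K.nrm s)) (h.toFun x₀ (K.nrm s)) (K.slo s (K.nrm s))
    linarith
  have hsT : ∀ s : K.S, (q = K.sm s ∨ q = K.sp s) → ωS η₀ C s ≤ 4 * δN η₀ * C.sT q := by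
    intro s hs
    have hsub : K.sq s ⊆ K.cube q := by
      rcases hs with rfl | rfl
      · exact (TM.sq_subset K s).1
      · exact (TM.sq_subset K s).2
    exact mul_le_mul_of_nonneg_left (C.sS_sT D.hρ hsub).1 (by positivity)
  rcases (D.G C).cover hq (D.shell C hx₀ q) with ⟨s, hs, h2, h3, h4⟩ | ⟨e, he, h2, h3⟩ |
    ⟨i, hi, h2⟩
  · refine Or.inl ⟨s, fun x hx => ⟨key _ h2 _ (hsT s hs) x hx, key _ h3 _ (hsT s hs) x hx⟩,
      keyn s hs h4⟩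
  · have heT : ωT η₀ C (.inl e) ≤ 4 * δN η₀ * C.sT q :=
      mul_le_mul_of_nonneg_left (C.sG_sT D.hρ he).1 (by positivity)
    refine Or.inr (Or.inl ⟨e, key _ h2 _ heT, ?_⟩)
    rcases h3 with h3 | ⟨s, hes, hs, h3, h4⟩
    · exact Or.inl (key _ h3 _ heT)
    · exact Or.inr ⟨s, hes, key _ h3 _ (hsT s hs), keyn s hs h4⟩
  · refine Or.inr (Or.inr ⟨i, key _ h2 _ ?_⟩)
    exact mul_le_mul_of_nonneg_left (C.sW_sT D.hρ hi).1 (by positivity)

/-- tiles at two points of a face -/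
theorem cmp {k : M.κ} {x x' : V} (hx : x ∈ M.F k) (hx' : x' ∈ M.F k) {q q' : K.T}
    (hq : h.toFun x ∈ K.cube q) (hq' : h.toFun x' ∈ K.cube q') :
    4096 * ‖h.toFun x - h.toFun x'‖ ≤ (D.G C).om q ∧ (D.G C).om q' ≤ 4 * (D.G C).om q := by
  have h1 := osc_tile D C hx hx' hq
  have h2 := δN_eq (η₀ := η₀)
  have h3 := δN_pos D.pos
  have hT := C.sT_pos q
  have ho := oN_pos D.pos
  have hom : (D.G C).om q = oN η₀ * C.sT q := rfl
  have hom' : (D.G C).om q' = oN η₀ * C.sT q' := rfl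
  have h4 : δN η₀ ≤ 1 := by
    have h5 := κN_le_one D.pos D.lt
    have h6 := δN_κ D.pos
    have h7 := κN_pos D.pos
    linarith
  refine ⟨?_, ?_⟩
  · rw [hom, ← h2]
    linarith
  · have h5 := sT_near C D.hρ hq hq' (h1.trans (by nlinarith))
    rw [hom, hom']
    nlinarith

/-- the numbers `ωT` in terms of the tiles -/
theorem ωT_om {b : TBx K} {y : V} (hy : y ∈ (D.G C).TB false b) {q : K.T} (hq : y ∈ K.cube q) :
    1024 * ωT η₀ C b ≤ (D.G C).om q ∧ (D.G C).om q ≤ 4096 * ωT η₀ C b := by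
  obtain ⟨h1, h2⟩ := D.ωT_tile C hy hq
  have h3 := δN_eq (η₀ := η₀)
  have hom : (D.G C).om q = 4096 * (δN η₀ * C.sT q) := by
    show oN η₀ * C.sT q = _
    rw [← h3]; ring
  constructor <;> rw [hom] <;> linarith

theorem ωS_om {c : ℝ} (hc : 1 / 2 ≤ c) {s : K.S} {y : V} (hy : y ∈ (D.G C).PB c s) {q : K.T}
    (hq : y ∈ K.cube q) :
    1024 * ωS η₀ C s ≤ (D.G C).om q ∧ (D.G C).om q ≤ 4096 * ωS η₀ C s := by
  obtain ⟨h1, h2⟩ := D.ωS_tile C hc hy hq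
  have h3 := δN_eq (η₀ := η₀)
  have hom : (D.G C).om q = 4096 * (δN η₀ * C.sT q) := by
    show oN η₀ * C.sT q = _
    rw [← h3]; ring
  constructor <;> rw [hom] <;> linarith

/-- deep edges -/
theorem deep_tube {J₀ : Set (ℕ × (Fin 3 → ℤ))} {m : ℕ} {z : Fin 3 → ℤ} {Q : Set V} {l : Fin 3}
    {η : ℝ} (hη : η₀ ≤ η) (H : H239.Deep η (δN η₀) w ρ J₀ {l} m z Q) :
    ∃ e : K.G, K.dir e = l ∧ C.sG e = 1 / 2 ^ m ∧ (∀ j, K.w (K.a e) j = w j + z j / 2 ^ m) ∧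
      K.w (K.b e) l = w l + (z l + 1) / 2 ^ m ∧
      ∀ y ∈ Q,
        closedBall y (κN η₀ / 2 ^ m) ⊆ (D.G C).TB true (.inl e) ∧
        closedBall y (κN η₀ / 2 ^ m) ⊆ (D.B C).E e ∧
        (∀ y' ∈ closedBall y (κN η₀ / 2 ^ m), ∀ s, y' ∉ (D.G C).PB (1 / 2) s) ∧
        (∀ y' ∈ closedBall y (κN η₀ / 2 ^ m), ∀ b : TBx K, b ≠ .inl e →
          y' ∉ (D.G C).TB false b) ∧
        ∀ y' ∈ closedBall y (κN η₀ / 2 ^ m), K.w (K.a e) l + 2 * (AN η₀ * C.sW (K.a e)) ≤ y' l ∧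
          y' l ≤ K.w (K.b e) l - 2 * (AN η₀ * C.sW (K.b e)) :=
  Deep.tube C D.hρ (cN_pos D.pos) (cN_A D.pos D.lt) (AN_le D.lt) (κN_eq D.pos D.lt)
    (oN_pos D.pos) oN_eq ((AN_η D.pos).trans hη) (δN_κ D.pos) H

/-- deep plates -/
theorem deep_plate {J₀ : Set (ℕ × (Fin 3 → ℤ))} {m : ℕ} {z : Fin 3 → ℤ} {Q : Set V} {l : Fin 3}
    {η : ℝ} (hη : η₀ ≤ η) (H : H239.Deep η (δN η₀) w ρ J₀ (Finset.univ.erase l) m z Q) :
    ∃ s : K.S, K.nrm s = l ∧ C.sS s = 1 / 2 ^ m ∧ (∀ j, K.slo s j = w j + z j / 2 ^ m) ∧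
      (∀ j, j ≠ l → K.shi s j = w j + (z j + 1) / 2 ^ m) ∧
      ∀ y ∈ Q,
        closedBall y (κN η₀ / 2 ^ m) ⊆ (D.B C).P s ∧
        closedBall y (κN η₀ / 2 ^ m) ⊆ (D.G C).PB 2 s ∧
        (∀ y' ∈ closedBall y (κN η₀ / 2 ^ m), ∀ s', s' ≠ s → y' ∉ (D.G C).PB (1 / 2) s') ∧
        (∀ y' ∈ closedBall y (κN η₀ / 2 ^ m), ∀ b : TBx K, y' ∉ (D.G C).TB false b) ∧
        ∀ y' ∈ closedBall y (κN η₀ / 2 ^ m), ∀ k, k ≠ l →
          K.slo s k + 7 * (cN η₀ * (1 / 2 ^ m)) ≤ y' k ∧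
          y' k ≤ K.shi s k - 7 * (cN η₀ * (1 / 2 ^ m)) :=
  Deep.plate C D.hρ (cN_pos D.pos) (cN_A D.pos D.lt) (AN_le D.lt) (κN_eq D.pos D.lt)
    (oN_pos D.pos) oN_eq ((AN_η D.pos).trans hη) (δN_κ D.pos) H

/-- numbers for the soft collapse -/
theorem T_wv (e : K.G) :
    (D.B C).T e ≤ μN η₀ * ((D.W C).wv (K.a e) / 4) ∧
      (D.B C).T e ≤ μN η₀ * ((D.W C).wv (K.b e) / 4) := by
  have h1 := cN_AN (η₀ := η₀)
  have h2 := mul_pos (μN_pos D.pos) (AN_pos D.pos)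
  have h3 := (C.sW_sG D.hρ (TM.wa_mem K e)).2
  have h4 := (C.sW_sG D.hρ (TM.wb_mem K e)).2
  constructor
  · show cN η₀ / 32 * C.sG e ≤ μN η₀ * (AN η₀ * C.sW (K.a e) / 4)
    rw [h1]
    nlinarith [C.sW_pos (K.a e)]
  · show cN η₀ / 32 * C.sG e ≤ μN η₀ * (AN η₀ * C.sW (K.b e) / 4)
    rw [h1]
    nlinarith [C.sW_pos (K.b e)]

theorem wv_r (i : K.W) : (D.W C).wv i ≤ μN η₀ * (C.rad D.hρ).r i := by
  show μN η₀ / 128 * C.sW i ≤ μN η₀ * (C.sW i / 128)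
  linarith

theorem T_q (e : K.G) : (D.B C).T e ≤ μN η₀ * (C.rad D.hρ).q e := by
  show cN η₀ / 32 * C.sG e ≤ μN η₀ * (C.sG e / 128)
  have h1 := cN_μ D.pos D.lt
  have h2 := μN_pos D.pos
  nlinarith [C.sG_pos e]

end KIn

/-- the length of an edge -/
theorem edge_len (C : Cells ρ w K) (e : K.G) :
    K.w (K.b e) (K.dir e) - K.w (K.a e) (K.dir e) = C.sG e := by
  have h2 : (C.fG e).n (K.dir e) = false := by
    have h1 := C.isE e (K.dir e)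
    cases h3 : (C.fG e).n (K.dir e)
    · rfl
    · exact absurd rfl (h1.1 h3)
  rw [C.b_eq, C.a_eq, Face.hi_of' h2, Face.lo_apply]
  show _ = 1 / 2 ^ (C.fG e).m
  ring

/-- **the windows of round T are long** -/
theorem KIn.win_T (D : KIn η₀ w ρ M h P) (C : Cells ρ w K) (b : TBx K) :
    300 * ωT η₀ C b ≤ μN η₀ * ((D.G C).thi true b b.ax - (D.G C).tlo true b b.ax) := by
  have hμ := μN_pos D.pos
  have hμ1 := μN_lt D.lt
  have hc := cN_pos D.pos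
  have hμc := mul_pos hμ hc
  have hc1 := cN_le D.pos D.lt
  have hδ : δN η₀ = μN η₀ * cN η₀ / 536870912 / 4000 / 4096 := rfl
  rcases b with e | i
  · have h1 := edge_len C e
    have h2 := (C.sW_sG D.hρ (TM.wa_mem K e)).1
    have h3 := (C.sW_sG D.hρ (TM.wb_mem K e)).1
    have h4 := C.sG_pos e
    have h5 : (D.G C).thi true (.inl e) (K.dir e) = K.w (K.b e) (K.dir e) -
        cN η₀ / 2048 * C.sW (K.b e) := by
      show (if K.dir e = K.dir e then _ else _) = _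
      rw [if_pos rfl]; rfl
    have h6 : (D.G C).tlo true (.inl e) (K.dir e) = K.w (K.a e) (K.dir e) +
        cN η₀ / 2048 * C.sW (K.a e) := by
      show (if K.dir e = K.dir e then _ else _) = _
      rw [if_pos rfl]; rfl
    show 300 * (4 * δN η₀ * C.sG e) ≤ μN η₀ * ((D.G C).thi true (.inl e) (K.dir e) -
      (D.G C).tlo true (.inl e) (K.dir e))
    rw [h5, h6, hδ]
    have h7 : cN η₀ / 2048 * C.sW (K.b e) ≤ 1 / 4 * C.sG e := by nlinarith [C.sW_pos (K.b e)]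
    have h8 : cN η₀ / 2048 * C.sW (K.a e) ≤ 1 / 4 * C.sG e := by nlinarith [C.sW_pos (K.a e)]
    have h9 : μN η₀ * (1 / 2 * C.sG e) ≤ μN η₀ * (K.w (K.b e) (K.dir e) -
        cN η₀ / 2048 * C.sW (K.b e) - (K.w (K.a e) (K.dir e) +
        cN η₀ / 2048 * C.sW (K.a e))) := mul_le_mul_of_nonneg_left (by linarith) hμ.le
    refine le_trans ?_ h9
    have h10 : cN η₀ * (μN η₀ * C.sG e) ≤ 1 * (μN η₀ * C.sG e) :=
      mul_le_mul_of_nonneg_right (by linarith) (by positivity)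
    nlinarith
  · have h4 := C.sW_pos i.i
    have h5 : (D.G C).thi true (.inr i) i.l = K.w i.i i.l + cN η₀ / 2048 * C.sW i.i := by
      show (if i.l = i.l then _ else _) = _
      rw [if_pos rfl]; rfl
    have h6 : (D.G C).tlo true (.inr i) i.l = K.w i.i i.l - cN η₀ / 2048 * C.sW i.i := by
      show (if i.l = i.l then _ else _) = _
      rw [if_pos rfl]; rfl
    show 300 * (4 * δN η₀ * C.sW i.i) ≤ μN η₀ * ((D.G C).thi true (.inr i) i.l -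
      (D.G C).tlo true (.inr i) i.l)
    rw [h5, h6, hδ]
    have h7 : 0 < μN η₀ * cN η₀ * C.sW i.i := mul_pos hμc h4
    nlinarith

/-- **`K2C` from the statement with the numbers** -/
theorem k2c_of {p : ℝ} (H : ∃ (D : ℝ) (C : ℝ → ℝ), ∀ μ > 0, ∃ (D' : ℝ) (C' : ℝ → ℝ), ∃ r > 0,
    ∀ η₁ > 0, η₁ < 1 / 4 → ∃ η₀, 0 < η₀ ∧ η₀ ≤ η₁ ∧
      ∀ (Ω Λ : Set V) (w : V) (ρ : V → ℝ) (M : Mesh Ω) (h : ConHomeo Ω Λ)
      (P : Set M.ι), KIn η₀ w ρ M h P → ∀ (K : BoxCx Λ w) (_ : Cells ρ w K)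
      (Y : Set M.κ) (ε : M.κ → ℝ), (∀ k, 0 < ε k) →
      ∃ g : ConHomeo Ω Λ, H73.OutS p D C μ D' C' r η₁ (δN η₀) w ρ M h.toFun P Y ε g
        fun e ℓ => len (H73.onSeg h.toFun e) (Icc 0 1) ≤ ℓ) : H73.K2C p := by
  obtain ⟨D, C, H⟩ := H
  refine ⟨D, C, fun μ hμ => ?_⟩
  obtain ⟨D', C', r, hr, H⟩ := H μ hμ
  refine ⟨D', C', r, hr, fun η₁ h2 h3 => ?_⟩
  obtain ⟨η₀, h0, hle, H⟩ := H η₁ h2 h3
  have h1 : η₀ < 1 / 4 := hle.trans_lt h3
  refine ⟨2 * κN η₀, by linarith [κN_pos h0], (κN_le h0 h1).trans hle, δN η₀,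
    δN_pos h0, fun Ω Λ hΩ hΛ w ρ hρ M h P hout hosc hal Y ε hε => ?_⟩
  obtain ⟨K, ⟨C⟩⟩ := exists_cells hρ w
  exact H Ω Λ w ρ M h P ⟨h0, h1, hΩ, hΛ, hρ, hout, hosc, hal⟩ K C Y ε hε

end Vale.Agent.P073.H267
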