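import Vale.Agent.P073.H236.TOutDefs
import Vale.Agent.P073.H581.OutCl2
import Vale.Agent.P073.H142.FaceTail
import Vale.Agent.P073.H267.Num

/-!
# P073, H267: the output of ROUND T

`TNum`: the numbers of round T (`b e` = length of the image of the edge + tiny, `La e`, `Lf k e`);
`TOut`: `T3Out` (H236) together with tiles, images of the protected cells and variations.
-/

open Set Metric Topology Filter
open scoped ENNReal

namespace P073.H267

open _root_.P073 _root_.P073.Net _root_.P073.PA691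
open Vale.Agent.P073.St (V)
open Vale.Agent.P073.H471 Vale.Agent.P073.H267
open Vale.Agent.P073.H73 (Mesh onSeg)
open Vale.Agent.P073.H193 (Edges)
open Vale.Agent.P073.H581 (TileAt ImgAt)
open P073.H236 (T3Out NoSl InT)
open P073.H142 (FStar)

variable {Ω Λ : Set V} {v : V} {K : BoxCx Λ v} {S : Rad K} {W : Wid K S} {B : Boxes W}

/-- variation of the coordinate `j` of `g` on the edge `e` -/
noncomputable def tvE {M : Mesh Ω} (E : Edges M) (g : V → V) (e : E.ε) (j : Fin 3) : ℝ≥0∞ :=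
  eVariationOn (fun t => onSeg g (E.a e, E.b e) t j) (Icc 0 1)

/-- length of the image of the edge `e` -/
noncomputable def lenE {M : Mesh Ω} (E : Edges M) (g : V → V) (e : E.ε) : ℝ≥0∞ :=
  len (onSeg g (E.a e, E.b e)) (Icc 0 1)

/-- The numbers of ROUND T. `ε e` is the tiny number of the edge `e`, `b e` is the number for the
length of the image of the edge. -/
structure TNum (M : Mesh Ω) (E : Edges M) (h : V → V) (T : ∀ k, FStar E k) (C₀ : ℝ)
    (ε : E.ε → ℝ) (b : E.ε → ℝ) (La : E.ε → ℝ) (Lf : M.κ → E.ε → ℝ) : Prop where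
  b_pos : ∀ e, 0 < b e
  b_le : ∀ e, ENNReal.ofReal (b e) ≤ lenE E h e + ENNReal.ofReal (ε e)
  La_nonneg : ∀ e, 0 ≤ La e
  /-- constant on the edges -/
  La_le : ∀ e, La e * ‖E.b e - E.a e‖ ≤ C₀ * b e
  Lf_nonneg : ∀ k e, 0 ≤ Lf k e
  /-- constant on the cones of the faces -/
  Lf_le : ∀ k e, E.seg e ⊆ M.F k → Lf k e ≤ (T k).con (C₀ * (1 + (T k).R / (T k).rho)) b e

/-- **the output of ROUND T**: `h` before, `h1` after; `ω b` = size of the moves in the box `b`,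
`T k` = star of the face `k`, `sl b` = slivers. `μ` is the error in the sharp clause. -/
structure TOut (G : Geo B) (M : Mesh Ω) (E : Edges M) (ρ : V → ℝ) (w : V) (P : Set M.ι)
    (h h1 : ConHomeo Ω Λ) (ω : TBx K → ℝ) (T : ∀ k, FStar E k) (C₀ μ : ℝ) (ε : E.ε → ℝ)
    (La : E.ε → ℝ) (Lf : M.κ → E.ε → ℝ) (Lam1 : M.κ → ℝ) (sl : TBx K → Finset (ℝ × ℝ)) : Prop
    extends T3Out G M E h h1 ω (fun k => (T k).O) La Lf Lam1 sl where
  /-- (T1), tiles -/
  tile : TileAt ρ w M P h.toFun h1.toFun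
  /-- (T1), images of the protected cells -/
  img : ImgAt M P h.toFun h1.toFun
  /-- (T5) -/
  tv : ∀ e j, (∀ b, (h.toFun '' E.seg e ∩ G.TB false b).Nonempty → b.ax = j) →
    tvE E h1.toFun e j ≤ ENNReal.ofReal C₀ * lenE E h.toFun e + ENNReal.ofReal (ε e)
  /-- (T5), sharp form -/
  tvs : ∀ e b, (∀ x ∈ E.seg e, closedBall (h.toFun x) (30 * ω b) ⊆ G.TB true b) →
    tvE E h1.toFun e b.ax ≤ ENNReal.ofReal (1 + μ) * tvE E h.toFun e b.ax + ENNReal.ofReal (ε e)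

/-- the oscillation of the faces at the boxes of round T, for numbers `ω` -/
structure OscT (G : Geo B) (M : Mesh Ω) (h : V → V) (ω : TBx K → ℝ) : Prop where
  pos : ∀ b, 0 < ω b
  le : ∀ b, 4096 * ω b ≤ Vale.Agent.P073.H238.oT G b
  osc : ∀ b k, ∀ x ∈ M.F k, ∀ y ∈ M.F k, h x ∈ G.TB false b → dist (h x) (h y) ≤ ω b

/-- **ROUND T**, the statement for the numbers of `K2C`. `μ` is the sharp error; the boxes have
length at least `(300 / μ) ω`. -/
def RoundT : Prop :=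
  ∃ C₀ : ℝ, 1 ≤ C₀ ∧
  ∀ (η₀ : ℝ) (Ω Λ : Set V) (w : V) (ρ : V → ℝ) (M : Mesh Ω) (h : ConHomeo Ω Λ) (P : Set M.ι)
    (D : KIn η₀ w ρ M h P) (K : BoxCx Λ w) (C : Cells ρ w K) (E : Edges M)
    (T : ∀ k, FStar E k) (μ : ℝ), 0 < μ → ∀ ω : TBx K → ℝ, OscT (D.G C) M h.toFun ω →
    (∀ b, 300 * ω b ≤ μ * ((D.G C).thi true b b.ax - (D.G C).tlo true b b.ax)) →
    ∀ ε : E.ε → ℝ, (∀ e, 0 < ε e) →
    ∃ (b La : E.ε → ℝ) (Lf : M.κ → E.ε → ℝ), TNum M E h.toFun T C₀ ε b La Lf ∧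
    ∃ Lam1 : M.κ → ℝ, (∀ k, 0 ≤ Lam1 k) ∧
    ∀ σ : TBx K → ℝ, (∀ b, 0 < σ b) →
    ∃ (sl : TBx K → Finset (ℝ × ℝ)) (h1 : ConHomeo Ω Λ),
      (∀ b, ∑ p ∈ sl b, (p.2 - p.1) ≤ σ b) ∧
      TOut (D.G C) M E ρ w P h h1 ω T C₀ μ ε La Lf Lam1 sl

end P073.H267
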