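import Vale.Agent.P073.H267.Geo1

/-!
# P073, block A14.1 (GEO), part 2: the boxes are disjoint and locally finite
-/

open Set Metric Topology Filter

namespace Vale.Agent.P073.H267

open _root_.P073 _root_.P073.Net _root_.P073.PA691
open _root_.P073.PR720 (LF)
open Vale.Agent.P073.St (V)
open Vale.Agent.P073.H471

variable {Λ : Set V} {v : V} {K : BoxCx Λ v} {S : Rad K} {W : Wid K S} {B : Boxes W} {y z : V}

/-- two vertices on a line parallel to an axis -/
theorem vdist (S : Rad K) {i j : K.W} (hne : i ≠ j) {l : Fin 3}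
    (h : ∀ k, k ≠ l → K.w i k = K.w j k) :
    2 * S.r i + 2 * S.r j < |K.w i l - K.w j l| := by
  by_contra hcon
  push Not at hcon
  have hi := S.r_pos i
  have hj := S.r_pos j
  have key : ∀ m : ℝ, |m - K.w i l| ≤ 2 * S.r i → |m - K.w j l| ≤ 2 * S.r j → False := by
    intro m h1 h2
    refine (Set.disjoint_left.1 (S.U_disj i j hne)) (a := Function.update (K.w i) l m) ?_ ?_
    · rw [mem_closedBall, dist_pi_le_iff (by linarith)]
      intro k
      by_cases hk : k = l
      · subst hk; simpa [Real.dist_eq] using h1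
      · rw [Function.update_of_ne hk, dist_self]; linarith
    · rw [mem_closedBall, dist_pi_le_iff (by linarith)]
      intro k
      by_cases hk : k = l
      · subst hk; simpa [Real.dist_eq] using h2
      · rw [Function.update_of_ne hk, h k hk, dist_self]; linarith
  rcases le_total (K.w i l) (K.w j l) with hle | hle
  · rw [abs_of_nonpos (by linarith)] at hcon
    rcases le_total (K.w i l + 2 * S.r i) (K.w j l) with h1 | h1
    · refine key (K.w i l + 2 * S.r i) ?_ ?_
      · rw [add_sub_cancel_left, abs_of_pos (by linarith)]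
      · rw [abs_le]; constructor <;> linarith
    · refine key (K.w j l) ?_ ?_
      · rw [abs_le]; constructor <;> linarith
      · rw [sub_self, abs_zero]; linarith
  · rw [abs_of_nonneg (by linarith)] at hcon
    rcases le_total (K.w j l + 2 * S.r j) (K.w i l) with h1 | h1
    · refine key (K.w j l + 2 * S.r j) ?_ ?_
      · rw [abs_le]; constructor <;> linarith
      · rw [add_sub_cancel_left, abs_of_pos (by linarith)]
    · refine key (K.w i l) ?_ ?_
      · rw [sub_self, abs_zero]; linarith
      · rw [abs_le]; constructor <;> linarith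

/-- the corners of the squares are vertices -/
theorem corner {s : K.S} {x : V} (hx : x ∈ K.sq s)
    (h : ∀ k, k ≠ K.nrm s → x k = K.slo s k ∨ x k = K.shi s k) :
    ∃ e i, K.edge e ⊆ K.sq s ∧ (i = K.a e ∨ i = K.b e) ∧ K.w i = x := by
  obtain ⟨k, hk⟩ := exists_ne (K.nrm s)
  obtain ⟨e, he, hxe⟩ := K.sq_bd s x hx ⟨k, hk, h k hk⟩
  have hes : K.edge e ⊆ K.sq s := he
  have hn := (nrm_ne_dir hes).symm
  rcases h _ hn with hd | hd
  · refine ⟨e, K.a e, hes, Or.inl rfl, ?_⟩
    funext j
    by_cases hj : j = K.dir e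
    · subst hj
      exact le_antisymm (hxe.1 _) (hd.le.trans ((hes (TM.wa_mem K e)).1 _))
    · exact (edge_coord hxe hj).symm
  · refine ⟨e, K.b e, hes, Or.inr rfl, ?_⟩
    funext j
    by_cases hj : j = K.dir e
    · subst hj
      exact le_antisymm (((hes (TM.wb_mem K e)).2 _).trans hd.ge) (hxe.2 _)
    · rw [edge_coord hxe hj, wab K e hj]

namespace Geo

variable {G : Geo B} {f : Bool}

theorem be_r (G : Geo B) (i : K.W) : 32 * G.be i ≤ S.r i := (G.be_wv i).trans (W.wv_le i)

/-- size of a square -/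
theorem size (G : Geo B) {s : K.S} {k : Fin 3} (hk : k ≠ K.nrm s) :
    128 * B.u s < K.shi s k - K.slo s k := by
  obtain ⟨e, i, he, hi, hx⟩ := corner (s := s) (slo_mem s) fun _ _ => Or.inl rfl
  have hx2 : Function.update (K.slo s) k (K.shi s k) ∈ K.sq s := by
    refine ⟨fun j => ?_, fun j => ?_⟩
    · by_cases hj : j = k
      · subst hj; simpa using TM.slo_le_shi K s j
      · simp [hj]
    · by_cases hj : j = k
      · subst hj; simp
      · simpa [hj] using TM.slo_le_shi K s j
  obtain ⟨e', i', he', hi', hx'⟩ := corner hx2 fun j hj => by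
    by_cases hjk : j = k
    · subst hjk; right; simp
    · left; simp [hjk]
  have hlt := K.s_lt s k hk
  have hne : i ≠ i' := by
    rintro rfl
    rw [hx] at hx'
    have := congrFun hx' k
    rw [Function.update_self] at this
    linarith
  have h1 := vdist S hne (l := k) fun j hj => by rw [hx, hx', Function.update_of_ne hj]
  rw [hx, hx', Function.update_self, abs_of_nonpos (by linarith)] at h1
  have h2 := G.u_T s e he
  have h2' := G.u_T s e' he'
  have h3 : 8 * B.T e ≤ S.r i := by
    rcases hi with rfl | rfl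
    · exact (B.T_le_a e).trans (W.wv_le _)
    · exact (B.T_le_b e).trans (W.wv_le _)
  have h3' : 8 * B.T e' ≤ S.r i' := by
    rcases hi' with rfl | rfl
    · exact (B.T_le_a e').trans (W.wv_le _)
    · exact (B.T_le_b e').trans (W.wv_le _)
  linarith

theorem a_pos (s : K.S) : 0 < G.a s := by
  obtain ⟨e, i, he, hi, hx⟩ := corner (s := s) (slo_mem s) fun _ _ => Or.inl rfl
  have := G.be_a s i (by rw [hx]; exact slo_mem s)
  linarith [G.be_pos i]

theorem p_a (s : K.S) : 16 * G.p s ≤ G.a s := by
  obtain ⟨e, i, he, hi, hx⟩ := corner (s := s) (slo_mem s) fun _ _ => Or.inl rfl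
  have hs : K.w i ∈ K.sq s := by rw [hx]; exact slo_mem s
  have := G.be_a s i hs
  have := G.p_be s i hs
  linarith

theorem τ_as_PB {c : ℝ} (hc : 1 / 2 ≤ c) {s : K.S} (hy : y ∈ G.PB c s) : B.τ s ≤ W.as s y := by
  rw [mem_PB] at hy
  refine le_marg (B.τ_le s) fun k hk => ?_
  have h1 := hy.1 k (by simpa using hk)
  have h2 := G.τ_p s
  have h3 := G.p_pos s
  have h4 : 1 / 2 * G.p s ≤ c * G.p s := mul_le_mul_of_nonneg_right hc h3.le
  constructor <;> linarith

theorem PB_subset {c : ℝ} (hc : 1 / 2 ≤ c) (s : K.S) : G.PB c s ⊆ Zs W s := by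
  intro y hy
  have h1 := τ_as_PB hc hy
  exact ⟨(B.τ_pos s).trans_le h1, (mem_PB.1 hy).2.trans h1⟩

/-- the hanging vertex is far from the corners -/
theorem hang_far (S : Rad K) (h : Hang K) :
    2 * S.r h.i < K.w h.i h.l - K.slo h.s h.l ∧ 2 * S.r h.i < K.shi h.s h.l - K.w h.i h.l := by
  have hkn := h.k_n
  have hln := h.l_n
  have hkl := h.k_l
  have hwk : K.slo h.s h.k ≤ K.w h.i h.k ∧ K.w h.i h.k ≤ K.shi h.s h.k ∧
      (K.w h.i h.k = K.slo h.s h.k ∨ K.w h.i h.k = K.shi h.s h.k) := by
    have h1 := h.side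
    have h2 := TM.slo_le_shi K h.s h.k
    cases hb : h.β
    · rw [hb] at h1
      simp only [Bool.false_eq_true, if_false] at h1
      rw [h1]; exact ⟨le_rfl, h2, Or.inl rfl⟩
    · rw [hb] at h1
      simp only [if_true] at h1
      rw [h1]; exact ⟨h2, le_rfl, Or.inr rfl⟩
  have key : ∀ m, (m = K.slo h.s h.l ∨ m = K.shi h.s h.l) →
      2 * S.r h.i < |K.w h.i h.l - m| := by
    intro m hm
    have hmm : K.slo h.s h.l ≤ m ∧ m ≤ K.shi h.s h.l := by
      rcases hm with rfl | rfl
      · exact ⟨le_rfl, TM.slo_le_shi K h.s h.l⟩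
      · exact ⟨TM.slo_le_shi K h.s h.l, le_rfl⟩
    have hx : Function.update (K.w h.i) h.l m ∈ K.sq h.s := by
      have : ∀ j, K.slo h.s j ≤ Function.update (K.w h.i) h.l m j ∧
          Function.update (K.w h.i) h.l m j ≤ K.shi h.s j := by
        intro j
        rcases fin3_cases hkn hkl hln.symm j with rfl | rfl | rfl
        · rw [Function.update_of_ne hkl]; exact ⟨hwk.1, hwk.2.1⟩
        · rw [Function.update_of_ne hln.symm, h.nrm]
          exact ⟨le_rfl, TM.slo_le_shi K h.s _⟩
        · rw [Function.update_self]; exact hmm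
      exact ⟨fun j => (this j).1, fun j => (this j).2⟩
    obtain ⟨e, j, -, -, hj⟩ := corner hx fun j hj => by
      rcases fin3_cases hkn hkl hln.symm j with rfl | rfl | rfl
      · rw [Function.update_of_ne hkl]; exact hwk.2.2
      · exact absurd rfl hj
      · rw [Function.update_self]; exact hm
    have hne : h.i ≠ j := by
      intro hij
      rw [← hij] at hj
      have := congrFun hj h.l
      rw [Function.update_self] at this
      rcases hm with rfl | rfl
      · linarith [h.lo]
      · linarith [h.hi]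
    have h1 := vdist S hne (l := h.l) fun k hk => by rw [hj, Function.update_of_ne hk]
    rw [hj, Function.update_self] at h1
    linarith [S.r_pos j]
  have h1 := key _ (Or.inl rfl)
  have h2 := key _ (Or.inr rfl)
  rw [abs_of_pos (by linarith [h.lo])] at h1
  rw [abs_of_neg (by linarith [h.hi])] at h2
  constructor <;> linarith

theorem TB_true_subset (b : TBx K) : G.TB true b ⊆ G.TB false b := by
  intro y hy
  rcases b with e | h
  · rw [mem_inl] at hy ⊢
    refine ⟨hy.1, fun k hk => (hy.2 k hk).trans ?_⟩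
    have := G.uT_lam e
    have := G.uT_pos e
    simp only [if_true, Bool.false_eq_true, if_false]
    linarith
  · rw [mem_inr] at hy ⊢
    have := G.p_pos h.s
    have := B.τ_pos h.s
    simp only [if_true, Bool.false_eq_true, if_false] at hy ⊢
    refine ⟨hy.1, ⟨?_, ?_⟩, ?_⟩ <;> linarith [hy.2.1.1, hy.2.1.2, hy.2.2]

theorem τ_as_TB {h : Hang K} (hy : y ∈ G.TB false (.inr h)) : B.τ h.s ≤ W.as h.s y := by
  rw [mem_inr] at hy
  simp only [Bool.false_eq_true, if_false] at hy
  obtain ⟨hyl, hyu, -⟩ := hy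
  have h2 := G.τ_p h.s
  have h3 := G.p_pos h.s
  have hsz := G.size h.k_n
  have hau := G.a_u h.s
  have hpa := p_a (G := G) h.s
  have hfar := hang_far S h
  have hyl' := abs_le.1 hyl
  have hbe := G.be_r h.i
  have hbp := G.be_pos h.i
  refine le_marg (B.τ_le h.s) fun k hk => ?_
  have hk' : k ≠ K.nrm h.s := by simpa using hk
  rcases fin3_cases h.k_n h.k_l h.l_n.symm k with rfl | rfl | rfl
  · unfold Hang.u at hyu
    cases hb : h.β
    · simp only [hb, Bool.false_eq_true, if_false] at hyu
      constructor <;> linarith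
    · simp only [hb, if_true] at hyu
      constructor <;> linarith
  · exact absurd rfl hk'
  · have hmem : K.w h.i ∈ K.sq h.s := by
      have hside := h.side
      have h2 := TM.slo_le_shi K h.s h.k
      have : ∀ j, K.slo h.s j ≤ K.w h.i j ∧ K.w h.i j ≤ K.shi h.s j := by
        intro j
        rcases fin3_cases h.k_n h.k_l h.l_n.symm j with rfl | rfl | rfl
        · cases hb : h.β
          · rw [hb] at hside
            simp only [Bool.false_eq_true, if_false] at hside
            rw [hside]; exact ⟨le_rfl, h2⟩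
          · rw [hb] at hside
            simp only [if_true] at hside
            rw [hside]; exact ⟨h2, le_rfl⟩
        · rw [h.nrm]; exact ⟨le_rfl, TM.slo_le_shi K h.s _⟩
        · exact ⟨h.lo.le, h.hi.le⟩
      exact ⟨fun j => (this j).1, fun j => (this j).2⟩
    have hpb := G.p_be h.s h.i hmem
    constructor <;> linarith

theorem TB_subset_Zs (h : Hang K) : G.TB false (.inr h) ⊆ Zs W h.s := by
  intro y hy
  have h1 := τ_as_TB hy
  refine ⟨(B.τ_pos _).trans_le h1, le_trans ?_ h1⟩
  rw [mem_inr] at hy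
  simpa using hy.2.2

theorem TB_subset_Ze (e : K.G) : G.TB false (.inl e) ⊆ Ze W e := by
  intro y hy
  rw [mem_inl] at hy
  simp only [Bool.false_eq_true, if_false] at hy
  have h1 : G.lam e ≤ W.ae e y := by
    refine le_marg ?_ fun k hk => ?_
    · have := G.lam_T e
      have := B.T_le e
      have := B.T_pos e
      linarith
    · have hk' : k = K.dir e := by by_contra h; exact hk (mem_Je.2 h)
      subst hk'
      have := G.lam_a e
      have := G.lam_b e
      have := G.lam_pos e
      constructor <;> linarith [hy.1.1, hy.1.2]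
  exact ⟨(G.lam_pos e).trans_le h1, fun k hk => (hy.2 k hk).trans h1⟩

theorem hang_mem (h : Hang K) : K.w h.i ∈ K.sq h.s := by
  have hside := h.side
  have h2 := TM.slo_le_shi K h.s h.k
  have : ∀ j, K.slo h.s j ≤ K.w h.i j ∧ K.w h.i j ≤ K.shi h.s j := by
    intro j
    rcases fin3_cases h.k_n h.k_l h.l_n.symm j with rfl | rfl | rfl
    · cases hb : h.β
      · rw [hb] at hside
        simp only [Bool.false_eq_true, if_false] at hside
        rw [hside]; exact ⟨le_rfl, h2⟩
      · rw [hb] at hside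
        simp only [if_true] at hside
        rw [hside]; exact ⟨h2, le_rfl⟩
    · rw [h.nrm]; exact ⟨le_rfl, TM.slo_le_shi K h.s _⟩
    · exact ⟨h.lo.le, h.hi.le⟩
  exact ⟨fun j => (this j).1, fun j => (this j).2⟩

theorem abs_u (h : Hang K) (hu : 0 ≤ h.u y) : |y h.k - K.w h.i h.k| = h.u y := by
  have hside := h.side
  unfold Hang.u at hu ⊢
  cases hb : h.β
  · simp only [hb, Bool.false_eq_true, if_false] at hside hu ⊢
    rw [hside, abs_of_nonneg hu]
  · simp only [hb, if_true] at hside hu ⊢
    rw [hside, abs_sub_comm, abs_of_nonneg hu]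

/-- the coordinates in the box at a hanging vertex -/
theorem TB_inr_coord {h : Hang K} (hy : y ∈ G.TB false (.inr h)) :
    |y h.l - K.w h.i h.l| ≤ G.be h.i ∧ ∀ k, k ≠ h.l → |y k - K.w h.i k| < G.be h.i := by
  rw [mem_inr] at hy
  simp only [Bool.false_eq_true, if_false] at hy
  obtain ⟨h1, ⟨h2, h3⟩, h4⟩ := hy
  have hp := G.p_pos h.s
  have hpb := G.p_be h.s h.i (hang_mem h)
  have hτ := G.τ_p h.s
  have hτ0 := B.τ_pos h.s
  refine ⟨h1, fun k hk => ?_⟩
  rcases fin3_cases h.k_n h.k_l h.l_n.symm k with rfl | rfl | rfl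
  · rw [abs_u h (by linarith)]; linarith
  · rw [h.nrm]; linarith
  · exact absurd rfl hk

theorem TB_inr_ball (h : Hang K) : G.TB false (.inr h) ⊆ closedBall (K.w h.i) (G.be h.i) := by
  intro y hy
  obtain ⟨h1, h2⟩ := TB_inr_coord hy
  rw [mem_closedBall, dist_pi_le_iff (G.be_pos _).le]
  intro k
  rw [Real.dist_eq]
  by_cases hk : k = h.l
  · subst hk; exact h1
  · exact (h2 k hk).le

theorem hang_eq {h h' : Hang K} (h1 : h.i = h'.i) (h2 : h.s = h'.s) : h = h' := by
  obtain ⟨i, s, k, l, β, kn, ln, kl, nrm, side, lo, hi⟩ := h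
  obtain ⟨i', s', k', l', β', kn', ln', kl', nrm', side', lo', hi'⟩ := h'
  simp only at h1 h2
  subst h1 h2
  have hkk : k = k' := by
    rcases fin3_cases kn kl ln.symm k' with h | h | h
    · exact h.symm
    · exact absurd h kn'
    · exfalso
      rw [h] at side'
      cases β'
      · simp only [Bool.false_eq_true, if_false] at side'
        linarith
      · simp only [if_true] at side'
        linarith
  subst hkk
  have hll : l = l' := by
    rcases fin3_cases kn kl ln.symm l' with h | h | h
    · exact absurd h.symm kl'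
    · exact absurd h ln'
    · exact h.symm
  subst hll
  have hβ : β = β' := by
    have hlt := K.s_lt s k kn
    cases β <;> cases β'
    · rfl
    · simp only [Bool.false_eq_true, if_false, if_true] at side side'
      linarith
    · simp only [Bool.false_eq_true, if_false, if_true] at side side'
      linarith
    · rfl
  subst hβ
  rfl

/-- the boxes of an edge and of a hanging vertex can only meet at their ends -/
theorem junction {e : K.G} {h : Hang K} (hy : y ∈ G.TB false (.inl e))
    (hy' : y ∈ G.TB false (.inr h)) : K.dir e = h.l ∧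
      ((h.i = K.a e ∧ y h.l = K.w h.i h.l + G.be h.i) ∨
        (h.i = K.b e ∧ y h.l = K.w h.i h.l - G.be h.i)) := by
  have hbe := G.be_pos h.i
  have hr := S.r_pos h.i
  have h32 := G.be_r h.i
  have hU : y ∈ closedBall (K.w h.i) (2 * S.r h.i) :=
    closedBall_subset_closedBall (by linarith) (TB_inr_ball h hy')
  have hE : y ∈ K.nb e (2 * S.q e) := se_subset e (Ze_subset (TB_subset_Ze e hy))
  have hend := S.U_edge h.i e y hU hE
  obtain ⟨h1, h2⟩ := TB_inr_coord hy'
  rw [mem_inl] at hy
  have hd : K.dir e = h.l := by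
    by_contra hd
    have h3 := abs_lt.1 (h2 _ hd)
    rcases hend with hi | hi
    · rw [hi] at h3; linarith [hy.1.1]
    · rw [hi] at h3; linarith [hy.1.2]
  refine ⟨hd, ?_⟩
  have h1' := abs_le.1 h1
  have hya := hy.1.1
  have hyb := hy.1.2
  rw [hd] at hya hyb
  rcases hend with hi | hi
  · left
    refine ⟨hi, le_antisymm (by linarith) ?_⟩
    rw [hi]; exact hya
  · right
    refine ⟨hi, le_antisymm ?_ (by linarith)⟩
    rw [hi]; exact hyb

theorem interior_Icc_lt {lo hi : V} (hy : y ∈ interior (Icc lo hi)) (k : Fin 3) :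
    lo k < y k ∧ y k < hi k := by
  rw [TM.interior_Icc3] at hy
  exact hy k

theorem notMem_junction {e : K.G} {h : Hang K} (hy : y ∈ G.TB false (.inl e))
    (hy' : y ∈ G.TB false (.inr h)) : y ∉ interior (G.TB false (.inl e)) ∧
      y ∉ interior (G.TB false (.inr h)) := by
  obtain ⟨hd, hj⟩ := junction hy hy'
  constructor
  · intro hint
    have h1 := interior_Icc_lt hint h.l
    simp only [tlo, thi, if_pos hd.symm] at h1
    rcases hj with ⟨hi, hj⟩ | ⟨hi, hj⟩
    · rw [← hi] at h1; linarith
    · rw [← hi] at h1; linarith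
  · intro hint
    have h1 := interior_Icc_lt hint h.l
    simp only [tlo, thi, if_true] at h1
    rcases hj with ⟨hi, hj⟩ | ⟨hi, hj⟩ <;> linarith

/-- **(G1)** the supports of the boxes of round T -/
theorem disjoint_TB {b b' : TBx K} (hne : b ≠ b') :
    Disjoint (interior (G.TB false b)) (G.TB false b') := by
  rw [Set.disjoint_left]
  intro y hy hy'
  have hyc := interior_subset hy
  rcases b with e | h <;> rcases b' with e' | h'
  · refine (disjoint_se (W := W) (e := e) (e' := e') fun hh => hne (by rw [hh])).notMem_of_mem_left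
      (Ze_subset (TB_subset_Ze e hyc)) (Ze_subset (TB_subset_Ze e' hy'))
  · exact (notMem_junction hyc hy').1 hy
  · exact (notMem_junction hy' hyc).2 hy
  · by_cases hi : h.i = h'.i
    · have hs : h.s ≠ h'.s := fun hs => hne (by rw [hang_eq hi hs])
      exact (disjoint_ss (W := W) hs).notMem_of_mem_left
        (Zs_subset (TB_subset_Zs h hyc)) (Zs_subset (TB_subset_Zs h' hy'))
    · have hb := G.be_pos h.i
      have hb' := G.be_pos h'.i
      have h32 := G.be_r h.i
      have h32' := G.be_r h'.i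
      refine (S.U_disj _ _ hi).notMem_of_mem_left
        (closedBall_subset_closedBall (by linarith) (TB_inr_ball h hyc))
        (closedBall_subset_closedBall (by linarith) (TB_inr_ball h' hy'))

/-- two tubes are disjoint -/
theorem disjoint_TB_inl {e e' : K.G} (hne : e ≠ e') :
    Disjoint (G.TB false (.inl e)) (G.TB false (.inl e')) :=
  (disjoint_se (W := W) hne).mono (fun _ h => Ze_subset (TB_subset_Ze e h))
    fun _ h => Ze_subset (TB_subset_Ze e' h)

theorem TB_sub (b : TBx K) : G.TB false b ⊆ Λ := by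
  intro y hy
  rcases b with e | h
  · exact S.tube_sub e (se_subset e (Ze_subset (TB_subset_Ze e hy)))
  · exact ss_subset h.s (Zs_subset (TB_subset_Zs h hy))

theorem lf_TB (G : Geo B) : LF (fun b => G.TB false b) Λ := by
  intro z hz
  obtain ⟨U1, hU1, h1⟩ := S.lfTube z hz
  obtain ⟨U2, hU2, h2⟩ := S.lfU z hz
  obtain ⟨U3, hU3, h3⟩ := lf_ss W z hz
  refine ⟨U1 ∩ U2 ∩ U3, inter_mem (inter_mem hU1 hU2) hU3, ?_⟩
  have hfin : ({i | (closedBall (K.w i) (2 * S.r i) ∩ U2).Nonempty} ×ˢ
      {s | (W.ss s ∩ U3).Nonempty}).Finite := h2.prod h3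
  have hinj : Function.Injective fun h : Hang K => (h.i, h.s) := by
    intro h h' hh
    exact hang_eq (Prod.ext_iff.1 hh).1 (Prod.ext_iff.1 hh).2
  have hH := hfin.preimage hinj.injOn
  refine ((h1.image Sum.inl).union (hH.image Sum.inr)).subset ?_
  rintro (e | h) ⟨x, hx, hxU⟩
  · left
    exact ⟨e, ⟨x, se_subset e (Ze_subset (TB_subset_Ze e hx)), hxU.1.1⟩, rfl⟩
  · right
    have hb := G.be_pos h.i
    have h32 := G.be_r h.i
    exact ⟨h, ⟨⟨x, closedBall_subset_closedBall (by linarith) (TB_inr_ball h hx), hxU.1.2⟩,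
      ⟨x, Zs_subset (TB_subset_Zs h hx), hxU.2⟩⟩, rfl⟩

/-- **(G1)** the plates -/
theorem disjoint_PB {c : ℝ} (hc : 1 / 2 ≤ c) {s s' : K.S} (hne : s ≠ s') :
    Disjoint (G.PB c s) (G.PB c s') :=
  (disjoint_ss (W := W) hne).mono (fun _ h => Zs_subset (PB_subset hc s h))
    fun _ h => Zs_subset (PB_subset hc s' h)

theorem PB_sub {c : ℝ} (hc : 1 / 2 ≤ c) (s : K.S) : G.PB c s ⊆ Λ :=
  fun _ h => ss_subset s (Zs_subset (PB_subset hc s h))

theorem lf_PB (G : Geo B) {c : ℝ} (hc : 1 / 2 ≤ c) : LF (fun s => G.PB c s) Λ := by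
  intro z hz
  obtain ⟨U3, hU3, h3⟩ := lf_ss W z hz
  refine ⟨U3, hU3, h3.subset ?_⟩
  rintro s ⟨x, hx, hxU⟩
  exact ⟨x, Zs_subset (PB_subset hc s hx), hxU⟩

/-! ### tiles -/

theorem tile_TB_inl {e : K.G} (hy : y ∈ G.TB false (.inl e)) {q : K.T} (hq : y ∈ K.cube q) :
    K.edge e ⊆ K.cube q := (inTube_of_se (Ze_subset (TB_subset_Ze e hy))).tile hq

theorem tile_TB_inr {h : Hang K} (hy : y ∈ G.TB false (.inr h)) {q : K.T} (hq : y ∈ K.cube q) :
    q = K.sm h.s ∨ q = K.sp h.s := (near_self (Zs_subset (TB_subset_Zs h hy))).tile hq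

theorem tile_PB {c : ℝ} (hc : 1 / 2 ≤ c) {s : K.S} (hy : y ∈ G.PB c s) {q : K.T}
    (hq : y ∈ K.cube q) : q = K.sm s ∨ q = K.sp s :=
  (near_self (Zs_subset (PB_subset hc s hy))).tile hq

end Geo

end Vale.Agent.P073.H267
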