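import Vale.Agent.P073.H267.Geo3
import Vale.Agent.P073.H73.K2A

/-!
# P073, block A14.1 (GEO), part 4: universal constants for the dyadic tilings
-/

open Set Metric Topology Filter

namespace Vale.Agent.P073.H267

open _root_.P073 _root_.P073.Net _root_.P073.PA691 _root_.P073.TM
open _root_.P073.PR720 (LF)
open Vale.Agent.P073.St (V)
open Vale.Agent.P073.H471

variable {Λ : Set V} {ρ : V → ℝ} {v : V} {K : BoxCx Λ v}

/-- `x ≤ 4 y`, `16 t ≤ T` etc. -/
theorem mul_aux {a b m n x y : ℝ} (hm : 0 ≤ m) (ha : 0 ≤ a) (hy : 0 ≤ y) (_ : 0 ≤ n)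
    (hxy : x ≤ n * y) (hab : m * n * a ≤ b) : m * (a * x) ≤ b * y := by
  have h1 : m * (a * x) ≤ m * (a * (n * y)) :=
    mul_le_mul_of_nonneg_left (mul_le_mul_of_nonneg_left hxy ha) hm
  have h2 := mul_le_mul_of_nonneg_right hab hy
  calc m * (a * x) ≤ m * (a * (n * y)) := h1
    _ = m * n * a * y := by ring
    _ ≤ b * y := h2

/-- the boxes of the collapse -/
noncomputable def uBoxes (C : Cells ρ v K) (hρ : SizeFn Λ ρ) {A c : ℝ} (hc : 0 < c)
    (hcA : c ≤ A) (hA1 : A ≤ 1 / 128) :
    Boxes (C.wid hρ (A := A) (B := c) (D := 8 * c) (hc.trans_le hcA) hc (by linarith) hA1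
      (hcA.trans hA1) (by linarith)) :=
  C.boxes hρ (hc.trans_le hcA) hc (by linarith) hA1 (hcA.trans hA1) (by linarith)
    (T := c / 32) (u := c / 512) (t := c / 16777216)
    (by positivity) (by positivity) (by positivity) (by linarith) (by linarith) (by linarith)
    (by linarith) (by linarith)

/-- **universal numbers** -/
noncomputable def uGeo (C : Cells ρ v K) (hρ : SizeFn Λ ρ) {A c κ o : ℝ} (hc : 0 < c)
    (hcA : c ≤ A) (hA1 : A ≤ 1 / 128) (hκ : κ ≤ c / 536870912) (ho : 0 < o)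
    (hoκ : 4000 * o ≤ κ) : Geo (uBoxes C hρ hc hcA hA1) where
  be := fun i => c / 2048 * C.sW i
  uT := fun e => c / 131072 * C.sG e
  lam := fun e => c / 65536 * C.sG e
  p := fun s => c / 2097152 * C.sS s
  a := fun s => c / 1024 * C.sS s
  κ := fun q => κ * C.sT q
  om := fun q => o * C.sT q
  oW := fun i => 4 * o * C.sW i
  oG := fun e => 4 * o * C.sG e
  oS := fun s => 4 * o * C.sS s
  om_pos := fun q => mul_pos ho (C.sT_pos q)
  om_κ := fun q => mul_aux (n := 1) (by norm_num) ho.le (C.sT_pos q).le (by norm_num)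
    (by linarith) (by linarith)
  κ_τ := fun q s hs => by
    have hsub : K.sq s ⊆ K.cube q := by
      rcases hs with rfl | rfl
      · exact (TM.sq_subset K s).1
      · exact (TM.sq_subset K s).2
    exact mul_aux (n := 4) (b := c / 16777216) (by norm_num) (by linarith) (C.sS_pos s).le
      (by norm_num) (C.sS_sT hρ hsub).2 (by linarith)
  κ_uT := fun q e he => mul_aux (n := 4) (by norm_num) (by linarith) (C.sG_pos e).le
      (by norm_num) (C.sG_sT hρ he).2 (by linarith)
  κ_be := fun q i hi => mul_aux (n := 4) (by norm_num) (by linarith) (C.sW_pos i).le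
      (by norm_num) (C.sW_sT hρ hi).2 (by linarith)
  τ_p := fun s => mul_aux (n := 1) (a := c / 16777216) (by norm_num) (by positivity)
    (C.sS_pos s).le (by norm_num) (by linarith) (by linarith)
  p_uT := fun s e he => mul_aux (n := 4) (by norm_num) (by positivity) (C.sG_pos e).le
      (by norm_num) (C.sG_sS hρ he).2 (by linarith)
  p_be := fun s i hi => mul_aux (n := 4) (by norm_num) (by positivity) (C.sW_pos i).le
      (by norm_num) (C.sW_sS hρ hi).2 (by linarith)
  uT_lam := fun e => mul_aux (n := 1) (by norm_num) (by positivity) (C.sG_pos e).le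
      (by norm_num) (by linarith) (by linarith)
  lam_a := fun e => mul_aux (n := 4) (by norm_num) (by positivity) (C.sW_pos _).le
      (by norm_num) (C.sW_sG hρ (TM.wa_mem K e)).2 (by linarith)
  lam_b := fun e => mul_aux (n := 4) (by norm_num) (by positivity) (C.sW_pos _).le
      (by norm_num) (C.sW_sG hρ (TM.wb_mem K e)).2 (by linarith)
  lam_T := fun e => mul_aux (n := 1) (b := c / 32) (by norm_num) (by positivity)
    (C.sG_pos e).le (by norm_num) (by linarith) (by linarith)
  be_a := fun s i hi => mul_aux (n := 1) (by norm_num) (by positivity) (C.sS_pos s).le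
      (by norm_num) (by linarith [(C.sW_sS hρ hi).1]) (by linarith)
  be_wv := fun i => mul_aux (n := 1) (b := A) (by norm_num) (by positivity)
    (C.sW_pos i).le (by norm_num) (by linarith) (by linarith)
  a_u := fun s => mul_aux (n := 1) (b := c / 512) (by norm_num) (by positivity)
    (C.sS_pos s).le (by norm_num) (by linarith) (by linarith)
  u_T := fun s e he => mul_aux (n := 4) (a := c / 512) (b := c / 32) (by norm_num)
    (by positivity) (C.sG_pos e).le (by norm_num) (C.sG_sS hρ he).2 (by linarith)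
  om_oS := fun q s hs => by
    have hsub : K.sq s ⊆ K.cube q := by
      rcases hs with rfl | rfl
      · exact (TM.sq_subset K s).1
      · exact (TM.sq_subset K s).2
    nlinarith [(C.sS_sT hρ hsub).2]
  om_oG := fun q e he => by nlinarith [(C.sG_sT hρ he).2]
  om_oW := fun q i hi => by nlinarith [(C.sW_sT hρ hi).2]
  oS_τ := fun s => mul_aux (n := 1) (b := c / 16777216) (by norm_num) (by positivity)
    (C.sS_pos s).le (by norm_num) (by linarith) (by linarith)
  oG_uT := fun e => mul_aux (n := 1) (by norm_num) (by positivity)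
    (C.sG_pos e).le (by norm_num) (by linarith) (by linarith)
  oG_τ := fun s e he => mul_aux (n := 1) (b := c / 16777216) (by norm_num) (by positivity)
    (C.sS_pos s).le (by norm_num) (by linarith [(C.sG_sS hρ he).1]) (by linarith)
  oW_τ := fun s i hi => mul_aux (n := 1) (b := c / 16777216) (by norm_num) (by positivity)
    (C.sS_pos s).le (by norm_num) (by linarith [(C.sW_sS hρ hi).1]) (by linarith)
  oW_be := fun i => mul_aux (n := 1) (by norm_num) (by positivity)
    (C.sW_pos i).le (by norm_num) (by linarith) (by linarith)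
  be_pos := fun i => by have := C.sW_pos i; positivity
  uT_pos := fun e => by have := C.sG_pos e; positivity

/-- the numbers of the tiles which contain `y`, in terms of the dyadic tiles -/
theorem exists_tile_of (C : Cells ρ v K) {m : ℕ} {z : Fin 3 → ℤ} (h : IsTile ρ v m z) :
    ∃ q : K.T, K.cube q = dyc v m z ∧ C.sT q = 1 / 2 ^ m := by
  obtain ⟨q, hq⟩ := C.onT m z h
  refine ⟨q, by rw [C.cube_eq, hq], ?_⟩
  show 1 / 2 ^ (C.fT q).1 = _
  rw [hq]

theorem tile_of (C : Cells ρ v K) (q : K.T) : ∃ m z, IsTile ρ v m z ∧ K.cube q = dyc v m z ∧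
    C.sT q = 1 / 2 ^ m := ⟨_, _, C.tile q, C.cube_eq q, rfl⟩

/-- the coordinates of a tile -/
theorem lo_of (C : Cells ρ v K) (q : K.T) (k : Fin 3) :
    K.lo q k = v k + (C.fT q).2 k / 2 ^ (C.fT q).1 ∧
    K.hi q k = v k + ((C.fT q).2 k + 1) / 2 ^ (C.fT q).1 := by
  have h1 : Icc (K.lo q) (K.hi q) = Icc (TM.tlo v (C.fT q)) (TM.thi v (C.fT q)) := by
    rw [icc_eq]; exact C.cube_eq q
  have hle : K.lo q ≤ K.hi q := fun k => (K.lt q k).le
  obtain ⟨h2, h3⟩ := (Icc_eq_Icc_iff hle).1 h1
  rw [h2, h3]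
  exact ⟨rfl, rfl⟩

/-- The hypothesis of `K2C` on the middle cubes: the point is in the shell. -/
theorem shell_of (C : Cells ρ v K) {κ : ℝ} {q : K.T} {y : V}
    (hout : y ∉ closedBall (H73.ctr v (C.fT q).1 (C.fT q).2)
      ((1 - 2 * κ) / 2 / 2 ^ (C.fT q).1)) (hκ : 2 * κ ≤ 1) :
    ∃ k, y k ≤ K.lo q k + κ * C.sT q ∨ K.hi q k - κ * C.sT q ≤ y k := by
  by_contra hcon
  push Not at hcon
  refine hout ?_
  have hm : (0:ℝ) < 2 ^ (C.fT q).1 := by positivity
  rw [mem_closedBall, dist_pi_le_iff (by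
    have : 0 ≤ 1 - 2 * κ := by linarith
    positivity)]
  intro k
  obtain ⟨h1, h2⟩ := hcon k
  obtain ⟨h3, h4⟩ := lo_of C q k
  have e : C.sT q = 1 / 2 ^ (C.fT q).1 := rfl
  rw [h3, e] at h1
  rw [h4, e] at h2
  have e1 : H73.ctr v (C.fT q).1 (C.fT q).2 k = v k + (C.fT q).2 k / 2 ^ (C.fT q).1 +
      1 / 2 / 2 ^ (C.fT q).1 := by rw [H73.ctr]; ring
  have e2 : v k + ((C.fT q).2 k + 1) / 2 ^ (C.fT q).1 = v k + (C.fT q).2 k / 2 ^ (C.fT q).1 +
      1 / 2 / 2 ^ (C.fT q).1 + 1 / 2 / 2 ^ (C.fT q).1 := by ring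
  have e3 : (1 - 2 * κ) / 2 / 2 ^ (C.fT q).1 = 1 / 2 / 2 ^ (C.fT q).1 -
      κ * (1 / 2 ^ (C.fT q).1) := by ring
  rw [e2] at h2
  rw [Real.dist_eq, e1, e3, abs_le]
  constructor <;> linarith

end Vale.Agent.P073.H267
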