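import Vale.Agent.P073.H267.K3St2
import Vale.Agent.P073.H190.TwoP

/-!
# P073, H267: **[K3-TOP]**, the two-stage staircases of `S3`

`S3.pt2`: 190's structure `PT2`; `S3.map4B`: in the plates `h4 = PS.map T3 ∘ h3` and `h3p = h3`.
-/

open Set Metric Topology Filter
open scoped ENNReal

set_option linter.unusedSectionVars false

namespace Vale.Agent.P073.H267.K3

open _root_.P073 _root_.P073.Net _root_.P073.PA691 _root_.P073.H236 _root_.P073.H579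
open _root_.P073.H936 _root_.P073.H936.K3
open _root_.P073.H142
open _root_.P073.H345 (PK tg PLev)
open _root_.P073.H880.RP
open _root_.P073.H190 (IsS2 PT2)
open Vale.Agent.P073.St (V)
open Vale.Agent.P073.H471 Vale.Agent.P073.H267
open Vale.Agent.P073.H73 (Mesh)
open Vale.Agent.P073.H193 (Edges Cyc edges)
open Vale.Agent.P073.H304 (Nb In Zmax)
open Vale.Agent.P073.H926
open Vale.Agent.P073.H238.K3

variable {c₀ n δ : ℝ} {j : ℕ} {Ω Λ : Set V} {v w : V} {ρ : V → ℝ} {M : Mesh Ω} {h : ConHomeo Ω Λ}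
  {J₀ J : Set (ℕ × (Fin 3 → ℤ))} {P Z : Set M.ι} {K : BoxCx Λ w}
  {D : KIn3 c₀ n j δ v w ρ M h J₀ J P Z} {C : Cells ρ w K} {C₀ μT : ℝ}
  {X : S1 D C C₀ μT} {Y₂ : S2 X} {Ys : Set M.κ} {sc : Sharp}

theorem S2.muP0 (Y₂ : S2 X) (s : K.S) : 0 < Y₂.muP s := by
  have h1 := Y₂.Lw.δμ s
  have h2 := Y₂.Lw.δ0 s
  linarith

namespace S3

/-- **190's structure** -/
theorem pt2 (Y₃ : S3 Y₂ Ys sc) :
    PT2 Y₃.Lt (D.dat C).S₀ Y₃.F (fun _ s => Y₂.muP s.1) Y₃.T2 where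
  B := Y₃.ps.B
  isS := Y₃.isT2
  μ0 := fun _ s => (Y₂.muP0 s.1).le
  μD := Y₃.muD

/-- **in the plates the one-stage maps are the two-stage maps** -/
theorem map4B (Y₃ : S3 Y₂ Ys sc) {s : K.S} (hs : s ∈ (D.dat C).S₀) {x : V} (hx : x ∈ Ω)
    (h : Y₃.h3.toFun x ∈ (D.G C).PB (7 / 8) s) :
    Y₃.h4.toFun x = PS.map Y₃.T3 (Y₃.h3.toFun x) ∧ Y₃.h3p.toFun x = Y₃.h3.toFun x := by
  have h1 : PS.map Y₃.T3 (Y₃.h3.toFun x) = PS.map Y₃.T2 (Y₃.h3.toFun x) :=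
    Y₃.pt2.map_eq_map (s := ⟨s, hs⟩) Y₃.ps h
  exact ⟨by rw [Y₃.map4 x hx, h1], Y₃.eq3 x hx h1⟩

end S3

end Vale.Agent.P073.H267.K3
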