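import Vale.Agent.P073.H267.K3St1
import Vale.Agent.P073.H341.PIn3G
import Vale.Agent.P073.H919.P45w
import Vale.Agent.P073.H190.TwoS
import Vale.Agent.P073.H429.Stg3Off
import Vale.Agent.P073.H429.TEx
import Vale.Agent.P073.H155.THin3
import Vale.Agent.P073.H236.F3W
import Vale.Agent.P073.H687.PL4F

/-!
# P073, H267: **[K3-TOP]**, part 2: the data of `K3C` after ROUND T, in four stages

* `S2`: levels and exchange (`h2`); `S3`: insertion (`h3`), staircases (`h4`);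
* `S4`: the hook of the plates (`h5`) and the second staircases (`f5`);
* `S5`: the hook of the tubes (`h6`) and its staircase; `S5.f` is the last map.
-/

open Set Metric Topology Filter
open scoped ENNReal

set_option linter.unusedSectionVars false

namespace Vale.Agent.P073.H267.K3

open _root_.P073 _root_.P073.Net _root_.P073.PA691 _root_.P073.H236 _root_.P073.H579
open _root_.P073.H936 _root_.P073.H936.K3
open _root_.P073.H142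
open _root_.P073.H196 (ThP)
open _root_.P073.H345 (PK tg PLev)
open _root_.P073.H880.RP
open _root_.P073.H155 (Band3 RelT)
open _root_.P073.H919 (HkG HkGF HkGO ZbP sfam HB PI)
open _root_.P073.H429
open Vale.Agent.P073.St (V)
open Vale.Agent.P073.H471 Vale.Agent.P073.H267
open Vale.Agent.P073.H73 (Mesh)
open Vale.Agent.P073.H193 (Edges Cyc edges)
open Vale.Agent.P073.H304 (Nb In Zmax)
open Vale.Agent.P073.H926
open Vale.Agent.P073.H238.K3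
open Vale.Agent.P073.H341 (HtOk ROutZ vFam pxFam)
open Vale.Agent.P073.H687
open Vale.Agent.P073.H669 (plT3 rel_iff_T)

variable {c₀ n δ : ℝ} {j : ℕ} {Ω Λ : Set V} {v w : V} {ρ : V → ℝ} {M : Mesh Ω} {h : ConHomeo Ω Λ}
  {J₀ J : Set (ℕ × (Fin 3 → ℤ))} {P Z : Set M.ι} {K : BoxCx Λ w}
  {D : KIn3 c₀ n j δ v w ρ M h J₀ J P Z} {C : Cells ρ w K} {C₀ μT : ℝ}

/-- the constants of the sharp faces -/
structure Sharp where
  m : ℝ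
  K : ℝ
  e : ℝ
  β : ℝ
  ρ : ℝ

open Classical in
/-- **the slivers for the levels of ROUND P**: those of ROUND T, and the fattened ends of the boxes -/
noncomputable def S1.slp (X : S1 D C C₀ μT) (b : pB C J₀) : Finset (ℝ × ℝ) :=
  X.sl b ∪ {((D.G C).tlo true b.1 b.1.ax - X.fat b, (D.G C).tlo true b.1 b.1.ax + X.fat b),
    ((D.G C).thi true b.1 b.1.ax - X.fat b, (D.G C).thi true b.1 b.1.ax + X.fat b)}

/-- **the family of ROUND P**: faces, cells, edges, vertices, and the boxes of the plates -/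
noncomputable abbrev S1.fam (X : S1 D C C₀ μT) :=
  pxFam X.h1 (vFam M (edges M)) (D.G C) (D.dat C)

/-- **levels and exchange of ROUND P** -/
structure S2 (X : S1 D C C₀ μT) where
  /-- half widths of the gaps and of the windows around the marked points -/
  J : K.S → ℝ
  R : K.S → ℝ
  /-- the marked points -/
  Q : K.S → Bool → Finset ℝ
  r : ℝ
  /-- precision of the number of crossings -/
  η : ℝ
  /-- values which are avoided -/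
  Cn : Set ℝ
  εE : (edges M).ε → ℝ
  Jn : K.S → Bool → Finset (ℝ × ℝ)
  /-- the displacement of the staircases, off the windows -/
  muP : K.S → ℝ
  /-- the spacing of the levels -/
  dP : K.S → ℝ
  J0 : ∀ s, 0 ≤ J s
  JR : ∀ s, J s ≤ R s
  muJ : ∀ s, muP s ≤ J s
  marks : Marks (D.G C) J R Q
  εE0 : ∀ e, 0 < εE e
  Lw : PLw (D.G C) X.h1 (plT3 (D.G C) X.h1 X.fam (slX X.slp)) η r X.fam Cn (edges M).a (edges M).b
    εE (wnd R Q) Jn muP J dP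
  h2 : ConHomeo Ω Λ
  ex : PEx (D.G C) (edges M) (D.dat C) Lw.lev (vFam M (edges M)) X.h1 h2

/-- the levels -/
noncomputable abbrev S2.L {X : S1 D C C₀ μT} (Y₂ : S2 X) : PLev (D.G C) := Y₂.Lw.lev

theorem bandp_of {X : S1 D C C₀ μT} {F : Type*} {Fm : F → Set V} {η r : ℝ} {Cn : Set ℝ} {ξ : Type*}
    {sa sb : ξ → V} {εE : ξ → ℝ} {Wn : K.S → Bool → Set ℝ} {Jn : K.S → Bool → Finset (ℝ × ℝ)}
    {μ Bg δP : K.S → ℝ} (L : PLw (D.G C) X.h1 (plT3 (D.G C) X.h1 Fm (slX X.slp)) η r Fm Cn sa sb εE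
      Wn Jn μ Bg δP) : Band3 L.lev (pS C J₀) X.slp := by
  intro s hs β m hm b hb p hp
  have e1 : slX X.slp b.1 = X.slp b := slX_eq X.slp b
  exact L.band3 hm (rel_iff_T.1 hb) (by rw [e1]; exact hp)

theorem S2.bandp {X : S1 D C C₀ μT} (Y₂ : S2 X) : Band3 Y₂.L (pS C J₀) X.slp := bandp_of Y₂.Lw

theorem S2.band {X : S1 D C C₀ μT} (Y₂ : S2 X) : Band3 Y₂.L (pS C J₀) X.sl :=
  fun s hs β m hm b hb p hp => Y₂.bandp s hs β m hm b hb p (Finset.mem_union_left _ hp)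

/-- **insertion and staircases of ROUND P** -/
structure S3 {X : S1 D C C₀ μT} (Y₂ : S2 X) (Ys : Set M.κ) (sc : Sharp) where
  La : (edges M).ε → ℝ
  We : (edges M).ε → ℝ
  /-- the constant of the edges -/
  q : ℝ
  La0 : ∀ e, 0 ≤ La e
  We0 : ∀ e, 0 ≤ We e
  laWe : ∀ e, laE (edges M) We e ≤ La e
  laT : ∀ e, 16 * X.La e ≤ La e
  Lq : ∀ e, La e * ‖(edges M).b e - (edges M).a e‖ ≤ q * X.bn e
  Wq : ∀ e, We e ≤ q * X.bn e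
  we : ∀ s e, EAct (edges M) ((D.dat C).PkS (D.G C) X.h1) s e → ∀ Y : Finset V,
    (∀ x ∈ Y, CrsPt ((edges M).a e) ((edges M).b e) Y₂.h2.toFun (Y₂.L.lv s) x) →
      ∑ x ∈ Y, omX Y₂.h2.toFun (Y₂.L.lv s) (Y₂.L.omP s) x ≤ We e
  c : K.S → Bool → ℝ
  c0 : ∀ s β, 0 < c s β
  c1 : ∀ s β, c s β ≤ Y₂.L.c s β
  κ : Bool → V → V
  Θ : Bool → ConHomeo Λ Λ
  h3 : ConHomeo Ω Λ
  ins : PIns (D.G C) (edges M) (D.dat C) Y₂.L D.bΛ.1 X.h1 Y₂.h2 c c0 c1 κ Θ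
    (GE3 (D.G C) (edges M) (D.dat C) X.h1 Y₂.h2 Y₂.L c c0 c1 La sc.m)
    (GF3 (D.G C) (edges M) (D.dat C) X.h1 Y₂.h2 Y₂.L c c0 c1 La We (fun k => (X.T k).O)
      (fun k => (X.T k).rho) (fun k => (X.T k).R) Ys sc.K sc.e sc.β sc.ρ) h3
  /-- faces and cells which miss the plates -/
  missF : ∀ k, Miss (D.G C) (D.dat C).S₀ X.h1 (M.F k) → EqOn h3.toFun X.h1.toFun (M.F k)
  missC : ∀ i, Miss (D.G C) (D.dat C).S₀ X.h1 (M.Q i) → EqOn h3.toFun X.h1.toFun (M.Q i)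
  /-- thickness of the walls of the staircases -/
  e : Bool → (D.dat C).S₀ → ℝ
  e0 : ∀ β s, 0 < e β s
  e8 : ∀ β (s : (D.dat C).S₀), e β s ≤ Y₂.dP s.1 / 8
  /-- tolerance of the faces -/
  ν : M.κ → ℝ
  ν0 : ∀ k, 0 < ν k
  small : ∀ (s : (D.dat C).S₀) k, (X.h1.toFun '' M.F k ∩ PK (D.G C) s.1).Nonempty → ∃ Lam : ℝ,
    0 ≤ Lam ∧ (∀ x ∈ M.F k, ∀ y ∈ M.F k, ‖h3.toFun x - h3.toFun y‖ ≤ Lam * ‖x - y‖) ∧
      ∀ β, e β s * Lam ≤ ν k * c s.1 β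
  /-- the staircases -/
  T3 : Bool → ConHomeo Λ Λ
  isT : ∀ β, (F3W Y₂.Lw c0 c1 (D.dat C).S₀ e e0 e8 β).IsS (T3 β)
  /-- the staircases with a two-stage fade: these are applied -/
  T2 : Bool → ConHomeo Λ Λ
  isT2 : ∀ β, _root_.P073.H190.IsS2 (F3W Y₂.Lw c0 c1 (D.dat C).S₀ e e0 e8 β)
    (fun s => Y₂.muP s.1) (T2 β)
  h4 : ConHomeo Ω Λ
  map4 : ∀ x ∈ Ω, h4.toFun x = PS.map T2 (h3.toFun x)
  /-- `h3p = (PS.map T3)⁻¹ ∘ h4` -/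
  h3p : ConHomeo Ω Λ
  map3 : ∀ x ∈ Ω, h4.toFun x = PS.map T3 (h3p.toFun x)
  eq3 : ∀ x ∈ Ω, PS.map T3 (h3.toFun x) = PS.map T2 (h3.toFun x) → h3p.toFun x = h3.toFun x
  eqHB : ∀ s ∈ (D.dat C).S₀, ∀ x ∈ Ω, h4.toFun x ∈ HB (D.G C) (29 / 32) (3 / 4) s →
    h3p.toFun x = h3.toFun x

namespace S3

variable {X : S1 D C C₀ μT} {Y₂ : S2 X} {Ys : Set M.κ} {sc : Sharp}

/-- the levels with thin flats -/
noncomputable abbrev Lt (Y₃ : S3 Y₂ Ys sc) : PLev (D.G C) := thinL Y₂.L Y₃.c Y₃.c0 Y₃.c1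

/-- the staircases -/
noncomputable abbrev F (Y₃ : S3 Y₂ Ys sc) : Bool → BFam 3 (D.dat C).S₀ Λ :=
  F3W Y₂.Lw Y₃.c0 Y₃.c1 (D.dat C).S₀ Y₃.e Y₃.e0 Y₃.e8

theorem ps (Y₃ : S3 Y₂ Ys sc) : PS3 Y₃.Lt (D.dat C).S₀ Y₃.F Y₃.T3 := F3W_ps Y₂.Lw Y₃.isT

theorem muD (Y₃ : S3 Y₂ Ys sc) (β : Bool) (s : (D.dat C).S₀) : 2 * Y₂.muP s.1 ≤ (Y₃.F β).D s := by
  rw [F3W_D]
  linarith [Y₂.muJ s.1]

theorem thp (Y₃ : S3 Y₂ Ys sc) :
    ThP Y₂.L Y₃.c Y₃.c0 Y₃.c1 D.bΛ.1 (D.dat C).S₀ Y₃.F Y₃.T3 Y₃.Θ 10 :=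
  F3W_thP Y₂.Lw Y₃.isT Y₃.ins.isΘ

end S3

/-- **the hook of the plates and the second staircases** -/
structure S4 {X : S1 D C C₀ μT} {Y₂ : S2 X} {Ys : Set M.κ} {sc : Sharp} (Y₃ : S3 Y₂ Ys sc) where
  r : (D.dat C).S₀ → ℝ
  q : (D.dat C).S₀ → ℝ
  r0 : ∀ s, 0 < r s
  r1 : ∀ s, r s < 1
  q0 : ∀ s, 0 < q s
  q1 : ∀ s, q s < 1
  H : HkG M Y₃.Lt (Subtype.val : (D.dat C).S₀ → K.S) Y₃.F Y₃.T3 (Y₃.κ false) (Y₃.κ true)
    (29 / 32) (3 / 4) (ZbP (D.G C) (D.dat C) Y₃.h4) Y₂.h2 Y₃.h3p Y₃.h4 v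
  h5 : ConHomeo Ω Λ
  hk : HkGF H D.bΩ.1 r q h5
  hko : HkGO H D.bΩ.1 r h5
  /-- local Lipschitz constants of `h5` over the plates -/
  K₂ : (D.dat C).S₀ → ℝ
  K₂0 : ∀ s, 0 < K₂ s
  lip5 : ∀ s : (D.dat C).S₀, ∀ x ∈ Ω, h5.toFun x ∈ PK (D.G C) s.1 →
    ∀ᶠ y in 𝓝 x, ‖h5.toFun y - h5.toFun x‖ ≤ K₂ s * ‖y - x‖
  p0 : ∀ s, 0 < q s * r s
  p1 : ∀ s, q s * r s < 1
  /-- the tolerance, chosen after `h5` -/
  ε : (D.dat C).S₀ → ℝ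
  ς : Bool → (D.dat C).S₀ → ℝ
  ς0 : ∀ β s, 0 < ς β s
  ς1 : ∀ β s, ς β s ≤ 1
  ςK : ∀ β s, ς β s * K₂ s ≤ ε s
  ςε : ∀ β s, ς β s ≤ ε s
  Tσ : Bool → ConHomeo Λ Λ
  sg : Sg3 Y₃.Lt (D.dat C).S₀ (fun β => sfam (Y₃.F β) (fun s => q s * r s) p0 p1) ς Tσ
  f5 : ConHomeo Ω Λ
  map5 : ∀ x ∈ Ω, f5.toFun x = PS.map Tσ (h5.toFun x)

/-- the cells drawn in the tube `b` -/
def ZbT {X : S1 D C C₀ μT} {Y₂ : S2 X} {Ys : Set M.κ} {sc : Sharp} {Y₃ : S3 Y₂ Ys sc}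
    (Y₄ : S4 Y₃) (b : pG C J₀) : Set M.ι :=
  {i | (i ∈ (D.dat C).Zd ∧ i ∉ (D.dat C).Pr) ∧ (∀ s, i ∉ ZbP (D.G C) (D.dat C) Y₃.h4 s) ∧
    Y₄.f5.toFun '' M.Q i ⊆ interior (YB (YT (D.G C) (pS C J₀)) b.1)}

/-- **the hook of the tubes and its staircase** -/
structure S5 {X : S1 D C C₀ μT} {Y₂ : S2 X} {Ys : Set M.κ} {sc : Sharp} {Y₃ : S3 Y₂ Ys sc}
    (Y₄ : S4 Y₃) where
  sl' : pG C J₀ → Finset (ℝ × ℝ)
  μ : pG C J₀ → ℝ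
  Th : ∀ b : pG C J₀, Thn (eal (D.W C) b.1) (ebe (D.W C) b.1) (sl' b) (μ b)
  H : HkT M (YT (D.G C) (pS C J₀)) (Subtype.val : pG C J₀ → K.G) Th (ZbT Y₄) Y₄.f5 v
  h6 : ConHomeo Ω Λ
  tube : HTube D.bΩ.1 H.hookIn h6
  /-- local Lipschitz constants of `h6` over the supports -/
  K₂ : pG C J₀ → ℝ
  K₂0 : ∀ b, 0 < K₂ b
  lip6 : ∀ b : pG C J₀, ∀ x ∈ Ω, h6.toFun x ∈ YB ((YS (D.G C)).add (rT (D.G C))
      (rT_pos (D.G C)) (fun e k => (YS_p_lt (D.G C) e k).le)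
      fun e k => (YS_q_lt (D.G C) e k).le) b.1 →
    ∀ᶠ y in 𝓝 x, ‖h6.toFun y - h6.toFun x‖ ≤ K₂ b * ‖y - x‖
  /-- the tolerance, chosen after `h6` -/
  ε : pG C J₀ → ℝ
  ς : pG C J₀ → ℝ
  ς0 : ∀ b, 0 < ς b
  ς1 : ∀ b, ς b ≤ 1
  ςK : ∀ b, ς b * K₂ b ≤ ε b
  ςε : ∀ b, ς b ≤ ε b
  Sm : ConHomeo Λ Λ
  isH : (tfam (YS (D.G C)) (rT (D.G C)) (rT_pos (D.G C))
    (fun e k => (YS_p_lt (D.G C) e k).le) (fun e k => (YS_q_lt (D.G C) e k).le)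
    H.inj Th ς0 ς1).IsH Sm
  lay : TLay (D.B C) (Subtype.val : pG C J₀ → K.G) (fun b => YB (YT (D.G C) (pS C J₀)) b.1)
    (tfam (YS (D.G C)) (rT (D.G C)) (rT_pos (D.G C))
      (fun e k => (YS_p_lt (D.G C) e k).le)
      (fun e k => (YS_q_lt (D.G C) e k).le) H.inj Th ς0 ς1)
    (⋃ b, ⋃ i ∈ ZbT Y₄ b, interior (M.Q i)) (fun b i => (Th b).c i - (Th b).w i)
    (fun b i => (Th b).c i + (Th b).w i) ς Y₄.f5 h6 Sm

namespace S5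

variable {X : S1 D C C₀ μT} {Y₂ : S2 X} {Ys : Set M.κ} {sc : Sharp} {Y₃ : S3 Y₂ Ys sc}
  {Y₄ : S4 Y₃}

/-- **the last map before the collapse** -/
noncomputable def f (Y₅ : S5 Y₄) : ConHomeo Ω Λ := Y₅.h6.trans Y₅.Sm

theorem f_eq (Y₅ : S5 Y₄) (x : V) : Y₅.f.toFun x = Y₅.Sm.toFun (Y₅.h6.toFun x) := rfl

end S5

end Vale.Agent.P073.H267.K3
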