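import Vale.Agent.P073.H267.Geo1
import Vale.Agent.P073.H471.GeoCover

/-!
# P073, block A14 (ROUND P): the points of a plate are alive in a zone of the collapse
-/

open Set Metric Topology Filter

namespace Vale.Agent.P073.H267

open _root_.P073 _root_.P073.Net _root_.P073.PA691
open _root_.P073.PR720 (LF)
open Vale.Agent.P073.St (V)
open Vale.Agent.P073.H471

variable {Λ : Set V} {v : V} {K : BoxCx Λ v} {S : Rad K} {W : Wid K S} {B : Boxes W}

/-- **(G3')** a point of the plate is in the interior of the zone of the square (and far from its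
sides), or in the interior of the zone of an edge of the square (and far from the ends of the edge),
or in the interior of the zone of a vertex -/
theorem Geo.cover_pt (G : Geo B) {s : K.S} {c : ℝ} (hc : 0 ≤ c) {y : V} (hy : y ∈ G.PB c s)
    (hn : |y (K.nrm s) - K.slo s (K.nrm s)| < B.τ s) :
    (y ∈ interior (Zs W s) ∧ y ∈ interior (B.P s) ∧
      ∀ k, k ≠ K.nrm s → K.slo s k + 2 * B.u s ≤ y k ∧ y k ≤ K.shi s k - 2 * B.u s) ∨
    (∃ e, K.edge e ⊆ K.sq s ∧ y ∈ interior (Ze W e) ∧ closedBall y (B.T e / 4) ⊆ B.E e ∧
      K.slo s (K.dir e) + 32 * G.a s ≤ y (K.dir e) ∧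
      y (K.dir e) ≤ K.shi s (K.dir e) - 32 * G.a s) ∨
    ∃ e, K.edge e ⊆ K.sq s ∧ ((y ∈ interior (Zv W (K.a e)) ∧
        closedBall y (B.T e / 4) ⊆ Zv W (K.a e)) ∨
      (y ∈ interior (Zv W (K.b e)) ∧ closedBall y (B.T e / 4) ⊆ Zv W (K.b e))) := by
  rw [Geo.mem_PB] at hy
  obtain ⟨hyt, -⟩ := hy
  have hp := G.p_pos s
  have hu := B.u_pos s
  by_cases hin : ∀ k, k ≠ K.nrm s → K.slo s k + 2 * B.u s ≤ y k ∧ y k ≤ K.shi s k - 2 * B.u s
  · left
    have h1 : y ∈ interior (B.P s) := by
      rw [mem_interior_iff_mem_nhds]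
      have ho : IsOpen {z : V | (∀ k, k ≠ K.nrm s → K.slo s k + B.u s < z k ∧
          z k < K.shi s k - B.u s) ∧ |z (K.nrm s) - K.slo s (K.nrm s)| < B.τ s} := by
        have e : {z : V | (∀ k, k ≠ K.nrm s → K.slo s k + B.u s < z k ∧
            z k < K.shi s k - B.u s) ∧ |z (K.nrm s) - K.slo s (K.nrm s)| < B.τ s} =
            (⋂ k, ⋂ (_ : k ≠ K.nrm s), {z : V | K.slo s k + B.u s < z k ∧
              z k < K.shi s k - B.u s}) ∩ {z : V | |z (K.nrm s) - K.slo s (K.nrm s)| < B.τ s} := by
          ext z; simp
        rw [e]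
        refine IsOpen.inter (isOpen_iInter_of_finite fun k => isOpen_iInter_of_finite fun _ => ?_)
          (isOpen_lt (by fun_prop) continuous_const)
        exact (isOpen_lt continuous_const (continuous_apply k)).inter
          (isOpen_lt (continuous_apply k) continuous_const)
      refine mem_of_superset (ho.mem_nhds ⟨fun k hk => ?_, hn⟩) ?_
      · have := hin k hk
        constructor <;> linarith
      · rintro z ⟨hz1, hz2⟩
        exact ⟨fun k hk => ⟨(hz1 k hk).1.le, (hz1 k hk).2.le⟩, hz2.le⟩
    exact ⟨interior_mono (B.P_subset s) h1, h1, hin⟩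
  · right
    push Not at hin
    obtain ⟨k, hk, hkk⟩ := hin
    have hsub : ∀ j, j ≠ K.nrm s → K.slo s j ≤ y j ∧ y j ≤ K.shi s j := by
      intro j hj
      have := hyt j hj
      have h0 : 0 ≤ c * G.p s := mul_nonneg hc hp.le
      constructor <;> linarith
    -- the closest boundary point
    obtain ⟨x', hx's, hx'b, hxx⟩ : ∃ x' ∈ K.sq s,
        (∃ k, k ≠ K.nrm s ∧ (x' k = K.slo s k ∨ x' k = K.shi s k)) ∧
          ∀ j, |y j - x' j| ≤ 2 * B.u s := by
      have hτ := B.τ_le_u s
      have hτ0 := B.τ_pos s
      have key : ∀ t : ℝ, (t = K.slo s k ∨ t = K.shi s k) → |y k - t| ≤ 2 * B.u s →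
          ∃ x' ∈ K.sq s, (∃ k, k ≠ K.nrm s ∧ (x' k = K.slo s k ∨ x' k = K.shi s k)) ∧
            ∀ j, |y j - x' j| ≤ 2 * B.u s := by
        intro t ht htk
        refine ⟨fun j => if j = K.nrm s then K.slo s j else if j = k then t else y j,
          ⟨fun j => ?_, fun j => ?_⟩, ⟨k, hk, ?_⟩, fun j => ?_⟩
        · by_cases h1 : j = K.nrm s
          · simp [h1]
          · by_cases h2 : j = k
            · subst h2
              have := TM.slo_le_shi K s j
              simp only [if_neg h1, if_true]
              rcases ht with h | h <;> rw [h]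
              exact this
            · simpa [h1, h2] using (hsub j h1).1
        · by_cases h1 : j = K.nrm s
          · simp only [h1, if_true]; exact TM.slo_le_shi K s _
          · by_cases h2 : j = k
            · subst h2
              have := TM.slo_le_shi K s j
              simp only [if_neg h1, if_true]
              rcases ht with h | h <;> rw [h]
              exact this
            · simpa [h1, h2] using (hsub j h1).2
        · simpa [hk] using ht
        · by_cases h1 : j = K.nrm s
          · simp only [h1, if_true]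
            linarith
          · by_cases h2 : j = k
            · subst h2
              simpa only [if_neg h1, if_true] using htk
            · simp only [if_neg h1, if_neg h2, sub_self, abs_zero]
              linarith
      by_cases hlo : K.slo s k + 2 * B.u s ≤ y k
      · have hhi := hkk hlo
        refine key _ (Or.inr rfl) ?_
        have := (hsub k hk).2
        rw [abs_le]; constructor <;> linarith
      · push Not at hlo
        refine key _ (Or.inl rfl) ?_
        have := (hsub k hk).1
        rw [abs_le]; constructor <;> linarith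
    obtain ⟨e, hes', hx'e⟩ := K.sq_bd s x' hx's hx'b
    have hes : K.edge e ⊆ K.sq s := hes'
    have hu2 := G.u_T s e hes
    have hTe := B.T_pos e
    have hkey : ∀ z ∈ closedBall y (B.T e / 4), ∀ k, |z k - x' k| ≤ 3 / 4 * B.T e := by
      intro z hz k
      rw [mem_closedBall, dist_eq_norm] at hz
      have h1 := norm_le_pi_norm (z - y) k
      rw [Pi.sub_apply, Real.norm_eq_abs] at h1
      have h2 := hxx k
      have h3 := abs_sub_le (z k) (y k) (x' k)
      linarith
    have hin' : ∀ X : Set V, (∀ z ∈ closedBall y (B.T e / 4), z ∈ X) → y ∈ interior X :=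
      fun X hX => mem_interior_iff_mem_nhds.2
        (mem_of_superset (closedBall_mem_nhds y (by linarith)) hX)
    rcases B.near_edge e hx'e with h | h | h
    · have h0 : closedBall y (B.T e / 4) ⊆ B.E e := fun z hz => h z (hkey z hz)
      refine Or.inl ⟨e, hes, hin' _ fun z hz => B.E_subset e (h0 hz), h0, ?_⟩
      have h1 := (h0 (mem_closedBall_self (by linarith))).1
      have h2 := (hes (TM.wa_mem K e)).1 (K.dir e)
      have h3 := (hes (TM.wb_mem K e)).2 (K.dir e)
      have h4 := B.T_le_a e
      have h5 := B.T_le_b e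
      have h6 := G.a_u s
      constructor <;> linarith
    · exact Or.inr ⟨e, hes, Or.inl ⟨hin' _ fun z hz => h z (hkey z hz),
        fun z hz => h z (hkey z hz)⟩⟩
    · exact Or.inr ⟨e, hes, Or.inr ⟨hin' _ fun z hz => h z (hkey z hz),
        fun z hz => h z (hkey z hz)⟩⟩

end Vale.Agent.P073.H267
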