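import Vale.Agent.P073.H579.Ins

/-!
# P073, H267 (block GIVEN of B08): insertion with prescribed cells
-/

open Set Metric Topology Filter

namespace P073.H267

open P073 P073.H579

variable {E : Type*} [NormedAddCommGroup E] [NormedSpace ℝ E]

variable {J K : Type*} {Ω : Set E} {q S : J → Set E} {F : K → Set E} {Λ Λ' : Set (Fin 3 → ℝ)}
  {κ : (Fin 3 → ℝ) → Fin 3 → ℝ}

/-- **Prescribing the homeomorphism on some cells** of a cell structure. -/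
theorem exists_given (hC : CellCx Ω q S F) {h : ConHomeo Ω Λ} (hκ : InsMap κ Λ' Λ)
    (g : ConHomeo Ω Λ') (hg : ∀ j, g.toFun '' q j = Pre κ Λ' h (q j)) (G : Set J)
    (Ψ : ∀ j ∈ G, ConHomeo (q j) (Pre κ Λ' h (q j)))
    (hΨ : ∀ j (hj : j ∈ G), EqOn (Ψ j hj).toFun g.toFun (S j)) :
    ∃ g' : ConHomeo Ω Λ', (∀ j, g'.toFun '' q j = Pre κ Λ' h (q j)) ∧
      (∀ j hj, EqOn g'.toFun (Ψ j hj).toFun (q j)) ∧ (∀ j ∉ G, EqOn g'.toFun g.toFun (q j)) ∧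
      ∀ k, EqOn g'.toFun g.toFun (F k) := by
  classical
  have hqΩ : ∀ j, q j ⊆ Ω := hC.q_sub
  have hcomp : ∀ j, IsCompact (Pre κ Λ' h (q j)) := fun j =>
    hκ.isCompact_pre (hqΩ j) (hC.ball j).isCompact
  have hLX : RelLF q := by
    refine ⟨fun z hz => ?_, fun j z _ hz => by rwa [(hC.ball j).isClosed.closure_eq] at hz⟩
    rw [hC.cover] at hz
    exact hC.lf z hz
  have hLY : RelLF fun j => Pre κ Λ' h (q j) := by
    refine ⟨fun z hz => ?_, fun j z _ hz => by rwa [(hcomp j).isClosed.closure_eq] at hz⟩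
    obtain ⟨j, hj⟩ := mem_iUnion.1 hz
    exact hκ.lf hqΩ hC.lf hj.1
  let H : ∀ j, ConHomeo (q j) (Pre κ Λ' h (q j)) := fun j =>
    if hj : j ∈ G then Ψ j hj else (g.restr (hC.ball j).conicalSet (hqΩ j)).cast rfl (hg j)
  have HG : ∀ j (hj : j ∈ G), H j = Ψ j hj := fun j hj => dif_pos hj
  have HnG : ∀ j, j ∉ G → ∀ x, (H j).toFun x = g.toFun x := by
    intro j hj x
    show (if hj : j ∈ G then Ψ j hj else _ : ConHomeo (q j) (Pre κ Λ' h (q j))).toFun x = _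
    rw [dif_neg hj]
    rfl
  have HS : ∀ j, ∀ x ∈ S j, (H j).toFun x = g.toFun x := by
    intro j x hx
    by_cases hj : j ∈ G
    · rw [HG j hj]; exact hΨ j hj hx
    · exact HnG j hj x
  have hint : ∀ i j, i ≠ j → ∀ x, x ∈ q i → x ∈ q j → x ∈ S i := by
    intro i j hij x hi hj
    rw [← hC.meet i]
    exact ⟨hi, hC.inter i j hij ⟨hi, hj⟩⟩
  have hag : ∀ i j, EqOn (H i).toFun (H j).toFun (q i ∩ q j) := by
    rintro i j x ⟨hi, hj⟩
    by_cases hij : i = j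
    · subst hij; rfl
    · rw [HS i x (hint i j hij x hi hj), HS j x (hint j i (Ne.symm hij) x hj hi)]
  have himg : ∀ i j, Pre κ Λ' h (q i) ∩ Pre κ Λ' h (q j) ⊆ (H i).toFun '' (q i ∩ q j) := by
    rintro i j y ⟨h1, h2⟩
    by_cases hij : i = j
    · subst hij
      rw [inter_self, (H i).image_eq]
      exact h1
    · rw [← hg] at h1 h2
      obtain ⟨x, hx, rfl⟩ := h1
      obtain ⟨x', hx', he⟩ := h2
      have : x' = x := g.injOn (hqΩ j hx') (hqΩ i hx) he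
      subst this
      exact ⟨x', ⟨hx, hx'⟩, HS i x' (hint i j hij x' hx hx')⟩
  obtain ⟨Φ, hΦ⟩ := ConHomeo.exists_glue_family hLX hLY H hag himg
  have hcov' : ⋃ j, Pre κ Λ' h (q j) = Λ' := by
    apply Subset.antisymm
    · exact iUnion_subset fun j => fun y hy => hy.1
    · intro y hy
      have h1 : κ y ∈ Λ := hκ.maps hy
      have h2 : h.invFun (κ y) ∈ ⋃ j, q j := by rw [hC.cover]; exact h.mapsTo_inv h1
      obtain ⟨j, hj⟩ := mem_iUnion.1 h2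
      exact mem_iUnion.2 ⟨j, hy, _, hj, h.right_inv h1⟩
  refine ⟨Φ.cast hC.cover hcov', fun j => ?_, fun j hj x hx => ?_, fun j hj x hx => ?_,
    fun k x hx => ?_⟩
  · show Φ.toFun '' q j = _
    rw [(hΦ j).1.image_eq, (H j).image_eq]
  · show Φ.toFun x = _
    rw [(hΦ j).1 hx, HG j hj]
  · show Φ.toFun x = _
    rw [(hΦ j).1 hx, HnG j hj x]
  · show Φ.toFun x = _
    obtain ⟨j, hj⟩ := mem_iUnion.1 (hC.face k hx)
    rw [(hΦ j).1 (hC.S_sub j hj), HS j x hj]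

/-- **[GIVEN] Insertion with prescribed cells.** -/
theorem exists_insert_given (hC : CellCx Ω q S F) (h : ConHomeo Ω Λ) (hκ : InsMap κ Λ' Λ)
    (Φ : ∀ k, ConHomeo (F k) (Pre κ Λ' h (F k)))
    (hag : ∀ k l, EqOn (Φ k).toFun (Φ l).toFun (F k ∩ F l))
    (himg : ∀ k l, Pre κ Λ' h (F k ∩ F l) ⊆ (Φ k).toFun '' (F k ∩ F l)) (G : Set J)
    (Ψ : ∀ j ∈ G, ConHomeo (q j) (Pre κ Λ' h (q j)))
    (hΨ : ∀ j (hj : j ∈ G) k, EqOn (Ψ j hj).toFun (Φ k).toFun (q j ∩ F k)) :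
    ∃ g : ConHomeo Ω Λ', (∀ k, EqOn g.toFun (Φ k).toFun (F k)) ∧
      (∀ j, g.toFun '' q j = Pre κ Λ' h (q j)) ∧ ∀ j hj, EqOn g.toFun (Ψ j hj).toFun (q j) := by
  obtain ⟨g, hg1, hg2⟩ := exists_insert hC h hκ Φ hag himg
  obtain ⟨g', h1, h2, -, h4⟩ := exists_given hC hκ g hg2 G Ψ (by
    intro j hj x hx
    have hx' : x ∈ q j ∩ ⋃ k, F k := by rw [hC.meet]; exact hx
    obtain ⟨k, hk⟩ := mem_iUnion.1 hx'.2
    rw [hΨ j hj k ⟨hx'.1, hk⟩, hg1 k hk])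
  exact ⟨g', fun k x hx => (h4 k hx).trans (hg1 k hx), h1, h2⟩

end P073.H267
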