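import Vale.Agent.P073.H880.RP4
import Vale.Agent.P073.H341.PIn3F
import Vale.Agent.P073.H926.DatD
import Vale.Agent.P073.H926.RTDat
import Vale.Agent.P073.H196.RTRect
import Vale.Agent.P073.H238.RT0

/-!
# P073, H267: **[K3-TOP]**, part 1: ROUND T, levels and exchange of ROUND P, over one structure

* `S1`: the data and the output of ROUND T;
* `S1.tpre`, `S1.dpre`, `S1.prect`: the inputs of ROUND P;
* `S1.exists_pex`: the exchange, from levels in the windows which are regular for `pxFam`.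
-/

open Set Metric Topology Filter
open scoped ENNReal

set_option linter.unusedSectionVars false

namespace Vale.Agent.P073.H267.K3

open _root_.P073 _root_.P073.Net _root_.P073.PA691 _root_.P073.H236 _root_.P073.H579
open _root_.P073.H142 (FStar)
open _root_.P073.H345 (PK tg PLev)
open _root_.P073.H880.RP (Dat ROut3 PEx InvIn)
open _root_.P073.H155 (Band3 RelT)
open Vale.Agent.P073.St (V)
open Vale.Agent.P073.H471 Vale.Agent.P073.H267
open Vale.Agent.P073.H73 (Mesh)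
open Vale.Agent.P073.H193 (Edges Cyc edges)
open Vale.Agent.P073.H304 (Nb In Zmax)
open Vale.Agent.P073.H926
open Vale.Agent.P073.H238.K3
open Vale.Agent.P073.H341 (HtOk ROutZ WinS FamOk exists_pin3 rin3_datL htOk_dat pxFam)
open Vale.Agent.P073.H805 (TPre DPre PRect PAvoid RelB t1 t2 t1_ne_t2 invIn_of)
open _root_.P073.H805 (Reg)

variable {c₀ n δ : ℝ} {j : ℕ} {Ω Λ : Set V} {v w : V} {ρ : V → ℝ} {M : Mesh Ω} {h : ConHomeo Ω Λ}
  {J₀ J : Set (ℕ × (Fin 3 → ℤ))} {P Z : Set M.ι} {K : BoxCx Λ w}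

/-- **ROUND T: the data and the output** -/
structure S1 (D : KIn3 c₀ n j δ v w ρ M h J₀ J P Z) (C : Cells ρ w K) (C₀ μT : ℝ) where
  T : ∀ k, FStar (edges M) k
  εe : (edges M).ε → ℝ
  εd : pB C J₀ → ℝ
  bn : (edges M).ε → ℝ
  La : (edges M).ε → ℝ
  Lf : M.κ → (edges M).ε → ℝ
  Lam1 : M.κ → ℝ
  nT : pB C J₀ → ℕ
  σ : pB C J₀ → ℝ
  sl : pB C J₀ → Finset (ℝ × ℝ)
  /-- the bands of ROUND P stay away from the ends of the boxes -/
  fat : pB C J₀ → ℝ
  h1 : ConHomeo Ω Λ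
  fat0 : ∀ b, 0 ≤ fat b
  εe0 : ∀ e, 0 < εe e
  εd0 : ∀ b, 0 < εd b
  num : TNum3 M (edges M) h.toFun T C₀ εe (Wc D C) bn La Lf
  len_le : ∀ e, _root_.P073.H267.lenE (edges M) h.toFun e ≤ ENNReal.ofReal (2 * bn e)
  εch : ∀ e, εe e ≤ ‖h.toFun ((edges M).b e) - h.toFun ((edges M).a e)‖
  Lam10 : ∀ k, 0 ≤ Lam1 k
  card : ∀ b, (sl b).card ≤ nT b
  slIn : ∀ b : pB C J₀, SlIn (D.G C) (ω3T δ C) b.1 (σ b) (sl b)
  out : TOut3 D C (edges M) T C₀ μT εe εd La Lf Lam1 sl h1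

/-- the slivers of all boxes -/
noncomputable def slX {C : Cells ρ w K} (sl : pB C J₀ → Finset (ℝ × ℝ)) (b : TBx K) :
    Finset (ℝ × ℝ) := by
  classical exact if h : b ∈ pB C J₀ then sl ⟨b, h⟩ else ∅

theorem slX_eq {C : Cells ρ w K} (sl : pB C J₀ → Finset (ℝ × ℝ)) (b : pB C J₀) :
    slX sl b.1 = sl b := by
  unfold slX
  rw [dif_pos b.2]

namespace S1

variable {D : KIn3 c₀ n j δ v w ρ M h J₀ J P Z} {C : Cells ρ w K} {C₀ μT : ℝ} (X : S1 D C C₀ μT)

theorem dpre : DPre (D.G C) (D.dat C) X.h1 := X.out.dpre D C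

/-- **peeled faces are active** -/
theorem peel_act {k : M.κ} (hk : k ∈ (D.dat C).Peel (D.G C) X.h1) : k ∈ Act D C := by
  obtain ⟨s, hs, ⟨-, hP⟩, x, hx, hxs⟩ := hk
  rintro i' (hi' | hW) hk'
  · exact hP i' hi' hk'
  · exact X.out.wc_PK D C hW hs (hk' hx)
      (_root_.P073.H345.PB_sub_PK (by norm_num) s hxs)

theorem vi1 {A : Set V} (hA : (∃ k, A = M.F k) ∨ (∃ e, A = (edges M).seg e) ∨ ∃ i, A = M.Q i)
    {b : TBx K} (hb : b ∈ (D.dat C).G₀) :
    Vale.Agent.P073.H805.VI1 (D.G C) (slX X.sl) b (X.h1.toFun '' A) := by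
  intro y hy hyb t ht hr
  have e1 := slX_eq X.sl ⟨b, hb⟩
  refine X.out.vi A hA ⟨b, hb⟩ y hy hyb t ht fun r hr' => ?_
  rw [← e1]
  exact hr r hr'

theorem tpre : TPre (D.G C) (edges M) (D.dat C) X.h1 (slX X.sl) where
  ends := fun b hb => by
    have e1 := slX_eq X.sl ⟨b, hb⟩
    change slX X.sl b = _ at e1
    rw [e1]
    exact X.out.ends ⟨b, hb⟩
  face := fun b hb k _ => X.vi1 (Or.inl ⟨k, rfl⟩) hb
  edge := fun b hb k _ e _ => X.vi1 (Or.inr (Or.inl ⟨e, rfl⟩)) hb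
  vert := fun b hb k _ x hx _ hxb => by
    have e1 := slX_eq X.sl ⟨b, hb⟩
    change slX X.sl b = _ at e1
    rw [e1]
    exact X.out.vert x hx ⟨b, hb⟩ hxb
  cell := fun b hb i _ _ => X.vi1 (Or.inr (Or.inr ⟨i, rfl⟩)) hb

/-- a point of a plate of a processed square is near the processed tiles -/
theorem Nb_of_PK {s : K.S} (hs : s ∈ (D.dat C).S₀) {y : V} (hy : y ∈ PK (D.G C) s) :
    y ∈ Nb w J₀ c₀ :=
  (D.supp C).1 s hs (_root_.P073.H345.PK_sub_ss s hy)

theorem rectAt_congr {Q A : Set V} {f g : V → V}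
    (H : Vale.Agent.P073.H805.RectAt (edges M) Q f A) (hA : g '' A = f '' A)
    (hv : ∀ x ∈ (edges M).verts, x ∈ Q → g x = f x) :
    Vale.Agent.P073.H805.RectAt (edges M) Q g A := by
  obtain ⟨lo, hi, h1, h2⟩ := H
  refine ⟨lo, hi, by rw [hA, h1], fun l => ?_⟩
  obtain ⟨⟨x, hx, hxQ, h3⟩, y, hy, hyQ, h4⟩ := h2 l
  exact ⟨⟨x, hx, hxQ, by rw [hv x hx hxQ]; exact h3⟩, y, hy, hyQ, by rw [hv y hy hyQ]; exact h4⟩

include X in
theorem η_lt : (1 : ℝ) / 2 ^ j < 1 := by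
  have := D.η_le_one
  linarith

theorem prect : PRect (D.G C) (edges M) (D.dat C) X.h1 where
  cell := fun s hs i hi hne =>
    rectAt_congr (_root_.P073.H196.rectAt_cell (X.η_lt) D.inp hi) (X.out.rectc i hi)
      fun x hx hxQ => X.out.rectv i hi x hx hxQ
  face := fun s hs i hi k hk hne => by
    refine rectAt_congr (_root_.P073.H196.rectAt_face (X.η_lt) D.inp hi hk ?_)
      (X.out.rectf i hi k hk) fun x hx hxQ => X.out.rectv i hi x hx hxQ
    rw [← X.out.rectf i hi k hk]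
    exact hne.mono (inter_subset_inter_right _ fun y hy => Nb_of_PK hs hy)
  edge := fun s hs i hi k hk e he hne => by
    refine rectAt_congr (_root_.P073.H196.rectAt_seg (X.η_lt) D.inp hi (he.trans hk) ?_)
      (X.out.recte i hi e (he.trans hk)) fun x hx hxQ => X.out.rectv i hi x hx hxQ
    rw [← X.out.recte i hi e (he.trans hk)]
    exact hne.mono (inter_subset_inter_right _ fun y hy => Nb_of_PK hs hy)

/-! ### the exchange -/

section noc

open Vale.Agent.P073.H341 Vale.Agent.P073.H805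

/-- **the circles of the peeled faces near a side wall**, from (T8) for the peeled faces -/
theorem _root_.Vale.Agent.P073.H267.K3.noc_peel {S : Rad K} {W : Wid K S} {B : Boxes W}
    {G : Geo B} {h : ConHomeo Ω Λ} {D : Dat K M} {L : K.S → Fin 3 → Finset ℝ} (win : WinS G D L)
    (hcirc : ∀ s ∈ D.S₀, ∀ l, l ≠ K.nrm s → ∀ t ∈ L s l, ∀ b : TBx K, RelB s l b →
      ∀ k ∈ D.Peel G h, ∀ σ : Set V, _root_.P073.IsCircle σ → σ ⊆ M.F k →
      (∀ x ∈ σ, h.toFun x ∈ G.TB true b ∧ h.toFun x b.ax = t) → False)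
    (hτ : ∀ s k, D.PkS G h s k → ∀ x ∈ M.F k,
      |h.toFun x (K.nrm s) - K.slo s (K.nrm s)| ≤ 1 / 2 * B.τ s) :
    ∀ s k, D.PkS G h s k → ∀ (j l : Fin 3) (β : Bool),
      j ≠ K.nrm s → l ≠ K.nrm s → j ≠ l →
      (∀ x ∈ M.F k, h.toFun x ∈ G.PB (15 / 16) s ∧ SideNear G h s j β (3 / 2) x) →
      ∀ a ∈ L s l, ∀ σ : Set V, _root_.P073.IsCircle σ → σ ⊆ M.F k →
        ¬ ∀ x ∈ σ, h.toFun x l = a := by
  intro s k hk j l β hj hl hjl hA t htL σ hσ hσk hall
  have hp := Geo.p_pos (G := G) s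
  obtain ⟨hw1, hw2⟩ := win s hk.1 l hl t htL
  have hW : ∀ x ∈ σ, G.Wall s j l β (h.toFun x) := by
    intro x hx
    obtain ⟨h2, h3⟩ := hA x (hσk hx)
    obtain ⟨h4, -⟩ := Geo.mem_PB.1 h2
    have h5 := h4 j hj
    refine ⟨hj, hl, hjl, hτ s k hk x (hσk hx), ?_, ?_, ?_⟩
    · cases β
      · simp only [SideNear, Bool.false_eq_true, if_false] at h3 ⊢
        constructor <;> linarith
      · simp only [SideNear, if_true] at h3 ⊢
        constructor <;> linarith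
    · rw [hall x hx]; exact hw1
    · rw [hall x hx]; exact hw2
  obtain ⟨-, x0, hx0⟩ := conn_circle hσ
  obtain ⟨b, hb1, hb2, hb3⟩ := wall_all (hW x0 hx0)
  refine hcirc s hk.1 l hl t htL b hb1 k ⟨s, hk⟩ σ hσ hσk fun x hx => ⟨?_, ?_⟩
  · exact hb3 _ (hW x hx) (by rw [hall x hx, hall x0 hx0])
  · rw [hb2]; exact hall x hx

end noc

section pex

variable {X} {ι : Type} {F : ι → Set V} (L : PLev (D.G C))

theorem noSl_of_band (hband : Band3 L (pS C J₀) X.sl) {s : K.S} (hs : s ∈ pS C J₀) {β : Bool}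
    {m : ℕ} (hm : m < L.N s β) (b : pB C J₀) (hb : RelT s (tg s β) b.1) {r : ℝ}
    (hr : |r - L.a s β m| ≤ 2 * L.c s β) : NoSl (X.sl b) r := by
  intro p hp hrp
  have hr' := abs_le.1 hr
  rcases hband s hs β m hm b hb p hp with h1 | h1
  · linarith [hrp.2, hr'.1]
  · linarith [hrp.1, hr'.2]

theorem noSlX_of_band (hband : Band3 L (pS C J₀) X.sl) {s : K.S} (hs : s ∈ pS C J₀) {β : Bool}
    {m : ℕ} (hm : m < L.N s β) {b : TBx K} (hb : RelT s (tg s β) b) {r : ℝ}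
    (hr : |r - L.a s β m| ≤ 2 * L.c s β) : NoSl (slX X.sl b) r := by
  by_cases h : b ∈ pB C J₀
  · have e1 := slX_eq X.sl ⟨b, h⟩
    change slX X.sl b = _ at e1
    rw [e1]
    exact noSl_of_band L hband hs hm ⟨b, h⟩ hb hr
  · intro p hp
    unfold slX at hp
    rw [dif_neg h] at hp
    exact absurd hp (Finset.notMem_empty p)

theorem invIn (hband : Band3 L (pS C J₀) X.sl)
    (hav : PAvoid L (edges M) (D.dat C) X.h1) : InvIn (D.G C) (edges M) (D.dat C) L X.h1 :=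
  invIn_of X.tpre X.dpre X.prect hav fun _ hs _ _ hm _ hb _ hr =>
    noSlX_of_band L hband hs hm hb hr

/-- **the exchange of ROUND P** -/
theorem exists_pex
    (hwin : WinS (D.G C) (D.dat C) L.lv)
    (hr1 : ∀ s ∈ (D.dat C).S₀, ∀ l, l ≠ K.nrm s → ∀ x ∈ Ω, X.h1.toFun x l ∈ L.lv s l →
      Reg (fun y => X.h1.toFun y l) (pxFam X.h1 F (D.G C) (D.dat C)) x)
    (hr2 : ∀ s ∈ (D.dat C).S₀, ∀ x ∈ Ω, X.h1.toFun x (t1 (K.nrm s)) ∈ L.lv s (t1 (K.nrm s)) →
      X.h1.toFun x (t2 (K.nrm s)) ∈ L.lv s (t2 (K.nrm s)) →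
      Reg (fun y => (X.h1.toFun y (t1 (K.nrm s)), X.h1.toFun y (t2 (K.nrm s))))
        (pxFam X.h1 F (D.G C) (D.dat C)) x)
    (hband : Band3 L (pS C J₀) X.sl) (hav : PAvoid L (edges M) (D.dat C) X.h1)
    (hfam : FamOk M F) (hF : ∀ t, ∃ i, _root_.P073.H345.fam M (edges M) t = F i) :
    ∃ h2 : ConHomeo Ω Λ, PEx (D.G C) (edges M) (D.dat C) L F X.h1 h2 := by
  have hseg : ∀ e, ∃ g, F g = (edges M).seg e := fun e => by
    obtain ⟨i, hi⟩ := hF (.inr (.inl e))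
    exact ⟨i, hi.symm⟩
  have hht := D.htOk C
  have hcirc : ∀ s ∈ (D.dat C).S₀, ∀ l, l ≠ K.nrm s → ∀ t ∈ L.lv s l, ∀ b : TBx K, RelB s l b →
      ∀ k ∈ (D.dat C).Peel (D.G C) X.h1, ∀ σ : Set V, _root_.P073.IsCircle σ → σ ⊆ M.F k →
      (∀ x ∈ σ, X.h1.toFun x ∈ (D.G C).TB true b ∧ X.h1.toFun x b.ax = t) → False := by
    intro s hs l hl t ht b hb k hk σ hσ hσk hall
    have hb' : RelT s l b := by
      rcases b with e | H
      · exact hb
      · exact hb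
    have hbG : b ∈ pB C J₀ := X.dpre.rel s hs l b hb'
    obtain ⟨β, rfl⟩ : ∃ β, l = tg s β := ⟨_root_.P073.H345.bt s l, (_root_.P073.H345.tg_bt s hl).symm⟩
    rw [_root_.P073.H345.PLev.lv_tg] at ht
    obtain ⟨m, hm, rfl⟩ := (L.lvs s β).mem_L.1 ht
    refine X.out.circ k (X.peel_act hk) ⟨b, hbG⟩ _ (noSl_of_band L hband hs hm ⟨b, hbG⟩ hb' ?_) σ hσ
      hσk hall
    rw [sub_self, abs_zero]
    have := (L.lvs s β).c0
    positivity
  have hT := X.out.near
  have hpr := X.out.rectc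
  have hnd : ∀ s k, (D.dat C).PkS (D.G C) X.h1 s k → ∀ x ∈ M.F k,
      |X.h1.toFun x (K.nrm s) - K.slo s (K.nrm s)| ≤ (D.B C).τ s / 5 := fun s k hk x hx =>
    (Vale.Agent.P073.H341.near_dat D C hT hk hx).2
  have hR : Vale.Agent.P073.H341.RIn3 (D.G C) (edges M) (D.dat C) X.h1 L.lv F :=
    { ht := hht
      win := hwin
      prot := fun i hi x hx s _ hxs => Set.disjoint_left.1 (D.prot_PE C hpr hi s)
        (mem_image_of_mem _ hx) hxs
      near := fun s k hk x hx => (Vale.Agent.P073.H341.near_dat D C hT hk hx).1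
      osc := fun s k hk x hx y hy => Vale.Agent.P073.H341.osc_dat D C hT hk hx hy
      low := fun s k hk β hβ x hx hA => by
        have h1 := abs_le.1 (hnd s k hk x hx)
        have h2 := (D.B C).τ_pos s
        rw [D.dat_ht_not C hβ] at hA
        cases β
        · simp only [Vale.Agent.P073.H341.Abv, Bool.false_eq_true, if_false] at hA
          linarith
        · simp only [Vale.Agent.P073.H341.Abv, if_true] at hA
          linarith
      lowP := Vale.Agent.P073.H341.lowP_of_cov (Vale.Agent.P073.H341.cov_dat D C hpr)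
        fun s k hk x hx => (Vale.Agent.P073.H341.near_dat D C hT hk hx).1
      noc := noc_peel hwin hcirc fun s k hk x hx => by
        have h2 := hnd s k hk x hx
        have h3 := (D.B C).τ_pos s
        linarith
      fam := hfam
      seg := hseg
      reg1 := fun s hs l hl x hx h1 => by
        rw [Vale.Agent.P073.H341.pxFam_eq]
        exact hr1 s hs l hl x hx h1
      reg2 := fun s hs x hx h1 h2 => by
        rw [Vale.Agent.P073.H341.pxFam_eq]
        exact hr2 s hs x hx h1 h2 }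
  obtain ⟨h2, H1, H2⟩ := exists_pin3 D.bΩ.1 D.bΛ.1 hR
  exact ⟨h2, hht, invIn L hband hav, H1, H2, hF, X.dpre.miss⟩

end pex

end S1

end Vale.Agent.P073.H267.K3
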