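import Vale.Agent.P073.H267.K3St2
import Vale.Agent.P073.H669.PLwH

/-!
# P073, H267: **[K3-TOP]**, levels and exchange of ROUND P (`S2`)
-/

open Set Metric Topology Filter
open scoped ENNReal

set_option linter.unusedSectionVars false

namespace Vale.Agent.P073.H267.K3

open _root_.P073 _root_.P073.Net _root_.P073.PA691 _root_.P073.H236 _root_.P073.H579
open _root_.P073.H345 (PK tg PLev)
open _root_.P073.H880.RP
open _root_.P073.H155 (Band3 RelT)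
open Vale.Agent.P073.St (V)
open Vale.Agent.P073.H471 Vale.Agent.P073.H267
open Vale.Agent.P073.H73 (Mesh)
open Vale.Agent.P073.H193 (Edges Cyc edges)
open Vale.Agent.P073.H304 (Nb In Zmax)
open Vale.Agent.P073.H926
open Vale.Agent.P073.H238.K3
open Vale.Agent.P073.H341 (HtOk ROutZ vFam pxFam WinS famOk_vFam pxFam_cone pxFam_lf vFam_cell
  vFam_vert)
open Vale.Agent.P073.H687
open Vale.Agent.P073.H669 (plT3)
open Vale.Agent.P073.H805 (t1_ne_t2 PAvoid)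

variable {c₀ n δ : ℝ} {j : ℕ} {Ω Λ : Set V} {v w : V} {ρ : V → ℝ} {M : Mesh Ω} {h : ConHomeo Ω Λ}
  {J₀ J : Set (ℕ × (Fin 3 → ℤ))} {P Z : Set M.ι} {K : BoxCx Λ w}
  {D : KIn3 c₀ n j δ v w ρ M h J₀ J P Z} {C : Cells ρ w K} {C₀ μT : ℝ}

/-- **the exchange**, from the levels -/
theorem exists_ex (X : S1 D C C₀ μT) {η r : ℝ} {Cn : Set ℝ} {ξ : Type*}
    {sa sb : ξ → V} {εE : ξ → ℝ} {Wn : K.S → Bool → Set ℝ} {Jn : K.S → Bool → Finset (ℝ × ℝ)}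
    {μ Bg δP : K.S → ℝ}
    (L : PLw (D.G C) X.h1 (plT3 (D.G C) X.h1 X.fam (slX X.slp)) η r X.fam Cn sa sb εE Wn Jn μ Bg
      δP) :
    ∃ h2 : ConHomeo Ω Λ, PEx (D.G C) (edges M) (D.dat C) L.lev (vFam M (edges M)) X.h1 h2 := by
  have hfam : Vale.Agent.P073.H341.FamOk M (vFam M (edges M)) := famOk_vFam D.bΩ.1 M (edges M)
  have hlf := pxFam_lf (h := X.h1) D.bΩ.1 (D.htOk C) hfam
  have hav : PAvoid L.lev (edges M) (D.dat C) X.h1 :=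
    L.pavoid hlf (edges M) (D.dat C) (fun i _ => ⟨Sum.inl (Sum.inl (Sum.inr (Sum.inl i))), rfl⟩)
      (fun x hx => ⟨Sum.inl (Sum.inr ⟨x, hx⟩), rfl⟩) X.prect
  refine X.exists_pex L.lev (fun s _ l hl => L.win s l hl) (fun _ _ _ _ _ hx hl => L.regF hx hl)
    (fun _ _ _ hx h1 h2 => L.regF2 (t1_ne_t2 _) hx h1 h2)
    (fun s hs β m hm b hb p hp => bandp_of L s hs β m hm b hb p (Finset.mem_union_left _ hp))
    hav hfam ?_
  rintro (k | e | x)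
  · exact ⟨Sum.inl (Sum.inl k), rfl⟩
  · exact ⟨Sum.inl (Sum.inr (Sum.inr e)), rfl⟩
  · exact ⟨Sum.inr x, rfl⟩

/-- the half width of the end zones -/
noncomputable def S1.Jb (X : S1 D C C₀ μT) (b : TBx K) : ℝ := by
  classical exact if hb : b ∈ pB C J₀ then max (31 * ω3T δ C b) (X.fat ⟨b, hb⟩) else 0

/-- the slivers with the fattened ends -/
theorem slp_slG (X : S1 D C C₀ μT) {σ : TBx K → ℝ} (hσ : ∀ b, 0 < σ b)
    (hσX : ∀ b : pB C J₀, X.σ b ≤ σ b.1) (b : TBx K) :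
    SlG (D.G C) (X.Jb b) b (σ b) (slX X.slp b) := by
  classical
  by_cases hb : b ∈ pB C J₀
  · have e1 : slX X.slp b = X.slp ⟨b, hb⟩ := slX_eq X.slp ⟨b, hb⟩
    have e2 : X.Jb b = max (31 * ω3T δ C b) (X.fat ⟨b, hb⟩) := by
      unfold S1.Jb
      rw [dif_pos hb]
    rw [e1, e2]
    exact (slG_fat (X.slIn ⟨b, hb⟩) (X.fat0 ⟨b, hb⟩) (le_max_left _ _) (le_max_right _ _)).mono
      le_rfl (hσX ⟨b, hb⟩) Subset.rfl
  · unfold slX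
    rw [dif_neg hb]
    exact SlG.empty (hσ b).le

/-- **levels and exchange of ROUND P** -/
theorem exists_s2 (D : KIn3 c₀ n j δ v w ρ M h J₀ J P Z) (C : Cells ρ w K) {μ : K.S → ℝ}
    (hμ : ∀ s, 0 < μ s) :
    ∃ (μ' : K.S → ℝ) (σ : TBx K → ℝ), (∀ s, 0 < μ' s) ∧ (∀ s, μ' s ≤ μ s) ∧ (∀ b, 0 < σ b) ∧
      ∀ {C₀ μT : ℝ} (X : S1 D C C₀ μT), (∀ b : pB C J₀, X.σ b ≤ σ b.1) →
        ∀ {J' R : K.S → ℝ} {Q : K.S → Bool → Finset ℝ}, Marks (D.G C) J' R Q → ∀ {r : ℝ}, 0 ≤ r →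
        r ≤ 1 / 7 → (∀ s, μ s ≤ J' s) → (∀ s, J' s < R s) → (∀ s, J' s ≤ r * (R s - J' s)) →
        (∀ s l (b : pB C J₀), Vale.Agent.P073.H669.Rel s l b.1 → X.fat b ≤ J' s ∧ 31 * ω3T δ C b.1 ≤ J' s) →
        ∀ {εE : (edges M).ε → ℝ}, (∀ e, 0 < εE e) → ∀ {Cn : Set ℝ}, Cn.Countable → ∀ {η : ℝ},
        0 < η → η ≤ 1 / 4 → ∀ (Jn : K.S → Bool → Finset (ℝ × ℝ)) {dmax : K.S → ℝ},
        (∀ s, 0 < dmax s) →
        ∃ Y₂ : S2 X, (∀ s, Y₂.dP s ≤ dmax s) ∧ Y₂.J = J' ∧ Y₂.R = R ∧ Y₂.Q = Q ∧ Y₂.r = r ∧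
          Y₂.η = η ∧ Y₂.Cn = Cn ∧ Y₂.εE = εE ∧ Y₂.Jn = Jn ∧ Y₂.muP = μ' := by
  obtain ⟨μ', σ, hμ0, hμle, hσ0, H⟩ := exists_plev4 C (D.G C) hμ
  refine ⟨μ', σ, hμ0, hμle, hσ0, ?_⟩
  intro C₀ μT X hσ J' R Q hQ r hr hr7 hμJ hJR hJr hfat εE hεE Cn hCn η hη hη4 Jn dmax hd
  have hJ0 : ∀ s, 0 ≤ J' s := fun s => (hμ s).le.trans (hμJ s)
  have hΩ : IsOpen Ω := D.bΩ.1
  have hfam : Vale.Agent.P073.H341.FamOk M (vFam M (edges M)) := famOk_vFam hΩ M (edges M)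
  have hht := D.htOk C
  have hJb : ∀ s l b, Vale.Agent.P073.H669.Rel s l b → X.Jb b ≤ J' s := by
    intro s l b hb
    unfold S1.Jb
    by_cases h : b ∈ pB C J₀
    · rw [dif_pos h]
      have := hfat s l ⟨b, h⟩ hb
      exact max_le this.2 this.1
    · rw [dif_neg h]
      exact hJ0 s
  obtain ⟨dP, hdP, ⟨L⟩⟩ := H hQ hr hr7 hJ0 hJR hJr hΩ X.h1 hJb (slp_slG X hσ0 hσ)
    (pxFam_cone (h := X.h1) hht hfam) (pxFam_lf (h := X.h1) hΩ hht hfam) (sa := (edges M).a)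
    (sb := (edges M).b) (fun e => (edges M).seg_sub_Ω e) (edges M).fin hεE hCn hη hη4 Jn hd
  obtain ⟨h2, ex⟩ := exists_ex X L
  exact ⟨⟨J', R, Q, r, η, Cn, εE, Jn, μ', dP, hJ0, fun s => (hJR s).le,
    fun s => (hμle s).trans (hμJ s), hQ, hεE, L, h2, ex⟩, hdP,
    rfl, rfl, rfl, rfl, rfl, rfl, rfl, rfl, rfl⟩

end Vale.Agent.P073.H267.K3
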