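import Vale.Agent.P073.H267.K3T2
import Vale.Agent.P073.H267.Ins3P
import Vale.Agent.P073.H196.AxP
import Vale.Agent.P073.H233.Small3E
import Vale.Agent.P073.H233.Tail3C
import Vale.Agent.P073.H31.FRound

/-!
# P073, H267: **[K3-TOP]**, insertion and staircases of ROUND P (`S3`)
-/

open Set Metric Topology Filter
open scoped ENNReal

set_option linter.unusedSectionVars false

namespace Vale.Agent.P073.H267.K3

open _root_.P073 _root_.P073.Net _root_.P073.PA691 _root_.P073.H236 _root_.P073.H579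
open _root_.P073.H936 _root_.P073.H936.K3
open _root_.P073.H142
open _root_.P073.H345 (PK tg PLev)
open _root_.P073.H880.RP
open _root_.P073.H190 (IsS2 PT2 exists_isS2)
open _root_.P073.H919 (HB h3w h3w_map h3w_eq)
open _root_.P073.H267 (lenE)
open Vale.Agent.P073.St (V)
open Vale.Agent.P073.H471 Vale.Agent.P073.H267
open Vale.Agent.P073.H73 (Mesh)
open Vale.Agent.P073.H193 (Edges Cyc edges)
open Vale.Agent.P073.H304 (Nb In Zmax)
open Vale.Agent.P073.H926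
open Vale.Agent.P073.H238.K3

variable {c₀ n δ : ℝ} {j : ℕ} {Ω Λ : Set V} {v w : V} {ρ : V → ℝ} {M : Mesh Ω} {h : ConHomeo Ω Λ}
  {J₀ J : Set (ℕ × (Fin 3 → ℤ))} {P Z : Set M.ι} {K : BoxCx Λ w}
  {D : KIn3 c₀ n j δ v w ρ M h J₀ J P Z} {C : Cells ρ w K} {C₀ μT : ℝ}
  {X : S1 D C C₀ μT} {Y₂ : S2 X} {Ys : Set M.κ} {sc : Sharp}

/-- the ratio of the images of the end points of an edge -/
noncomputable def chR {Ω : Set V} {M : Mesh Ω} (E : Edges M) (h : V → V) (e : E.ε) : ℝ :=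
  ‖h (E.b e) - h (E.a e)‖ / ‖E.b e - E.a e‖

/-- a protected cell is mapped by a similarity -/
theorem lip_prot (D : KIn3 c₀ n j δ v w ρ M h J₀ J P Z) {i : M.ι} (hi : i ∈ P)
    {e : (edges M).ε} (he : (edges M).seg e ⊆ M.Q i) : ∀ x ∈ M.Q i, ∀ y ∈ M.Q i,
    ‖h.toFun x - h.toFun y‖ ≤ chR (edges M) h.toFun e * ‖x - y‖ := by
  obtain ⟨t, -, a, r, s, hr, hs, hQi, hh⟩ := D.inp.prot i hi
  have hη : (1:ℝ) / 2 ^ j < 1 := by
    have := D.η_le_one
    linarith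
  set q := (1 - 1 / 2 ^ j) / 2 / 2 ^ t.1 / r with hq
  have hq0 : 0 < q := by
    have : 0 < 1 - (1:ℝ) / 2 ^ j := by linarith
    positivity
  have key : ∀ x ∈ M.Q i, ∀ y ∈ M.Q i, ‖h.toFun x - h.toFun y‖ = q * ‖x - y‖ := by
    intro x hx y hy
    have h1 : ∀ k, |(h.toFun x - h.toFun y) k| = q * |(x - y) k| := fun k => by
      rw [Pi.sub_apply, hh x hx k, hh y hy k]
      have e1 : Vale.Agent.P073.H73.ctr w t.1 t.2 k + q * s k * (x k - a k) -
        (Vale.Agent.P073.H73.ctr w t.1 t.2 k + q * s k * (y k - a k)) = q * (s k * (x k - y k)) := by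
        ring
      rw [e1, abs_mul, abs_mul, abs_of_pos hq0]
      rcases hs k with h2 | h2 <;> rw [h2] <;> simp
    apply le_antisymm
    · rw [pi_norm_le_iff_of_nonneg (by positivity)]
      intro k
      rw [Real.norm_eq_abs, h1]
      exact mul_le_mul_of_nonneg_left (norm_le_pi_norm (x - y) k) hq0.le
    · rw [← le_div_iff₀' hq0, pi_norm_le_iff_of_nonneg (by positivity)]
      intro k
      rw [Real.norm_eq_abs, le_div_iff₀' hq0, ← h1]
      exact norm_le_pi_norm (h.toFun x - h.toFun y) k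
  have ha : (edges M).a e ∈ M.Q i := he (left_mem_segment ℝ _ _)
  have hb : (edges M).b e ∈ M.Q i := he (right_mem_segment ℝ _ _)
  have hne : 0 < ‖(edges M).b e - (edges M).a e‖ :=
    norm_pos_iff.2 (sub_ne_zero.2 ((edges M).ne e).symm)
  intro x hx y hy
  unfold chR
  rw [key x hx y hy, key _ hb _ ha, mul_div_assoc, div_self hne.ne', mul_one]

/-- the chord of an edge -/
theorem chord_le (X : S1 D C C₀ μT) (e : (edges M).ε) :
    ‖h.toFun ((edges M).b e) - h.toFun ((edges M).a e)‖ ≤ 2 * X.bn e := by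
  have h1 := Vale.Agent.P073.H233.dist_le_len h.toFun ((edges M).a e, (edges M).b e)
  have h2 := X.len_le e
  have h3 := X.num.b_pos e
  exact (ENNReal.ofReal_le_ofReal_iff (by linarith)).1 (h1.trans h2)

/-- **insertion and staircases of ROUND P** -/
theorem exists_s3 (hC₀ : 1 ≤ C₀) (Y₂ : S2 X) (Ys : Set M.κ) {sc : Sharp} (hm0 : 0 < sc.m)
    (hm1 : sc.m < 1 / 4) (hK : 0 < sc.K) (hρ : sc.ρ ≤ 1 / 2)
    (hSF : FW31.SpecSharpFace sc.m sc.K sc.e sc.β sc.ρ) {C₂ : ℝ} (hC₂ : 0 ≤ C₂)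
    (hwe : ∀ s e, EAct (edges M) ((D.dat C).PkS (D.G C) X.h1) s e → ∀ Y : Finset V,
      (∀ x ∈ Y, CrsPt ((edges M).a e) ((edges M).b e) Y₂.h2.toFun (Y₂.L.lv s) x) →
        ∑ x ∈ Y, omX Y₂.h2.toFun (Y₂.L.lv s) (Y₂.L.omP s) x ≤ C₂ * X.bn e)
    {cm : K.S → Bool → ℝ} (hcm : ∀ s β, 0 < cm s β) {ν : M.κ → ℝ} (hν : ∀ k, 0 < ν k)
    (e₁ : ConHomeo Ω Λ → (K.S → Bool → ℝ) → Bool → (D.dat C).S₀ → ℝ)
    (he₁ : ∀ h3 c, (∀ s β, 0 < c s β) → ∀ β s, 0 < e₁ h3 c β s) :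
    ∃ Y₃ : S3 Y₂ Ys sc, Y₃.q = 8 * C₂ + 32 * C₀ ∧ (∀ s β, Y₃.c s β ≤ cm s β) ∧ Y₃.ν = ν ∧
      (∀ β s, Y₃.e β s ≤ e₁ Y₃.h3 Y₃.c β s) ∧ Y₃.We = fun e => C₂ * X.bn e := by
  have hC0 : 0 ≤ C₀ := by linarith
  have hb : ∀ e, 0 < X.bn e := X.num.b_pos
  have hne : ∀ e, 0 < ‖(edges M).b e - (edges M).a e‖ := fun e =>
    norm_pos_iff.2 (sub_ne_zero.2 ((edges M).ne e).symm)
  set Le : (edges M).ε → ℝ := fun e => max (X.La e) (C₀ * chR (edges M) h.toFun e) with hLe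
  set We : (edges M).ε → ℝ := fun e => C₂ * X.bn e with hWe
  set La : (edges M).ε → ℝ := fun e => max (laE (edges M) We e) (16 * Le e) with hLa
  have hLe0 : ∀ e, 0 ≤ Le e := fun e => (X.num.La_nonneg e).trans (le_max_left _ _)
  have hWe0 : ∀ e, 0 ≤ We e := fun e => mul_nonneg hC₂ (hb e).le
  have hLeb : ∀ e, Le e * ‖(edges M).b e - (edges M).a e‖ ≤ 2 * C₀ * X.bn e := fun e => by
    rw [hLe]
    dsimp only
    rw [max_mul_of_nonneg _ _ (hne e).le]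
    refine max_le ((X.num.La_le e).trans ?_) ?_
    · nlinarith [mul_nonneg hC0 (hb e).le]
    · unfold chR
      rw [mul_assoc, div_mul_cancel₀ _ (hne e).ne']
      calc _ ≤ C₀ * (2 * X.bn e) := mul_le_mul_of_nonneg_left (chord_le X e) hC0
        _ = _ := by ring
  have hLq : ∀ e, La e * ‖(edges M).b e - (edges M).a e‖ ≤ (8 * C₂ + 32 * C₀) * X.bn e :=
    fun e => by
    have h1 : 0 ≤ C₂ * X.bn e := mul_nonneg hC₂ (hb e).le
    have h2 : 0 ≤ C₀ * X.bn e := mul_nonneg hC0 (hb e).le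
    rw [hLa]
    dsimp only
    rw [max_mul_of_nonneg _ _ (hne e).le]
    refine max_le ?_ ?_
    · unfold laE
      rw [div_mul_cancel₀ _ (hne e).ne', hWe]
      dsimp only
      nlinarith
    · have := hLeb e
      nlinarith
  -- the insertion
  obtain ⟨c, c0, c1, κ, Θ, h3, hc, hI, hoff⟩ := Y₂.ex.exists_ins3q D.bΩ.1 D.bΛ.1
    X.out.toT3OutG (fun k hk => X.peel_act hk) X.dpre.rel Y₂.band (Le := Le)
    (fun e => le_max_left _ _)
    (fun s k hk l hl e hek hel => by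
      obtain ⟨i, hi, hli⟩ := hl
      have h1 := _root_.P073.H196.axOn_prot X hC₀ hk hi hek (hel.trans hli)
        (lip_prot D hi (hel.trans hli))
      obtain ⟨l', h2, h3⟩ := h1
      exact ⟨l', h2, fun x hx y hy => (h3 x hx y hy).trans
        (mul_le_mul_of_nonneg_right (le_max_right _ _) (norm_nonneg _))⟩)
    (La := La) (We := We) hLe0 (fun e => le_max_left _ _) (fun e => le_max_right _ _) hWe0
    (fun s β t => Y₂.Lw.omP_le_c s β t) hwe (fun k => (X.T k).C) (O' := fun k => (X.T k).O)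
    (r0 := fun k => (X.T k).rho) (R := fun k => (X.T k).R) (fun k => (X.T k).star)
    (_root_.P073.FW31.edges_isEdge M) hm0 hm1 hK hρ hSF Ys hcm
  -- the walls
  obtain ⟨e, e0, hee, hsm⟩ := Vale.Agent.P073.H233.exists_e3 D.bΩ.1 (D.G C) (D.dat C) X.h1 h3 c0 hν
    (e₁ := fun β s => min (e₁ h3 c β s) (Y₂.dP s.1 / 8))
    (fun β s => lt_min (he₁ h3 c c0 β s) (by have := Y₂.Lw.δ0 s.1; linarith))
  have e8 : ∀ β (s : (D.dat C).S₀), e β s ≤ Y₂.dP s.1 / 8 := fun β s =>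
    (hee β s).trans (min_le_right _ _)
  -- the staircases
  obtain ⟨T3, hT3⟩ := F3W_exists (S₀ := (D.dat C).S₀) Y₂.Lw (c0 := c0) (c1 := c1) (e := e)
    (he := e0) (he8 := e8) D.bΛ.1
  choose T2 hT2 using fun β => exists_isS2 D.bΛ.1
    (F3W Y₂.Lw c0 c1 (D.dat C).S₀ e e0 e8 β) (μ := fun s => Y₂.muP s.1)
    (fun s => (Y₂.muP0 s.1).le)
  have hps : PS3 (thinL Y₂.L c c0 c1) (D.dat C).S₀ (F3W Y₂.Lw c0 c1 (D.dat C).S₀ e e0 e8) T3 :=
    F3W_ps Y₂.Lw hT3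
  have hpt : PT2 (thinL Y₂.L c c0 c1) (D.dat C).S₀ (F3W Y₂.Lw c0 c1 (D.dat C).S₀ e e0 e8)
      (fun _ s => Y₂.muP s.1) T2 :=
    { B := hps.B
      isS := hT2
      μ0 := fun _ s => (Y₂.muP0 s.1).le
      μD := fun β s => by
        rw [F3W_D]
        linarith [Y₂.muJ s.1] }
  set h4 : ConHomeo Ω Λ := (h3.trans (T2 false)).trans (T2 true) with hh4d
  have hh4 : ∀ x ∈ Ω, h4.toFun x = PS.map T2 (h3.toFun x) := fun x _ => rfl
  refine ⟨⟨La, We, 8 * C₂ + 32 * C₀, fun e => ?_, hWe0, fun e => le_max_left _ _, fun e => ?_, hLq,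
    fun e => ?_, hwe, c, c0, c1, κ, Θ, h3, hI, hoff.face, hoff.cell, e, e0, e8, ν, hν, hsm, T3,
    hT3, T2, hT2, h4, hh4, h3w T3 h4, fun x hx => h3w_map T3 h4 hx,
    fun x hx h => h3w_eq hh4 hx h, ?_⟩, rfl, hc, rfl, fun β s => (hee β s).trans (min_le_left _ _),
    rfl⟩
  · have h1 := hLe0 e
    exact (show (0:ℝ) ≤ 16 * Le e by linarith).trans (le_max_right _ _)
  · exact (mul_le_mul_of_nonneg_left (le_max_left _ _) (by norm_num)).trans (le_max_right _ _)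
  · have h1 : 0 ≤ C₂ * X.bn e := hWe0 e
    have h2 : 0 ≤ C₀ * X.bn e := mul_nonneg hC0 (hb e).le
    show C₂ * X.bn e ≤ _
    nlinarith
  · intro s hs x hx hxs
    rw [hh4 x hx] at hxs
    exact h3w_eq hh4 hx (hpt.hT hps s hs _ (h3.mapsTo hx) hxs)

end Vale.Agent.P073.H267.K3
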