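import Vale.Agent.P073.H267.K3T2

/-!
# P073, H267: **[K3-TOP]**, the hook of the plates and the second staircases (`S4`)
-/

open Set Metric Topology Filter
open scoped ENNReal

set_option linter.unusedSectionVars false

namespace Vale.Agent.P073.H267.K3

open _root_.P073 _root_.P073.Net _root_.P073.PA691 _root_.P073.H236 _root_.P073.H579
open _root_.P073.H936 _root_.P073.H936.K3
open _root_.P073.H142
open _root_.P073.H345 (PK tg PLev)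
open _root_.P073.H880.RP
open _root_.P073.H919 (HkG HkGF HkGO ZbP sfam HB PI PSt exists_player)
open Vale.Agent.P073.St (V)
open Vale.Agent.P073.H471 Vale.Agent.P073.H267
open Vale.Agent.P073.H73 (Mesh)
open Vale.Agent.P073.H193 (Edges Cyc edges)
open Vale.Agent.P073.H304 (Nb In Zmax)
open Vale.Agent.P073.H926
open Vale.Agent.P073.H238.K3

variable {c₀ n δ : ℝ} {j : ℕ} {Ω Λ : Set V} {v w : V} {ρ : V → ℝ} {M : Mesh Ω} {h : ConHomeo Ω Λ}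
  {J₀ J : Set (ℕ × (Fin 3 → ℤ))} {P Z : Set M.ι} {K : BoxCx Λ w}
  {D : KIn3 c₀ n j δ v w ρ M h J₀ J P Z} {C : Cells ρ w K} {C₀ μT : ℝ}
  {X : S1 D C C₀ μT} {Y₂ : S2 X} {Ys : Set M.κ} {sc : Sharp}

/-- **the input of the hook of the plates** -/
theorem S3.hkG (Y₃ : S3 Y₂ Ys sc) :
    HkG M Y₃.Lt (Subtype.val : (D.dat C).S₀ → K.S) Y₃.F Y₃.T3 (Y₃.κ false) (Y₃.κ true)
      (29 / 32) (3 / 4) (ZbP (D.G C) (D.dat C) Y₃.h4) Y₂.h2 Y₃.h3p Y₃.h4 v where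
  hΛ := D.bΛ.1
  P := PSt.of_PS3 Y₃.ps
  q₀ := Y₃.ins.isQ false
  q₁ := Y₃.ins.isQ true
  surj := Y₃.ins.ins2.surj
  map := fun x hx => Y₃.map3 x hx
  hc := by norm_num
  hc2 := by norm_num
  hd0 := by norm_num
  hd := by norm_num
  face := fun s i hi k hk => by
    rw [← Y₃.ins.out.img_face k]
    refine image_congr fun x hx => Y₃.eqHB s.1 s.2 x (M.sub i (hk hx)) ?_
    exact interior_subset (hi.2 ⟨x, hk hx, rfl⟩)
  cube := fun _ i hi => by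
    refine D.inp.cube_of_Zmax (η' := 2 / 2 ^ j) ?_ hi.1.1
    have h1 := D.η_le_κ
    have h2 : (2:ℝ) / 2 ^ j = 2 * (1 / 2 ^ j) := by ring
    have h3 := Vale.Agent.P073.H926.κ3_le D.pos D.lt
    have h4 := D.pos
    have h5 := D.nle
    rw [h2]
    linarith
  int := fun _ _ hi => hi.2

/-- **the hook of the plates and the second staircases**: `r`, `q` first, then `h5`, then the
tolerance, a function of `h5` and its local Lipschitz constants -/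
theorem exists_s4 (Y₃ : S3 Y₂ Ys sc) {r q : (D.dat C).S₀ → ℝ} (r0 : ∀ s, 0 < r s)
    (r1 : ∀ s, r s < 1) (q0 : ∀ s, 0 < q s) (q1 : ∀ s, q s < 1)
    (tol : ConHomeo Ω Λ → ((D.dat C).S₀ → ℝ) → (D.dat C).S₀ → ℝ)
    (htol : ∀ f k s, 0 < tol f k s) :
    ∃ Y₄ : S4 Y₃, Y₄.r = r ∧ Y₄.q = q ∧ Y₄.ε = tol Y₄.h5 Y₄.K₂ := by
  obtain ⟨h5, hk, hko, K₂, K₂0, hl, p0, p1, H⟩ :=
    exists_player D.bΩ.1 Y₃.hkG (r := r) (q := q) r0 r1 q0 q1
  obtain ⟨ς, ς0, ς1, ςK, ςε, Tσ, sg, f5, hf5⟩ := H (tol h5 K₂) (htol h5 K₂)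
  exact ⟨⟨r, q, r0, r1, q0, q1, Y₃.hkG, h5, hk, hko, K₂, K₂0, hl, p0, p1, tol h5 K₂, ς, ς0, ς1,
    ςK, ςε, Tσ, sg, f5, hf5⟩, rfl, rfl, rfl⟩

end Vale.Agent.P073.H267.K3
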