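import Vale.Agent.P073.H233.Tail3L

/-!
# P073, block H267: [K3-TAIL] for the two outputs of `K3C`

* `exists_k3_sharp_of_last3`: `OutB` and `SharpOut3`; the clause `osc` of `Last3` is void
  (`Ps := fun _ _ => True`);
* `exists_k3_osc_of_last3`: `OutB` and the clauses `osc`, without sharp faces.
-/

open Set Metric Topology Filter MeasureTheory
open scoped ENNReal

namespace Vale.Agent.P073.H267.K3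

open _root_.P073 _root_.P073.Net _root_.P073.PA691 _root_.P073.TM
open Vale.Agent.P073.St (V)
open Vale.Agent.P073.H471 Vale.Agent.P073.H267 Vale.Agent.P073.H926 Vale.Agent.P073.H233
open Vale.Agent.P073.H73 (Mesh sqr onSeg)
open Vale.Agent.P073.H193 (Edges edges)
open Vale.Agent.P073.H304 (Cst Nb Small Zmax OutB OscOut)

variable {c₀ n δ : ℝ} {j : ℕ} {Ω Λ : Set V} {v w : V} {ρ : V → ℝ} {M : Mesh Ω}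
  {h : ConHomeo Ω Λ} {J₀ J : Set (ℕ × (Fin 3 → ℤ))} {P Z Z₀ : Set M.ι} {K : BoxCx Λ w}
  {p D' Dc A C₁ C₁' D₀ D₁ : ℝ} {Ps : M.ι → ConHomeo Λ Λ → Prop} {Y : Set M.κ}
  {ε ε₀ : M.κ → ℝ} {om εL : (edges M).ε → ℝ} {lam osc : M.ι → ℝ}

/-- **[K3-TAIL]** for any `Ps` -/
theorem exists_out_of_last3P (D : KIn3 c₀ n j δ v w ρ M h J₀ J P Z₀) (C : Cells ρ w K)
    (hp : 2 < p) (hZ : Z ⊆ Zmax M w h.toFun J₀ P (2 / 2 ^ j)) (hε : ∀ k, 0 < ε k)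
    (T : Tol M h.toFun ε om εL lam osc) (hA : 0 ≤ A) (hC₁ : 0 < C₁) (hC₁' : 0 < C₁')
    (hD₀ : 1 ≤ D₀) (hD₁ : 1 ≤ D₁) {f : ConHomeo Ω Λ}
    (L : Last3 (D.B C) (Xp C J₀) (20 / (1 / μN n)) Ps (fun Φ => ∃ R, SoftQ D C R Φ) p
      (1 / 2 ^ j) c₀ ρ h.toFun J₀ J P Z Y ε om εL lam A C₁ C₁' D₀ D₁ f.toFun)
    (hD : kC p A D₀ D₁ C₁ ≤ Dc) (hD' : kC p A D₀ D₁ C₁' ≤ D') {Sh : ConHomeo Ω Λ → Prop}
    (hsharp : ∃ t₀ : M.κ ⊕ M.ι → ℝ, (∀ a, 0 < t₀ a) ∧ ∀ (R : Fac K) (N t : M.κ ⊕ M.ι → ℝ)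
      (Φ : ConHomeo Λ Λ), (∀ a, 0 < t a) → (∀ a, t a ≤ t₀ a) →
      Small3 (D.W C) (Xp C J₀) R f.toFun (FQ M) N t → SoftQ D C R Φ → Sh (f.trans Φ)) :
    ∃ g : ConHomeo Ω Λ, OutN p Dc D' (1 / 2 ^ j) c₀ w ρ M h.toFun J₀ J P Z Y ε g ∧ Sh g ∧
      ((∀ i Φ, ¬ Ps i Φ) → COsc Dc D' M h.toFun P Y g.toFun ∧ FOsc Dc D' M h.toFun P Y g.toFun) := by
  obtain ⟨hμ, hμ1⟩ := soft_mu D
  have hΛ := TM.isOpen_Λ D.hρ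
  have hdiag := diag_of D
  -- thresholds
  obtain ⟨t₁, ht₁, h1⟩ := Ev.all (B := D.B C) (X := Xp C J₀) (μ := 20 / (1 / μN n)) (M := M)
    (f := f.toFun) (p := fun a Φ => Sum.elim
      (fun k => OutF M w Ps (fun Φ => ∃ R, SoftQ D C R Φ) h.toFun f.toFun (1 / 2 ^ j) c₀ J₀ P Z
        Y ε om C₁ C₁' D₀ k Φ)
      (fun i => OutC M w ρ p h.toFun f.toFun J₀ J P Z Y ε A C₁ C₁' D₀ D₁ i Φ) a)
    (fun a => by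
      rcases a with k | i
      · exact L.ev_face T f.cont hε hC₁ hC₁' hD₀ hμ hμ1 k
      · exact L.ev_cell T f.cont hε hp hC₁ hC₁' hD₀ (by linarith) hμ hμ1 hdiag i)
  obtain ⟨t₂, ht₂, h2⟩ := hsharp
  obtain ⟨R, N, HS, hR⟩ := exists_small3 D.bΩ.1 f (D.W C) (Xp C J₀) (FQ M) (isCompact_FQ M)
    (FQ_sub M) (fun c hc hcc => FQ_fin M c hc hcc) (t := fun a => min (t₁ a) (t₂ a))
    fun a => lt_min (ht₁ a) (ht₂ a)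
  obtain ⟨Φ, HΦ⟩ := exists_softQ D C hR
  have ht0 : ∀ a, 0 < min (t₁ a) (t₂ a) := fun a => lt_min (ht₁ a) (ht₂ a)
  have h3 := h1 R N _ Φ ht0 (fun a => min_le_left _ _) HS HΦ.2.1.toIsSoft
  have HF : Fin3 w Ps (fun Φ => ∃ R, SoftQ D C R Φ) (1 / 2 ^ j) c₀ ρ p h.toFun f.toFun J₀ J P Z
      Y ε om A C₁ C₁' D₀ D₁ Φ :=
    { F := fun k => h3 (.inl k)
      C := fun i => h3 (.inr i)
      diag := hdiag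
      sq := sq_of D hZ
      ε0 := hε
      om0 := T.om_pos
      om_le := T.om_le
      p2 := hp
      A0 := hA
      C0 := hC₁
      C0' := hC₁'
      D0 := hD₀
      D1 := by linarith }
  have hk := kbd_of hp hA hD₀ (by linarith) hC₁ hD
  have hk' := kbd_of hp hA hD₀ (by linarith) hC₁' hD'
  exact ⟨f.trans Φ, out_of_fin3 hΛ D.hρ C T D.tile (by linarith [D.le]) hD₁ L HF
    HΦ.2.1.toIsSoft (fun y hy => HΦ.off hy) hk hk',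
    h2 R N _ Φ ht0 (fun a => min_le_right _ _) HS HΦ,
    fun hPs => ⟨osc_of_fin3 hΛ T HF ⟨R, HΦ⟩ (fun i => hPs i Φ) hk hk',
      fOsc_of_fin3 T HF ⟨R, HΦ⟩ (fun i => hPs i Φ) hk hk'⟩⟩

/-- **[K3-TAIL], the sharp output** (`b = true`): `Last3` with a void clause `osc` -/
theorem exists_k3_sharp_of_last3 (D : KIn3 c₀ n j δ v w ρ M h J₀ J P Z₀) (C : Cells ρ w K)
    (hp : 2 < p) (hZ : Z ⊆ Zmax M w h.toFun J₀ P (2 / 2 ^ j)) (hε : ∀ k, 0 < ε k)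
    (hε₀ : ∀ k, ε k ≤ ε₀ k) (T : Tol M h.toFun ε om εL lam osc) (hA : 0 ≤ A) (hC₁ : 0 < C₁)
    (hC₁' : 0 < C₁') (hD₀ : 1 ≤ D₀) (hD₁ : 1 ≤ D₁) {f : ConHomeo Ω Λ}
    (L : Last3 (D.B C) (Xp C J₀) (20 / (1 / μN n)) (fun _ _ => True)
      (fun Φ => ∃ R, SoftQ D C R Φ) p
      (1 / 2 ^ j) c₀ ρ h.toFun J₀ J P Z Y ε om εL lam A C₁ C₁' D₀ D₁ f.toFun)
    (hDc : 0 ≤ Dc) (hDD : Dc ≤ D')
    (hD : kC p A D₀ D₁ C₁ ≤ Dc) (hD' : kC p A D₀ D₁ C₁' ≤ D') {μs r m : ℝ}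
    (hsharp : ∃ t₀ : M.κ ⊕ M.ι → ℝ, (∀ a, 0 < t₀ a) ∧ ∀ (R : Fac K) (N t : M.κ ⊕ M.ι → ℝ)
      (Φ : ConHomeo Λ Λ), (∀ a, 0 < t a) → (∀ a, t a ≤ t₀ a) →
      Small3 (D.W C) (Xp C J₀) R f.toFun (FQ M) N t → SoftQ D C R Φ →
      H212.SharpOut3 p Dc c₀ δ μs r w ρ M h.toFun J₀ Y ε (f.trans Φ)) :
    ∃ g : ConHomeo Ω Λ, OutB p Dc D' (1 / 2 ^ j) c₀ m w ρ M h.toFun J₀ J P Z Y ε₀ g ∧
      H212.SharpOut3 p Dc c₀ δ μs r w ρ M h.toFun J₀ Y ε₀ g := by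
  obtain ⟨g, h1, h2, -⟩ := exists_out_of_last3P D C hp hZ hε T hA hC₁ hC₁' hD₀ hD₁ L
    hD hD' (Sh := fun g =>
      H212.SharpOut3 p Dc c₀ δ μs r w ρ M h.toFun J₀ Y ε g) hsharp
  exact ⟨g, (out_mono_eps (by linarith) hDc hDD hε₀ h1).toB, sharpOut3_mono_eps hε₀ h2⟩

/-- **[K3-TAIL], the output with the oscillation** (`b = false`): no sharp faces -/
theorem exists_k3_osc_of_last3 (D : KIn3 c₀ n j δ v w ρ M h J₀ J P Z₀) (C : Cells ρ w K)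
    (hp : 2 < p) (hZ : Z ⊆ Zmax M w h.toFun J₀ P (2 / 2 ^ j)) (hε : ∀ k, 0 < ε k)
    (hε₀ : ∀ k, ε k ≤ ε₀ k) (T : Tol M h.toFun ε om εL lam osc) (hA : 0 ≤ A) (hC₁ : 0 < C₁)
    (hC₁' : 0 < C₁') (hD₀ : 1 ≤ D₀) (hD₁ : 1 ≤ D₁) {f : ConHomeo Ω Λ}
    (L : Last3 (D.B C) (Xp C J₀) (20 / (1 / μN n)) (fun _ _ => False)
      (fun Φ => ∃ R, SoftQ D C R Φ) p
      (1 / 2 ^ j) c₀ ρ h.toFun J₀ J P Z Y ε om εL lam A C₁ C₁' D₀ D₁ f.toFun)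
    (hDc : 0 ≤ Dc) (hDD : Dc ≤ D')
    (hD : kC p A D₀ D₁ C₁ ≤ Dc) (hD' : kC p A D₀ D₁ C₁' ≤ D') {m : ℝ} :
    ∃ g : ConHomeo Ω Λ, OutB p Dc D' (1 / 2 ^ j) c₀ m w ρ M h.toFun J₀ J P Z Y ε₀ g ∧
      OscOut Dc D' c₀ w M h.toFun J₀ P Z Y g.toFun ∧ COsc Dc D' M h.toFun P Y g.toFun ∧
      FOsc Dc D' M h.toFun P Y g.toFun := by
  obtain ⟨g, h1, -, h3⟩ := exists_out_of_last3P D C hp hZ hε T hA hC₁ hC₁' hD₀ hD₁ L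
    hD hD' (Sh := fun _ => True) ⟨fun _ => 1, fun _ => one_pos, fun _ _ _ _ _ _ _ _ => trivial⟩
  obtain ⟨h4, h5⟩ := h3 fun _ _ => id
  exact ⟨g, (out_mono_eps (by linarith) hDc hDD hε₀ h1).toB, h4.toOut, h4, h5⟩

end Vale.Agent.P073.H267.K3
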