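import Vale.Agent.P073.H237.Elip3
import Vale.Agent.P073.H237.Plug1
import Vale.Agent.P073.H429.Prot3E
import Vale.Agent.P073.H267.TailB

/-!
# P073, H267: **[K3-TOP]**, `Last3` from the rows

* `RowNum`: the numbers which the rows ask for;
* `S5.last3`: `Last3` from `RowNum`, the estimate of the drawn faces which are not peeled, and the
  rows `lip`, `edge`, `osc`, `face`, `cell`.
-/

open Set Metric Topology Filter MeasureTheory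
open scoped ENNReal

set_option linter.unusedSectionVars false

namespace Vale.Agent.P073.H267.K3

open _root_.P073 _root_.P073.Net _root_.P073.PA691 _root_.P073.H236 _root_.P073.H579
open _root_.P073.H936 _root_.P073.H936.K3
open _root_.P073.H142
open _root_.P073.H345 (PK PB_sub_PK PK_sub_ss tg PLev)
open _root_.P073.H880.RP
open _root_.P073.H429
open _root_.P073.H237.Cov (pst)
open Vale.Agent.P073.St (V)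
open Vale.Agent.P073.H471 Vale.Agent.P073.H267
open Vale.Agent.P073.H73 (Mesh onSeg)
open Vale.Agent.P073.H193 (Edges edges LAtC)
open Vale.Agent.P073.H304 (Nb Zmax)
open Vale.Agent.P073.H926
open Vale.Agent.P073.H238.K3
open Vale.Agent.P073.H233 (Xp ElipOK3 Adm LAt Last3 SoftQ FullJ Ev EdgeEst OscEst FHyp FaceOK3
  CellOK3)

variable {c₀ n δ : ℝ} {j : ℕ} {Ω Λ : Set V} {v w : V} {ρ : V → ℝ} {M : Mesh Ω} {h : ConHomeo Ω Λ}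
  {J₀ J : Set (ℕ × (Fin 3 → ℤ))} {P Z : Set M.ι} {K : BoxCx Λ w}
  {D : KIn3 c₀ n j δ v w ρ M h J₀ J P Z} {C : Cells ρ w K} {C₀ μT : ℝ}
  {X : S1 D C C₀ μT} {Y₂ : S2 X} {Ys : Set M.κ} {sc : Sharp} {Y₃ : S3 Y₂ Ys sc}
  {Y₄ : S4 Y₃}

/-- **the numbers of the rows**: `τ` tolerance of the faces, `ε` the tolerance of the output -/
structure RowNum (Y₅ : S5 Y₄) (τ ε : M.κ → ℝ) (t4 : (D.dat C).S₀ → ℝ) (t5 : pG C J₀ → ℝ) :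
    Prop where
  C₀1 : 1 ≤ C₀
  n1 : n ≤ 1
  fat : ∀ b : pB C J₀, 2048 * ω3T δ C b.1 ≤ X.fat b
  Ds : ∀ (s : (D.dat C).S₀) (β : Bool), (Y₃.F β).D s ≤ (D.G C).oS s.1
  cs : ∀ (s : (D.dat C).S₀) (β : Bool), Y₂.L.c s.1 β ≤ (D.G C).oS s.1
  st : ∀ (s : (D.dat C).S₀) (β : Bool), pst Y₃.Lt s.1 β ≤ (D.G C).oS s.1
  q : ∀ s, 1 - n / 2048 ≤ Y₄.q s
  r : ∀ s, 1 - n / 2048 ≤ Y₄.r s
  μ0 : ∀ b, 0 ≤ Y₅.μ b
  μn : ∀ b, Y₅.μ b ≤ n / 256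
  μu : ∀ b : pG C J₀, Y₅.μ b * (ebe (D.W C) b.1 - eal (D.W C) b.1) ≤
    n / 256 * ((D.G C).uT b.1 / 4)
  τ0 : ∀ k, 0 < τ k
  τe : ∀ k e, (edges M).seg e ⊆ M.F k → τ k * ‖(edges M).b e - (edges M).a e‖ ≤ X.bn e
  ε5 : ∀ (s : K.S) (k : M.κ) (hk : (D.dat C).PkS (D.G C) X.h1 s k),
    16 * Y₄.ε ⟨s, hk.1⟩ ≤ τ k
  ε6 : ∀ (b : pG C J₀) k, (Y₄.f5.toFun '' M.F k ∩
    YB ((YS (D.G C)).add (rT (D.G C)) (rT_pos (D.G C))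
    (fun e k => (YS_p_lt (D.G C) e k).le)
    fun e k => (YS_q_lt (D.G C) e k).le) b.1).Nonempty → 16 * Y₅.ε b ≤ τ k
  tP4 : ∀ i ∈ P, ∀ q > 0, (∀ x ∈ M.Q i, ∀ y ∈ M.Q i, ‖h.toFun x - h.toFun y‖ = q * ‖x - y‖) →
    ∀ s : (D.dat C).S₀, (∃ x ∈ M.Q i, Y₄.h5.toFun x ∈ PK (D.G C) s.1) → t4 s ≤ q
  ε4 : ∀ s, Y₄.ε s ≤ t4 s
  tP5 : ∀ i ∈ P, ∀ q > 0, (∀ x ∈ M.Q i, ∀ y ∈ M.Q i, ‖h.toFun x - h.toFun y‖ = q * ‖x - y‖) →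
    ∀ b : pG C J₀, (∃ x ∈ M.Q i, Y₅.h6.toFun x ∈ (D.B C).E b.1) → t5 b ≤ q
  ε5' : ∀ b, Y₅.ε b ≤ t5 b
  εe : ∀ k e, (edges M).seg e ⊆ M.F k → X.εe e ≤ ε k

/-- **`Last3` from the rows** -/
theorem S5.last3 (Y₅ : S5 Y₄) {τ ε : M.κ → ℝ} {t4 : (D.dat C).S₀ → ℝ} {t5 : pG C J₀ → ℝ}
    (N : RowNum Y₅ τ ε t4 t5) {Ps : M.ι → ConHomeo Λ Λ → Prop} {Qs : ConHomeo Λ Λ → Prop}
    {p A C₁ C₁' D₀ D₁ : ℝ} {Z' : Set M.ι} {om εL : (edges M).ε → ℝ} {lam : M.ι → ℝ}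
    {ag Cg : ℝ} (hag : 0 ≤ ag) {cst : M.κ → V → V → ℝ}
    (hcst : ∀ k ∈ Act D C, ∀ e, (edges M).seg e ⊆ M.F k → ∀ x ∈ (edges M).seg e,
      ∀ y ∈ (edges M).seg e, cst k x y ≤ Cg * X.La e * ‖x - y‖) (hCg : 0 ≤ Cg)
    (hg : ∀ k ∈ (D.dat C).DF, k ∉ (D.dat C).Peel (D.G C) X.h1 → ∀ x ∈ M.F k,
      LAtC (D.B C) (Xp C J₀) (fun y => ag * cst k x y + τ k * ‖y - x‖) (M.F k) Y₅.f.toFun x)
    (hD₀ : 1 ≤ D₀) (hC₁ : 3 * Y₃.q + 1 ≤ C₁) (hC₁g : ag * (Cg * C₀) + 1 ≤ C₁) (hC₁' : C₁ ≤ C₁')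
    (hD₁ : 1642 * C₀ ≤ D₁) (hD₁' : 8192 ≤ D₁)
    (lip : FullJ w ρ J₀ J → ∀ i, i ∉ P → i ∉ Z' → ∀ c, Adm M Ys C₁ C₁' (M.Q i) c → ∀ L > 0,
      (∀ i', (M.Q i ∩ M.Q i').Nonempty →
        ∀ x ∈ M.Q i', ∀ y ∈ M.Q i', ‖h.toFun x - h.toFun y‖ ≤ L * ‖x - y‖) →
      ∀ x ∈ M.Q i, LAt (D.B C) (Xp C J₀) (c * L) (M.Q i) Y₅.f.toFun x)
    (edge : ∀ k e, (edges M).seg e ⊆ M.F k → (∃ i ∈ P, (edges M).seg e ⊆ M.Q i) ∨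
      Ev (D.B C) (Xp C J₀) (20 / (1 / μN n)) M Y₅.f.toFun (.inl k)
        (EdgeEst h.toFun Y₅.f.toFun D₀ (om e) e))
    (osc : ∀ i, i ∉ P → i ∉ Z' → ∀ c, Adm M Ys C₁ C₁' (M.Q i) c →
      (∀ k, M.F k ⊆ M.Q i → (∃ i' ∈ P, M.F k ⊆ M.Q i') ∨ (∃ i' ∈ Z', M.F k ⊆ M.Q i') ∨
        ∃ L, (∀ b > 0, FHyp M h.toFun i k b → L ≤ c * b) ∧
          Ev (D.B C) (Xp C J₀) (20 / (1 / μN n)) M Y₅.f.toFun (.inl k)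
            (OscEst Y₅.f.toFun k L)) ∨ ∀ Φ, Qs Φ → Ps i Φ)
    (face : ∀ k, (∃ i ∈ Z', M.F k ⊆ M.Q i) → (∃ i ∈ P, M.F k ⊆ M.Q i) ∨
      ∀ c, Adm M Ys C₁ C₁' (M.F k) c →
        FaceOK3 (D.B C) (Xp C J₀) h.toFun Y₅.f.toFun c D₀ (ε k) k)
    (cell : ∀ i ∈ Z', ∀ c, Adm M Ys C₁ C₁' (M.Q i) c →
      CellOK3 (D.B C) (Xp C J₀) p h.toFun Y₅.f.toFun c A D₀ ε εL (lam i) i) :
    Last3 (D.B C) (Xp C J₀) (20 / (1 / μN n)) Ps Qs p (1 / 2 ^ j) c₀ ρ h.toFun J₀ J P Z' Ys ε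
      om εL lam A C₁ C₁' D₀ D₁ Y₅.f.toFun where
  off := Y₅.off
  near := fun x hx => (Y₅.near x hx).mono hD₁' (D.hρ.pos _ (h.mapsTo hx)).le
    (D.hρ.pos _ (Y₅.f.mapsTo hx)).le
  prot := by
    have hn := D.pos
    have hn1 := N.n1
    refine Y₅.protN N.C₀1 N.Ds N.cs N.st (fun s => ?_) (fun s => ?_) N.tP4 N.ε4 N.μ0 (fun b => ?_)
      (fun b => ?_) N.tP5 N.ε5' hD₁
    · have := N.r s
      linarith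
    · have := N.q s
      linarith
    · have := N.μn b
      linarith
    · have h1 := N.μu b
      have h2 := (D.G C).uT_pos b.1
      nlinarith
  lip := lip
  edge := edge
  elip := Y₅.elip N.q N.r N.μ0 N.μn N.μu N.τ0 N.ε5 N.ε6 N.τe hag hcst hCg hg hD₀ N.εe hC₁ hC₁g
    hC₁'
  osc := osc
  face := face
  cell := cell

end Vale.Agent.P073.H267.K3
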