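import Vale.Agent.P073.H267.K2Num2
import Vale.Agent.P073.H267.RoundTF
import Vale.Agent.P073.H142.PCone6
import Vale.Agent.P073.H155.TailSoft
import Vale.Agent.P073.H471.SoftTwo
import Vale.Agent.P073.H805.PTile
import Vale.Agent.P073.H238.NumP
import Vale.Agent.P073.H31.FFin
import Vale.Agent.P073.H212.SharpTV2
import Vale.Agent.P073.H761.SEnd12

/-!
# P073, H267: **`K2C`**, the theorem with 2-cells

The last composition: order of the numbers, round T, round P, staircases, soft collapse.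
-/

open Set Metric Topology Filter MeasureTheory
open scoped ENNReal

namespace P073.H267

open _root_.P073 _root_.P073.Net _root_.P073.PA691
open _root_.P073.H142 _root_.P073.H155 _root_.P073.H236 _root_.P073.H345 _root_.P073.H579
open _root_.P073.FW31
open Vale.Agent.P073.St (V)
open Vale.Agent.P073.H471 Vale.Agent.P073.H267
open Vale.Agent.P073.H73 (Mesh onSeg sqr offY)
open Vale.Agent.P073.H193 (Edges edges)
open Vale.Agent.P073.H581 (NearAt ImgAt TileAt TileIff)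
open Vale.Agent.P073.H669 (PLv)
open Vale.Agent.P073.H805 (RIn ROut)
open Vale.Agent.P073.H239 (SharpOut)

/-- **[K2C]** -/
theorem k2c {p : ℝ} (hp : 1 ≤ p) : Vale.Agent.P073.H73.K2C p := by
  classical
  refine k2c_of ?_
  obtain ⟨C₀, hC₀1, HRT⟩ := Vale.Agent.P073.H267.roundT
  have hC₀ : 0 ≤ C₀ := by linarith
  -- the constants of ROUND P
  set C₂ : ℝ := 96 * C₀ with hC₂
  have hC₂0 : 0 ≤ C₂ := by positivity
  set C₁ : ℝ := 156 * C₂ + 576 * C₀ + 51 with hC₁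
  have hC₁0 : 0 < C₁ := by positivity
  refine ⟨sD p C₁ 1 (2 ^ 18), sC C₁ 1, fun μ hμ => ?_⟩
  -- the sharp constants
  obtain ⟨ec, hec0, hec1, r₀, hr₀0, hr₀1, Hface⟩ := _root_.P073.H761.SE.exists_face hp hμ
  obtain ⟨ms, hms0, hms1, Kc, hKc, Hcore⟩ := sharpFace hec0
  obtain ⟨βc, hβc, μ₀, hμ₀, Hface⟩ := Hface Kc hKc
  obtain ⟨ρc, hρc0, hρc1, hSF⟩ := Hcore βc hβc
  set Q : ℝ := DK Kc / 156 with hQ
  have hQ1 : 1 ≤ Q := by rw [hQ, le_div_iff₀ (by norm_num)]; linarith [DK_ge Kc]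
  set r : ℝ := min r₀ (ρc / 16) with hrdef
  have hr : 0 < r := lt_min hr₀0 (by positivity)
  refine ⟨sD p (Q * C₁) 1 (2 ^ 18), sC (Q * C₁) 1, r, hr, fun η₁ hη₁ hη₁4 => ?_⟩
  -- the number `η₀`
  set η₀ : ℝ := min (η₁ / 16) (min μ₀ (ρc / 16)) with hη₀def
  have hη₀ : 0 < η₀ := lt_min (by positivity) (lt_min hμ₀ (by positivity))
  have hη₀a : η₀ ≤ η₁ / 16 := min_le_left _ _
  have hη₀b : η₀ ≤ μ₀ := (min_le_right _ _).trans (min_le_left _ _)
  have hη₀c : η₀ ≤ ρc / 16 := (min_le_right _ _).trans (min_le_right _ _)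
  have hη₀1 : η₀ ≤ η₁ := by linarith
  refine ⟨η₀, hη₀, hη₀1, ?_⟩
  intro Ω Λ w ρ M h Pr D K C Y ε hε
  have hΩ : IsOpen Ω := D.bΩ.1
  have hΛ : IsOpen Λ := D.bΛ.1
  set E := edges M with hE
  -- stars and tiny numbers
  have T : ∀ k, FStar E k := fun k => (exists_fstar E k).some
  obtain ⟨εe', hεe', hNumE⟩ := exists_numE M hε
  obtain ⟨εe, hεe, hεeN, -, hεek⟩ := exists_epsE2 hε hεe' (c := 1 / 4) (by norm_num)
  -- ROUND T
  obtain ⟨b₀, LaT, LfT, N₀, Lam1, hLam1, HT⟩ := HRT η₀ Ω Λ w ρ M h Pr D K C E T (μN η₀)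
    (μN_pos D.pos) (ωT η₀ C) (oscT D C) (D.win_T C) εe hεe
  have N := Vale.Agent.P073.H238.TNum.toLen N₀ hC₀ hεe
  set b : E.ε → ℝ := fun e => (lenE E h.toFun e).toReal + εe e with hb
  have hNum : ∀ k, Num k h.toFun 1 (ε k) b := by
    refine hNumE h.toFun 1 b (fun e => (N.b_pos e).le) fun e => ?_
    rw [ENNReal.ofReal_one, one_mul]
    exact (N.b_le e).trans (add_le_add le_rfl (ENNReal.ofReal_le_ofReal (hεeN e)))
  obtain ⟨ε₁, hε₁, hTiny⟩ := exists_tinyF T N.b_pos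
  -- the displacement of ROUND P
  set cs : ℝ := min (η₁ / 16) (ρc / 16) with hcs
  have hcs0 : 0 < cs := lt_min (by positivity) (by positivity)
  have hm₀ : ∀ s, 0 < cs / 4 * min (Vale.Agent.P073.H669.wl (D.G C) s false)
      (Vale.Agent.P073.H669.wl (D.G C) s true) := fun s => by
    have h1 := (D.G C).a_pos s
    have h2 := Vale.Agent.P073.H669.wl_pos (D.G C) s false
    have h3 := Vale.Agent.P073.H669.wl_pos (D.G C) s true
    exact mul_pos (by positivity) (lt_min (by linarith) (by linarith))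
  obtain ⟨μP, hμP0, hμPm, hμPω, hμPk⟩ := exists_mu D C hLam1 hε₁ hm₀
  obtain ⟨μ', σ, hμ'0, hμ'le, hσ0, HL⟩ := Vale.Agent.P073.H669.exists_plev' C (D.G C) hμP0
  obtain ⟨sl, h1, hsl, TO⟩ := HT σ hσ0
  -- the levels of ROUND P
  obtain ⟨dmax, hdmax, hdk⟩ := exists_dmax (D.G C) M h1 (c := ρc / 16) (by positivity)
  set η : ℝ := cs / 16 with hηdef
  have hη : 0 < η := by positivity
  have hη4 : η ≤ 1 / 4 := by
    have : cs ≤ η₁ / 16 := min_le_left _ _
    rw [hηdef]; linarith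
  obtain ⟨εE, hεE, hεE8, hεEl, hεEk⟩ := exists_epsE2 hε (εe := fun e => εe e / 8)
    (fun e => by have := hεe e; positivity) (c := cs / 16) (by positivity)
  have hεEe : ∀ e, εE e ≤ εe e := fun e => by have := hεE8 e; have := hεe e; linarith
  obtain ⟨δ, hdd, ⟨L⟩⟩ := HL hΩ E h1 Pr TO.sl_le hsl hεE (C := ∅) countable_empty hη hη4 hdmax
  -- ROUND P
  set La : E.ε → ℝ := fun e => max (laE E (We3 L) e) (16 * LaT e) with hLa
  have hLa0 : ∀ e, 0 ≤ La e := fun e => le_trans (by linarith [N.La_nonneg e]) (le_max_right _ _)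
  have hWe : ∀ e, We3 L e ≤ C₂ * b e := fun e => by
    have h1 := Vale.Agent.P073.H238.We3_le_b D C L TO hC₀1 hεe hεE hεEe e
    have h2 : 0 ≤ C₀ * b e := mul_nonneg hC₀ (N.b_pos e).le
    refine h1.trans ?_
    rw [hC₂]
    linarith
  have hLa' : ∀ e, La e * ‖E.b e - E.a e‖ ≤ C₂ * b e := fun e =>
    Vale.Agent.P073.H238.La_le_b D C L N₀ TO hC₀1 hεe hεE hεEe e
  obtain ⟨κ₀, κ₁, h2, h3, RP⟩ := exists_roundP_Y D C TO.toT3Out TO.ends TO.tile TO.img L
    (La := La) N.La_nonneg (fun e => le_max_left _ _) (fun e => le_max_right _ _)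
    (fun k => (T k).C) (O' := fun k => (T k).O)
    (r0 := fun k => (T k).rho) (Rr := fun k => (T k).R) (fun k => (T k).star)
    (edges_isEdge M) hms0 hms1 hKc hρc1 hSF Y
  -- the staircases
  obtain ⟨Lam3, hLam30, hLam3⟩ := exists_lam hΩ h3
  have hμN := μN_pos D.pos
  have hμ1 := μN_lt D.lt
  have hR20 : 20 / (1 / μN η₀) = 20 * μN η₀ := by field_simp
  have hμs : 20 / (1 / μN η₀) = 5 * η₀ / 16 := by
    rw [hR20]; unfold μN; ring
  have hcs1 : cs ≤ η₁ / 16 := min_le_left _ _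
  have hcs2 : cs ≤ ρc / 16 := min_le_right _ _
  have hμwl : ∀ s β, μ' s ≤ cs / 4 * Vale.Agent.P073.H669.wl (D.G C) s β := fun s β => by
    refine ((hμ'le s).trans (hμPm s)).trans (mul_le_mul_of_nonneg_left ?_ (by positivity))
    cases β
    · exact min_le_left _ _
    · exact min_le_right _ _
  obtain ⟨e₂, he₂, Htv⟩ := Vale.Agent.P073.H212.tv_of D C TO L RP (μs := 20 / (1 / μN η₀))
    (η₁ := η₁) (c := cs) (by rw [hμs]; positivity) (by rw [hμs]; linarith) hη₀1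
    (by
      rw [hμs]
      have h3 : μN η₀ ≤ η₀ := by unfold μN; linarith
      nlinarith) hcs0.le (by linarith)
    (by rw [hμs]; nlinarith) (by rw [hηdef]) hμwl hε hεe
    (fun k e he => by have := hεek e k he; linarith) (fun e => (hεE e).le)
    (fun e => by have := hεE8 e; linarith)
  have hμs1 : 20 / (1 / μN η₀) ≤ μ₀ := by rw [hμs]; linarith
  have hμs2 : 20 / (1 / μN η₀) ≤ ρc / 50 := by rw [hμs]; linarith
  obtain ⟨e₀, he₀, Hfa⟩ := _root_.P073.H761.SE.face_of D C TO.toT3Out L RP (p := p) (μ := μ)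
    (r := r) (r₀ := r₀) (μ₀ := μ₀) (μs := 20 / (1 / μN η₀)) (c := cs) (η₁ := η₁)
    (Hface) hη₀1 hρc0 hρc1 hμ₀ hr.le (min_le_left _ _) (min_le_right _ _) hcs0.le hcs2
    (by rw [hηdef]) hμwl (fun e => by
      have h4 := hεEl e
      have h5 : 0 ≤ cs * ‖E.b e - E.a e‖ := mul_nonneg hcs0.le (norm_nonneg _)
      linarith)
    (fun s k a l σ hσ hF hs => (hdd s).trans (hdk s k hs a l σ hσ hF))
    (by rw [hμs]; positivity) hμs1 hμs2 hε
  obtain ⟨e₁, he₁, he₁2, he₁0⟩ : ∃ e₁ : K.S → ℝ, (∀ s, 0 < e₁ s) ∧ (∀ s, e₁ s ≤ e₂ s) ∧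
      ∀ s, e₁ s ≤ e₀ s :=
    ⟨fun s => min (e₂ s) (e₀ s), fun s => lt_min (he₂ s) (he₀ s), fun s => min_le_left _ _,
      fun s => min_le_right _ _⟩
  obtain ⟨e, he, he8, hee₁, he3⟩ := exists_thr (D.G C) h1 hLam30 hε₁ L.δ0 he₁
  choose Sm hS using fun β => (L.bfam e he he8 β).exists_isS hΛ
  -- tiles
  obtain ⟨hf1, hf2, hf3⟩ := Vale.Agent.P073.H805.ptile_TOut D C TO RP.rout RP.isQ₀ RP.isQ₁ RP.out
    (Ψ := (Sm false).trans (Sm true)) (Vale.Agent.P073.H805.tileIff_SP C L.lev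
      (F₀ := L.bfam e he he8 false)
      (F₁ := L.bfam e he he8 true) rfl rfl (hS false) (hS true))
  -- the cones
  have hface := faceOK_round D C T hC₀ hC₂0 N hLam1 hNum TO.toT3Out L RP (one_le_qY Kc Y)
    (GFY.coneQ (fun k => (T k).rho_pos) (fun k => (T k).R0) hLa0 (We3_nonneg L)) hLa0 hLa' hWe hS
    (fun k => (hε₁ k).le) hTiny (fun s => (hμ'le s).trans (hμPω s))
    (fun k s hs => hμPk h1 TO.near k s hs _ (hμ'le s)) hLam3
    (fun k s hs => he3 k s hs _ le_rfl)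
  have LB : LastB w ρ (D.B C) M h (lastMap h3 Sm) Pr Y ε C₁ 1 (Q * C₁) 1 (2 ^ 18) := by
    refine ⟨hf3, hf2, hf1, fun k hk => ?_, fun k => ?_⟩
    · have hkY : k ∉ Y := fun hkY => by
        have hx := (T k).mem
        exact Set.disjoint_left.1 (hk k hkY) hx hx
      have h4 := hface k
      rw [qY_off Kc hkY, one_mul] at h4
      exact h4
    · exact faceOKB_mono (mul_le_mul_of_nonneg_right (qY_le Kc Y k) hC₁0.le) (hface k)
  -- the soft collapse
  obtain ⟨t₂, ht₂, Htv⟩ := Htv e he he8 (fun s => (hee₁ s).trans (he₁2 s)) Sm hS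
  obtain ⟨t₀, ht₀, Hfa⟩ := Hfa e he he8 (fun s => (hee₁ s).trans (he₁0 s)) Sm hS
  refine outS_of_lastB hΩ C D.hρ hp hC₁0 zero_le_one (by positivity) zero_le_one (by norm_num)
    D.al hε LB (μ := 20 / (1 / μN η₀)) (by positivity) (by rw [hR20]; linarith)
    (fun R Φ => IsSoft1 (D.B C) (20 / (1 / μN η₀)) R Φ) (fun R => ?_) ?_
  · obtain ⟨Φ, hΦ⟩ := exists_soft1 hΛ (softN D C) R
    exact ⟨Φ, hΦ.toIsSoft, hΦ⟩
  · refine ⟨fun k => min (t₂ k) (t₀ k), fun k => lt_min (ht₂ k) (ht₀ k),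
      fun R Nn t Φ htp ht HS _ HΦ =>
        ⟨Htv R Nn t Φ htp (fun k => (ht k).trans (min_le_left _ _)) HS HΦ,
          Hfa R Nn t Φ htp (fun k => (ht k).trans (min_le_right _ _)) HS HΦ⟩⟩

end P073.H267
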