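import Vale.Agent.P073.H212.Repl
import Vale.Agent.P073.SCH.LocConeImage

/-!
# P073, H267 (block GLUE3 of B08): replacement of a homeomorphism in a family of target boxes
-/

open Set Metric Topology Filter

namespace P073.H267

open P073 P073.H212

variable {E F : Type*} [NormedAddCommGroup E] [NormedSpace ℝ E]
  [NormedAddCommGroup F] [NormedSpace ℝ F]

/-- the preimage of a set under a homeomorphism of open sets -/
theorem interior_invImage {Ω : Set E} {Λ : Set F} (hΩ : IsOpen Ω) (hΛ : IsOpen Λ)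
    (h : ConHomeo Ω Λ) {P : Set F} (hP : P ⊆ Λ) :
    interior (h.invFun '' P) = h.invFun '' interior P := by
  have hopen : ∀ (Ω : Set F) (Λ : Set E) (k : ConHomeo Ω Λ), IsOpen Ω → IsOpen Λ → ∀ O ⊆ Ω,
      IsOpen O → IsOpen (k.toFun '' O) := by
    intro Ω Λ k hΩ hΛ O hO hOo
    have e : k.toFun '' O = Λ ∩ k.invFun ⁻¹' O := by
      ext y
      constructor
      · rintro ⟨x, hx, rfl⟩
        exact ⟨k.mapsTo (hO hx), by rw [mem_preimage, k.left_inv (hO hx)]; exact hx⟩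
      · rintro ⟨hy, hy2⟩
        exact ⟨k.invFun y, hy2, k.right_inv hy⟩
    rw [e]
    exact k.cont_inv.isOpen_inter_preimage hΛ hOo
  have hopen' : ∀ O ⊆ Ω, IsOpen O → IsOpen (h.toFun '' O) := by
    intro O hO hOo
    have e : h.toFun '' O = Λ ∩ h.invFun ⁻¹' O := by
      ext y
      constructor
      · rintro ⟨x, hx, rfl⟩
        exact ⟨h.mapsTo (hO hx), by rw [mem_preimage, h.left_inv (hO hx)]; exact hx⟩
      · rintro ⟨hy, hy2⟩
        exact ⟨h.invFun y, hy2, h.right_inv hy⟩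
    rw [e]
    exact h.cont_inv.isOpen_inter_preimage hΛ hOo
  apply Subset.antisymm
  · intro x hx
    have hxU : x ∈ h.invFun '' P := interior_subset hx
    have hsub : interior (h.invFun '' P) ⊆ Ω := by
      intro y hy
      obtain ⟨z, hz, rfl⟩ := interior_subset hy
      exact h.mapsTo_inv (hP hz)
    have h1 : h.toFun '' interior (h.invFun '' P) ⊆ interior P := by
      refine interior_maximal ?_ (hopen' _ hsub isOpen_interior)
      rintro _ ⟨y, hy, rfl⟩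
      obtain ⟨z, hz, rfl⟩ := interior_subset hy
      rw [h.right_inv (hP hz)]
      exact hz
    exact ⟨h.toFun x, h1 ⟨x, hx, rfl⟩, h.left_inv (hsub hx)⟩
  · refine interior_maximal (image_mono interior_subset) ?_
    exact hopen Λ Ω h.symm hΛ hΩ _ (interior_subset.trans hP) isOpen_interior

/-- **[GLUE3] Replacement in a locally finite family of target boxes** -/
theorem exists_glue_boxes {γ : Type*} {Ω : Set E} {Λ : Set F} (hΩ : IsOpen Ω) (hΛ : IsOpen Λ)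
    (h : ConHomeo Ω Λ) {P : γ → Set F} (hP : ∀ b, IsCompact (P b)) (hPΛ : ∀ b, P b ⊆ Λ)
    (hLC : ∀ b, LocCone (P b))
    (hfin : ∀ z ∈ Λ, ∃ O ∈ 𝓝 z, {b | (P b ∩ O).Nonempty}.Finite)
    (hdis : ∀ b b', b ≠ b' → Disjoint (interior (P b)) (P b'))
    (g : ∀ b, ConHomeo (h.invFun '' P b) (P b))
    (hg : ∀ b, ∀ x ∈ h.invFun '' P b, h.toFun x ∈ frontier (P b) → (g b).toFun x = h.toFun x) :
    ∃ h' : ConHomeo Ω Λ, (∀ b, EqOn h'.toFun (g b).toFun (h.invFun '' P b)) ∧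
      (∀ b, EqOn h'.invFun (g b).invFun (P b)) ∧
      (∀ x ∈ Ω, (∀ b, h.toFun x ∉ interior (P b)) → h'.toFun x = h.toFun x) ∧
      (∀ y ∈ Λ, (∀ b, y ∉ interior (P b)) → h'.invFun y = h.invFun y) ∧
      (∀ b, ∀ x ∈ Ω, (h'.toFun x ∈ P b ↔ h.toFun x ∈ P b)) ∧
      (∀ b, ∀ x ∈ Ω, h.toFun x ∈ P b → dist (h'.toFun x) (h.toFun x) ≤ diam (P b)) ∧
      ∀ ρ : ℝ, 0 ≤ ρ → (∀ b, diam (P b) ≤ ρ) → ∀ x ∈ Ω, dist (h'.toFun x) (h.toFun x) ≤ ρ := by
  classical
  let U : γ → Set E := fun b => h.invFun '' P b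
  have hUΩ : ∀ b, U b ⊆ Ω := by
    rintro b _ ⟨y, hy, rfl⟩
    exact h.mapsTo_inv (hPΛ b hy)
  have hU : ∀ b, IsCompact (U b) := fun b =>
    (hP b).image_of_continuousOn (h.cont_inv.mono (hPΛ b))
  have himg : ∀ b, h.toFun '' U b = P b := by
    intro b
    ext y
    constructor
    · rintro ⟨_, ⟨z, hz, rfl⟩, rfl⟩
      rw [h.right_inv (hPΛ b hz)]; exact hz
    · intro hy
      exact ⟨_, ⟨y, hy, rfl⟩, h.right_inv (hPΛ b hy)⟩
  have hmemU : ∀ b, ∀ x ∈ Ω, (x ∈ U b ↔ h.toFun x ∈ P b) := by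
    intro b x hx
    constructor
    · rintro ⟨y, hy, rfl⟩; rw [h.right_inv (hPΛ b hy)]; exact hy
    · intro hy; exact ⟨_, hy, h.left_inv hx⟩
  have hint : ∀ b, interior (U b) = h.invFun '' interior (P b) := fun b =>
    interior_invImage hΩ hΛ h (hPΛ b)
  have hmemI : ∀ b, ∀ x ∈ Ω, (x ∈ interior (U b) ↔ h.toFun x ∈ interior (P b)) := by
    intro b x hx
    rw [hint]
    constructor
    · rintro ⟨y, hy, rfl⟩; rw [h.right_inv (hPΛ b (interior_subset hy))]; exact hy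
    · intro hy; exact ⟨_, hy, h.left_inv hx⟩
  have hLCU : ∀ b, LocCone (U b) := fun b =>
    LocCone.of_conHomeo (hP b) (hLC b) (h.symm.restr (hLC b).conicalSet (hPΛ b))
  have hfin' : ∀ z ∈ Ω, ∃ O ∈ 𝓝 z, {b | (U b ∩ O).Nonempty}.Finite := by
    intro z hz
    obtain ⟨O, hO, hf⟩ := hfin _ (h.mapsTo hz)
    have h1 : h.toFun ⁻¹' O ∈ 𝓝[Ω] z := (h.cont z hz) hO
    rw [hΩ.nhdsWithin_eq hz] at h1
    refine ⟨_, h1, hf.subset ?_⟩
    rintro b ⟨x, hx, hxO⟩
    exact ⟨h.toFun x, (hmemU b x (hUΩ b hx)).1 hx, hxO⟩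
  have hdis' : ∀ c d, c ≠ d → Disjoint (interior (U c)) (U d) := by
    intro c d hcd
    rw [Set.disjoint_left]
    intro x hx hx'
    have hxΩ := hUΩ d hx'
    exact Set.disjoint_left.1 (hdis c d hcd) ((hmemI c x hxΩ).1 hx) ((hmemU d x hxΩ).1 hx')
  have hgf : ∀ c, EqOn ((g c).cast rfl (himg c).symm).toFun h.toFun (frontier (U c)) := by
    intro c x hx
    have hxU : x ∈ U c := (hU c).isClosed.frontier_subset hx
    have hxΩ := hUΩ c hxU
    apply hg c x hxU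
    rw [(hP c).isClosed.frontier_eq]
    refine ⟨(hmemU c x hxΩ).1 hxU, fun hi => ?_⟩
    rw [(hU c).isClosed.frontier_eq] at hx
    exact hx.2 ((hmemI c x hxΩ).2 hi)
  obtain ⟨h', h1, h2, h3, h4⟩ := exists_replace hΩ hΛ h hU hUΩ hLCU hfin' hdis'
    (fun b => (g b).cast rfl (himg b).symm) hgf
  have hk1 : ∀ b, EqOn h'.toFun (g b).toFun (U b) := h1
  have hk3 : ∀ x ∈ Ω, (∀ b, h.toFun x ∉ interior (P b)) → h'.toFun x = h.toFun x := by
    intro x hx hn
    refine h3 ⟨hx, fun hW => ?_⟩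
    obtain ⟨b, hb⟩ := mem_iUnion.1 hW
    exact hn b ((hmemI b x hx).1 hb)
  have hk5 : ∀ b, ∀ x ∈ Ω, (h'.toFun x ∈ P b ↔ h.toFun x ∈ P b) := by
    intro b x hx
    constructor
    · intro hy
      have h6 : (g b).invFun (h'.toFun x) ∈ U b := (g b).mapsTo_inv hy
      have h7 : h'.toFun ((g b).invFun (h'.toFun x)) = h'.toFun x := by
        rw [hk1 b h6]; exact (g b).right_inv hy
      have h8 := h'.injOn (hUΩ b h6) hx h7
      rw [h8] at h6
      exact (hmemU b x hx).1 h6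
    · intro hy
      have h6 : x ∈ U b := (hmemU b x hx).2 hy
      rw [hk1 b h6]
      exact (g b).mapsTo h6
  have hk6 : ∀ b, ∀ x ∈ Ω, h.toFun x ∈ P b → dist (h'.toFun x) (h.toFun x) ≤ diam (P b) :=
    fun b x hx hy => dist_le_diam_of_mem (hP b).isBounded ((hk5 b x hx).2 hy) hy
  refine ⟨h', hk1, fun b y hy => ?_, hk3, fun y hy hn => ?_, hk5, hk6, fun ρ hρ hd x hx => ?_⟩
  · exact h2 b (by rw [himg]; exact hy)
  · refine h4 ⟨hy, fun hW => ?_⟩
    obtain ⟨b, x, hx, rfl⟩ := mem_iUnion.1 hW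
    exact hn b ((hmemI b x (hUΩ b (interior_subset hx))).1 hx)
  · by_cases hb : ∃ b, h.toFun x ∈ interior (P b)
    · obtain ⟨b, hb⟩ := hb
      exact (hk6 b x hx (interior_subset hb)).trans (hd b)
    · push Not at hb
      rw [hk3 x hx hb, dist_self]
      exact hρ

end P073.H267
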