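import Vale.Agent.P073.PA260.Collar

/-!
# P073, block H267 (CONE3): the arch

A piecewise affine homeomorphism of rectangles `(l, t) ↦ (s, k)` with `min s k = t`: the level
curves of `min s k` (an L-shaped arch) become the horizontal segments `t = const`. The fibres
`l = const` are horizontal (`k = const`) where `3 ≤ k`, and vertical (`s = const`) at `s = 1`.
-/

open Set Metric Topology Filter

namespace P073.H267

open P073

/-- the difference `k - s` as a function of the arch parameter and the level -/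
noncomputable def Fl (l t : ℝ) : ℝ := max (l - t - 1) (min (l + t + 1) ((l + 2) / 3))

/-- its inverse in the first variable -/
noncomputable def Gl (x t : ℝ) : ℝ := min (x + t + 1) (max (x - t - 1) (3 * x - 2))

theorem Gl_Fl (l t : ℝ) : Gl (Fl l t) t = l := by
  unfold Gl Fl
  rcases le_total (l + t + 1) ((l + 2) / 3) with h1 | h1
  · rw [min_eq_left h1]
    rcases le_total (l - t - 1) (l + t + 1) with h2 | h2
    · rw [max_eq_right h2, max_eq_left (by linarith), min_eq_right (by linarith)]; ring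
    · rw [max_eq_left h2, min_eq_left]
      · ring
      · rcases le_total (l - t - 1 - t - 1) (3 * (l - t - 1) - 2) with h3 | h3
        · rw [max_eq_right h3]; linarith
        · rw [max_eq_left h3]; linarith
  · rw [min_eq_right h1]
    rcases le_total (l - t - 1) ((l + 2) / 3) with h2 | h2
    · rw [max_eq_right h2, max_eq_right (by linarith), min_eq_right (by linarith)]; ring
    · rw [max_eq_left h2, min_eq_left]
      · ring
      · rcases le_total (l - t - 1 - t - 1) (3 * (l - t - 1) - 2) with h3 | h3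
        · rw [max_eq_right h3]; linarith
        · rw [max_eq_left h3]; linarith

theorem Fl_Gl (x t : ℝ) : Fl (Gl x t) t = x := by
  unfold Gl Fl
  rcases le_total (x - t - 1) (3 * x - 2) with h1 | h1
  · rw [max_eq_right h1]
    rcases le_total (x + t + 1) (3 * x - 2) with h2 | h2
    · rw [min_eq_left h2, max_eq_left]
      · ring
      · rcases le_total (x + t + 1 + t + 1) ((x + t + 1 + 2) / 3) with h3 | h3
        · rw [min_eq_left h3]; linarith
        · rw [min_eq_right h3]; linarith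
    · rw [min_eq_right h2, min_eq_right (by linarith), max_eq_right (by linarith)]; ring
  · rw [max_eq_left h1]
    rcases le_total (x + t + 1) (x - t - 1) with h2 | h2
    · rw [min_eq_left h2, max_eq_left]
      · ring
      · rcases le_total (x + t + 1 + t + 1) ((x + t + 1 + 2) / 3) with h3 | h3
        · rw [min_eq_left h3]; linarith
        · rw [min_eq_right h3]; linarith
    · rw [min_eq_right h2, min_eq_left (by linarith), max_eq_right (by linarith)]; ring

theorem Fl_mono {l l' : ℝ} (t : ℝ) (h : l ≤ l') : Fl l t ≤ Fl l' t := by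
  unfold Fl
  gcongr

theorem Gl_mono {x x' : ℝ} (t : ℝ) (h : x ≤ x') : Gl x t ≤ Gl x' t := by
  unfold Gl
  gcongr

/-- the left end -/
theorem Fl_left {t : ℝ} (h0 : -1 ≤ t) (h1 : t ≤ 1) : Fl (-2) t = t - 1 := by
  unfold Fl
  rw [min_eq_left (by linarith), max_eq_right (by linarith)]; ring

theorem Gl_left {t : ℝ} (h0 : -1 ≤ t) (h1 : t ≤ 1) : Gl (t - 1) t = -2 := by
  rw [← Fl_left h0 h1, Gl_Fl]

/-- far from the corner the fibres are horizontal -/
theorem Fl_right {l t : ℝ} (hl : 4 ≤ l) (h1 : t ≤ 1) : Fl l t = l - t - 1 := by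
  unfold Fl
  rw [max_eq_left]
  exact (min_le_right _ _).trans (by linarith)

theorem Gl_right {K t : ℝ} (hl : 3 ≤ K) (h1 : t ≤ 1) : Gl (K - t) t = K + 1 := by
  have h := Fl_right (l := K + 1) (t := t) (by linarith) h1
  have h2 : K - t = Fl (K + 1) t := by rw [h]; ring
  rw [h2, Gl_Fl]

/-- the arch map -/
noncomputable def arS (p : ℝ × ℝ) : ℝ := p.2 + max (-Fl p.1 p.2) 0

noncomputable def arK (p : ℝ × ℝ) : ℝ := p.2 + max (Fl p.1 p.2) 0

theorem min_ar (p : ℝ × ℝ) : min (arS p) (arK p) = p.2 := by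
  unfold arS arK
  rcases le_total (Fl p.1 p.2) 0 with h | h
  · rw [max_eq_left (by linarith : (0:ℝ) ≤ -Fl p.1 p.2), max_eq_right h, min_eq_right (by linarith)]
    ring
  · rw [max_eq_right (by linarith : -Fl p.1 p.2 ≤ (0:ℝ)), max_eq_left h, min_eq_left (by linarith)]
    ring

theorem ar_sub (p : ℝ × ℝ) : arK p - arS p = Fl p.1 p.2 := by
  unfold arS arK
  rcases le_total (Fl p.1 p.2) 0 with h | h
  · rw [max_eq_left (by linarith : (0:ℝ) ≤ -Fl p.1 p.2), max_eq_right h]
    ring
  · rw [max_eq_right (by linarith : -Fl p.1 p.2 ≤ (0:ℝ)), max_eq_left h]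
    ring

theorem continuous_Fl {X : Type*} [TopologicalSpace X] {f g : X → ℝ} (hf : Continuous f)
    (hg : Continuous g) : Continuous fun x => Fl (f x) (g x) := by
  unfold Fl
  fun_prop

theorem continuous_arS : Continuous arS := by
  unfold arS Fl
  fun_prop

theorem continuous_arK : Continuous arK := by
  unfold arK Fl
  fun_prop

theorem conicalOn_Fl {E : Type*} [NormedAddCommGroup E] [NormedSpace ℝ E] {X : Set E} {f g : E → ℝ}
    (hX : ConicalSet X) (hf : ConicalOn f X) (hg : ConicalOn g X) (hfc : ContinuousOn f X)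
    (hgc : ContinuousOn g X) : ConicalOn (fun x => Fl (f x) (g x)) X := by
  unfold Fl
  have h1 := (hf.sub hg).sub (conicalOn_const (1:ℝ) hX)
  have h2 := (hf.add hg).add (conicalOn_const (1:ℝ) hX)
  have h3 : ConicalOn (fun x => (f x + 2) / 3) X := by
    refine ((hf.add (conicalOn_const (2:ℝ) hX)).const_smul (1 / 3)).congr fun x _ => ?_
    simp only [smul_eq_mul]; ring
  exact h1.rmax (h2.rmin h3 (by fun_prop) (by fun_prop)) (by fun_prop) (by fun_prop)

theorem arch_mem {K : ℝ} (hK : 3 ≤ K) {p : ℝ × ℝ} (hp : p ∈ Icc (-2) (K + 1) ×ˢ Icc (-1:ℝ) 1) :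
    (arS p, arK p) ∈ Icc (-1:ℝ) 1 ×ˢ Icc (-1) K := by
  obtain ⟨⟨h1, h2⟩, h3, h4⟩ := hp
  have e1 : p.2 - 1 ≤ Fl p.1 p.2 := by rw [← Fl_left h3 h4]; exact Fl_mono _ h1
  have e2 : Fl p.1 p.2 ≤ K - p.2 := by
    have := Fl_mono p.2 h2
    rw [Fl_right (l := K + 1) (by linarith) h4] at this
    linarith
  unfold arS arK
  refine ⟨⟨?_, ?_⟩, ?_, ?_⟩
  · show -1 ≤ p.2 + max (-Fl p.1 p.2) 0
    linarith [le_max_right (-Fl p.1 p.2) (0:ℝ)]
  · show p.2 + max (-Fl p.1 p.2) 0 ≤ 1
    have : max (-Fl p.1 p.2) 0 ≤ 1 - p.2 := max_le (by linarith) (by linarith)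
    linarith
  · show -1 ≤ p.2 + max (Fl p.1 p.2) 0
    linarith [le_max_right (Fl p.1 p.2) (0:ℝ)]
  · show p.2 + max (Fl p.1 p.2) 0 ≤ K
    have : max (Fl p.1 p.2) 0 ≤ K - p.2 := max_le (by linarith) (by linarith)
    linarith

/-- the inverse of the arch map -/
noncomputable def arInv (q : ℝ × ℝ) : ℝ × ℝ := (Gl (q.2 - q.1) (min q.1 q.2), min q.1 q.2)

theorem arInv_mem {K : ℝ} (hK : 3 ≤ K) {q : ℝ × ℝ} (hq : q ∈ Icc (-1:ℝ) 1 ×ˢ Icc (-1) K) :
    arInv q ∈ Icc (-2) (K + 1) ×ˢ Icc (-1:ℝ) 1 := by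
  obtain ⟨⟨h1, h2⟩, h3, h4⟩ := hq
  have e3 : -1 ≤ min q.1 q.2 := le_min h1 h3
  have e4 : min q.1 q.2 ≤ 1 := (min_le_left _ _).trans h2
  refine ⟨⟨?_, ?_⟩, e3, e4⟩
  · show -2 ≤ Gl (q.2 - q.1) (min q.1 q.2)
    rw [← Gl_left e3 e4]
    apply Gl_mono
    rcases le_total q.1 q.2 with h | h
    · rw [min_eq_left h]; linarith
    · rw [min_eq_right h]; linarith
  · show Gl (q.2 - q.1) (min q.1 q.2) ≤ K + 1
    rw [← Gl_right hK e4]
    apply Gl_mono
    rcases le_total q.1 q.2 with h | h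
    · rw [min_eq_left h]; linarith
    · rw [min_eq_right h]; linarith

theorem arInv_ar (p : ℝ × ℝ) : arInv (arS p, arK p) = p := by
  unfold arInv
  simp only
  rw [min_ar, ar_sub, Gl_Fl]

theorem ar_arInv (q : ℝ × ℝ) : (arS (arInv q), arK (arInv q)) = q := by
  unfold arS arK arInv
  simp only
  rw [Fl_Gl]
  rcases le_total q.1 q.2 with h | h
  · rw [min_eq_left h, max_eq_right (by linarith), max_eq_left (by linarith)]
    exact Prod.ext (by ring) (by ring)
  · rw [min_eq_right h, max_eq_left (by linarith), max_eq_right (by linarith)]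
    exact Prod.ext (by ring) (by ring)

/-- **The arch.** -/
noncomputable def arch {K : ℝ} (hK : 3 ≤ K) :
    ConHomeo (Icc (-2) (K + 1) ×ˢ Icc (-1:ℝ) 1) (Icc (-1:ℝ) 1 ×ˢ Icc (-1) K) where
  toFun := fun p => (arS p, arK p)
  invFun := arInv
  mapsTo := fun _ hp => arch_mem hK hp
  mapsTo_inv := fun _ hq => arInv_mem hK hq
  left_inv := fun p _ => arInv_ar p
  right_inv := fun q _ => ar_arInv q
  cont := (continuous_arS.prodMk continuous_arK).continuousOn
  cont_inv := by
    refine Continuous.continuousOn ?_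
    unfold arInv Gl
    fun_prop
  conical := by
    have hX : ConicalSet (Icc (-2) (K + 1) ×ˢ Icc (-1:ℝ) 1) :=
      (conicalSet_Icc _ _).prod (conicalSet_Icc _ _)
    have h1 : ConicalOn (fun p : ℝ × ℝ => p.1) (Icc (-2) (K + 1) ×ˢ Icc (-1:ℝ) 1) :=
      conicalOn_fst hX
    have h2 : ConicalOn (fun p : ℝ × ℝ => p.2) (Icc (-2) (K + 1) ×ˢ Icc (-1:ℝ) 1) :=
      conicalOn_snd hX
    have h3 := conicalOn_Fl hX h1 h2 (by fun_prop) (by fun_prop)
    have h0 := conicalOn_const (0:ℝ) hX
    have hc : Continuous fun p : ℝ × ℝ => Fl p.1 p.2 := continuous_Fl continuous_fst continuous_snd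
    refine ConicalOn.prodMk ?_ ?_
    · exact h2.add (h3.neg.rmax h0 (by fun_prop) (by fun_prop))
    · exact h2.add (h3.rmax h0 (by fun_prop) (by fun_prop))

@[simp] theorem arch_toFun {K : ℝ} (hK : 3 ≤ K) (p : ℝ × ℝ) :
    (arch hK).toFun p = (arS p, arK p) := rfl

/-- left end: `s = 1`, `k = t` -/
theorem ar_left {t : ℝ} (h0 : -1 ≤ t) (h1 : t ≤ 1) : arS (-2, t) = 1 ∧ arK (-2, t) = t := by
  unfold arS arK
  simp only
  rw [Fl_left h0 h1, max_eq_left (by linarith), max_eq_right (by linarith)]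
  exact ⟨by ring, by ring⟩

/-- far part: the fibres are horizontal -/
theorem ar_right {l t : ℝ} (hl : 4 ≤ l) (h1 : t ≤ 1) : arS (l, t) = t ∧ arK (l, t) = l - 1 := by
  unfold arS arK
  simp only
  rw [Fl_right hl h1, max_eq_right (by linarith), max_eq_left (by linarith)]
  exact ⟨by ring, by ring⟩

/-- near part: the fibres stay at `k ≤ 3` -/
theorem arK_le {l t : ℝ} (hl : l ≤ 4) (h1 : t ≤ 1) : arK (l, t) ≤ 3 := by
  unfold arK
  simp only
  have h := Fl_mono t hl
  rw [Fl_right le_rfl h1] at h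
  have : max (Fl l t) 0 ≤ 3 - t := max_le (by linarith) (by linarith)
  linarith

theorem neg_one_le_arK {l t : ℝ} (h0 : -1 ≤ t) : -1 ≤ arK (l, t) := by
  unfold arK
  simp only
  linarith [le_max_right (Fl l t) (0:ℝ)]

end P073.H267
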