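import Vale.Agent.P073.H267.FibC
import Vale.Agent.P073.PA260.Leg

/-!
# P073, block H267 (CONE3): the middle sheets are balls; the level functions are conical
-/

open Set Metric Topology Filter

namespace P073.H267

open P073 P073.H936 P073.H880

variable {E : Type*} [NormedAddCommGroup E] [NormedSpace ℝ E]

namespace Circles

variable {n m : ℕ} {S : Set E} {J : Type*} (D : Circles n S J m)

/-- the middle circle at the top -/
def mid (c : J) : Set (E × ℝ) := ((D.a c).toFun '' (Sn n ×ˢ {(0:ℝ)})) ×ˢ {D.top}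

theorem exists_psi0 (c : J) : ∃ τ : ConHomeo (Sn n ×ˢ Icc (-2) (D.dp c + 1)) (D.N0A c),
    ∀ q, τ.toFun q = (D.psi c).toFun (q, 0) := by
  have hX : ConicalSet (Sn n ×ˢ Icc (-2) (D.dp c + 1) : Set ((Fin n → ℝ) × ℝ)) :=
    (conicalSet_sphere_pi n).prod (conicalSet_Icc _ _)
  have hsub : ((Sn n ×ˢ Icc (-2) (D.dp c + 1)) ×ˢ {(0:ℝ)} : Set (((Fin n → ℝ) × ℝ) × ℝ)) ⊆
      (Sn n ×ˢ Icc (-2) (D.dp c + 1)) ×ˢ Icc (-1:ℝ) 1 :=
    prod_mono (Subset.refl _) (singleton_subset_iff.2 zero_mem_Icc')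
  have hcs := (slice hX 0).conicalSet_right
  have himg : (D.psi c).toFun '' ((Sn n ×ˢ Icc (-2) (D.dp c + 1)) ×ˢ {(0:ℝ)}) = D.N0A c := by
    ext y
    constructor
    · rintro ⟨⟨x, t⟩, ⟨hx, ht⟩, rfl⟩
      have : t = 0 := ht
      subst this
      exact ⟨x, hx, rfl⟩
    · rintro ⟨x, hx, rfl⟩
      exact ⟨(x, 0), ⟨hx, rfl⟩, rfl⟩
  exact ⟨((slice hX 0).trans ((D.psi c).restr hcs hsub)).cast rfl himg, fun q => rfl⟩

/-- the ring of level `1` -/
theorem exists_ring1 (c : J) : ∃ σ : ConHomeo (Sn n) (((D.a c).toFun '' (Sn n ×ˢ {(1:ℝ)})) ×ˢ {D.yy c}),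
    ∀ y, σ.toFun y = ((D.a c).toFun (y, 1), D.yy c) := by
  have hX := conicalSet_sphere_pi n
  have hsub : (Sn n ×ˢ {(1:ℝ)} : Set ((Fin n → ℝ) × ℝ)) ⊆ Sn n ×ˢ Icc (-1:ℝ) 1 :=
    prod_mono (Subset.refl _) (singleton_subset_iff.2 ⟨by norm_num, le_rfl⟩)
  have h1 := (slice hX (1:ℝ)).conicalSet_right
  let r := (D.a c).restr h1 hsub
  exact ⟨((slice hX (1:ℝ)).trans r).trans (slice r.conicalSet_right (D.yy c)), fun _ => rfl⟩

/-- **The middle sheet is a ball.** -/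
theorem ball (c : J) : ConBall n (D.N0 c) (D.mid c) := by
  obtain ⟨τ, hτ⟩ := D.exists_psi0 c
  obtain ⟨σ, hσ⟩ := D.exists_ring1 c
  have hdp := D.three_le_dp c
  have hI : ConBall n (D.N0I c) (((D.a c).toFun '' (Sn n ×ˢ {(1:ℝ)})) ×ˢ {D.yy c}) := by
    have h := (D.ballI c).image (slice (D.ballI c).conicalSet (D.yy c)) (Subset.refl _)
    rw [slice_image, slice_image] at h
    exact h
  let μ : ConHomeo (Sn n ×ˢ Icc (0:ℝ) 1) (D.N0A c) :=
    ((ConHomeo.refl (conicalSet_sphere_pi n)).prod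
      (ConHomeo.affIcc zero_lt_one (by linarith : (-2:ℝ) < D.dp c + 1))).trans τ
  have hμ : ∀ y t, μ.toFun (y, t) =
      (D.psi c).toFun ((y, (ConHomeo.affIcc zero_lt_one (by linarith : (-2:ℝ) < D.dp c + 1)).toFun t), 0) :=
    fun y t => hτ _
  have h0 : ∀ y ∈ Sn n, μ.toFun (y, 0) = σ.toFun y := by
    intro y hy
    rw [hμ, ConHomeo.affIcc_left, D.psi_left c zero_mem_Icc', hσ, add_zero]
  have hLD : D.N0A c ∩ D.N0I c ⊆ ((D.a c).toFun '' (Sn n ×ˢ {(1:ℝ)})) ×ˢ {D.yy c} := by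
    intro p hp
    rw [inter_comm, D.N0_inter c] at hp
    obtain ⟨y, hy, rfl⟩ := hp
    exact ⟨⟨(y, 1), ⟨hy, rfl⟩, rfl⟩, rfl⟩
  have h := hI.add_collar' σ μ h0 hLD
  have e : μ.toFun '' (Sn n ×ˢ {(1:ℝ)}) = D.mid c := by
    ext p
    constructor
    · rintro ⟨⟨y, t⟩, ⟨hy, ht⟩, rfl⟩
      have : t = 1 := ht
      subst this
      rw [hμ, ConHomeo.affIcc_right, D.psi_right c zero_mem_Icc']
      exact ⟨⟨(y, 0), ⟨hy, rfl⟩, rfl⟩, rfl⟩
    · rintro ⟨⟨⟨y, t⟩, ⟨hy, ht⟩, h⟩, h2⟩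
      have : t = 0 := ht
      subst this
      refine ⟨(y, 1), ⟨hy, rfl⟩, ?_⟩
      rw [hμ, ConHomeo.affIcc_right, D.psi_right c zero_mem_Icc']
      exact Prod.ext h h2.symm
  rw [e] at h
  exact h

theorem conicalOn_b {T : Set ℝ} (hT : ConicalSet T) (c : J) : ConicalOn (D.b c) (S ×ˢ T) := by
  have hS : ConicalSet S := (D.s_con c).conicalSet
  have hST := hS.prod hT
  have h1 : ConicalOn (fun p : E × ℝ => D.s c p.1) (S ×ˢ T) :=
    ConicalOn.comp (g := D.s c) (h := fun p : E × ℝ => p.1) (D.s_con c) (conicalOn_fst hST)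
      (fun _ hp => hp.1) continuousOn_fst
  have h2 : ConicalOn (fun p : E × ℝ => p.2 - D.yy c) (S ×ˢ T) := by
    have := (conicalOn_snd hST).add (conicalOn_const (-D.yy c) hST)
    exact this.congr fun p _ => by show p.2 - D.yy c = p.2 + -D.yy c; ring
  have h3 : ConicalOn (fun p : E × ℝ => clip (p.2 - D.yy c)) (S ×ˢ T) := by
    unfold clip
    exact (conicalOn_const (-1:ℝ) hST).rmax ((conicalOn_const (1:ℝ) hST).rmin h2 (by fun_prop)
      (by fun_prop)) (by fun_prop) (by fun_prop)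
  refine h1.rmin h3 ((D.s_cont c).comp continuousOn_fst fun _ hp => hp.1) ?_
  unfold clip
  fun_prop

theorem continuousOn_b {T : Set ℝ} (c : J) : ContinuousOn (D.b c) (S ×ˢ T) := by
  refine ContinuousOn.inf ((D.s_cont c).comp continuousOn_fst fun _ hp => hp.1) ?_
  unfold clip
  fun_prop

/-- the trace at the top -/
theorem b_top (c : J) {x : E} (hx : x ∈ S) : D.b c (x, D.top) = D.s c x := by
  show min (D.s c x) (clip (D.top - D.yy c)) = _
  rw [clip_of_ge (by have h1 := D.yy_dp c; have h2 := D.three_le_dp c; linarith),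
    min_eq_left (D.s_mem hx).2]

/-- the trace at the bottom -/
theorem b_bot (c : J) {p : E × ℝ} (hx : p.1 ∈ S) (hp : p.2 ≤ 1) : D.b c p = -1 := by
  show min (D.s c p.1) (clip (p.2 - D.yy c)) = _
  rw [clip_of_le (by have h1 := D.two_le_yy c; linarith), min_eq_right (D.s_mem hx).1]

theorem one_le_of_mem_N {c : J} {p : E × ℝ} (hp : p ∈ D.N c) : 1 ≤ p.2 := by
  have h1 := D.two_le_yy c
  rcases D.mem_N_iff.1 hp with ⟨-, h⟩ | ⟨-, h⟩
  · linarith [h.1]
  · linarith [h.1]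

theorem N_sub (c : J) : D.N c ⊆ S ×ˢ Icc 1 D.top := by
  intro p hp
  have h0 := D.one_le_of_mem_N hp
  have h1 := D.yy_dp c
  have h2 := D.three_le_dp c
  rcases D.mem_N_iff.1 hp with ⟨h3, h⟩ | ⟨h3, h⟩
  · exact ⟨D.sub c (Or.inr h3), h0, h.2⟩
  · exact ⟨D.sub c (Or.inl h3), h0, by linarith [h.2]⟩

/-- the cap meets the top in the thick circle -/
theorem N_top (c : J) : D.N c ∩ (univ ×ˢ {D.top}) = D.A c ×ˢ {D.top} := by
  have h1 := D.yy_dp c
  have h2 := D.three_le_dp c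
  ext p
  constructor
  · rintro ⟨hp, -, ht⟩
    have ht : p.2 = D.top := ht
    rcases D.mem_N_iff.1 hp with ⟨h3, h⟩ | ⟨h3, h⟩
    · exact ⟨h3, ht⟩
    · exfalso; linarith [h.2]
  · rintro ⟨h3, ht⟩
    have ht : p.2 = D.top := ht
    exact ⟨D.mem_N_iff.2 (Or.inl ⟨h3, by rw [ht]; exact ⟨by linarith, le_rfl⟩⟩), mem_univ _, ht⟩

/-- the fibres at the top -/
theorem Gam_top (c : J) {x : Fin n → ℝ} (hx : x ∈ Sn n) {t : ℝ} (ht : t ∈ Icc (-1:ℝ) 1) :
    (D.Gam c).toFun (((D.a c).toFun (x, 0), D.top), t) = ((D.a c).toFun (x, t), D.top) := by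
  have h1 := D.Gam_psi c hx (l := D.dp c + 1) ⟨by linarith [D.three_le_dp c], le_rfl⟩ ht
  rwa [D.psi_right c zero_mem_Icc', D.psi_right c ht] at h1

theorem mid_sub (c : J) : D.mid c ⊆ D.N0 c := (D.ball c).1

/-- fibres starting at the top stay at the top, the others stay below -/
theorem Gam_top_iff (c : J) {z : E × ℝ} (hz : z ∈ D.N0 c) {t : ℝ} (ht : t ∈ Icc (-1:ℝ) 1) :
    ((D.Gam c).toFun (z, t)).2 = D.top ↔ z.2 = D.top := by
  have h0 := D.Gam_zero c hz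
  have hdp := D.three_le_dp c
  have hyy := D.yy_dp c
  rcases D.N0_cases hz with ⟨h1, h2, h3⟩ | ⟨x, hx, l, hl, h3⟩
  · have e : z.2 = D.yy c := by rw [h2]
    rw [h3 t ht]
    simp only
    constructor
    · intro h; exfalso; linarith [ht.2]
    · intro h; exfalso; linarith
  · have e : z.2 = D.yy c + arK (l, 0) := by
      rw [← h0, h3 0 zero_mem_Icc']
    rw [h3 t ht, e]
    simp only
    rcases lt_or_ge l 4 with hl4 | hl4
    · have e1 := arK_lt (l := l) (t := t) hl4 ht.2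
      have e2 := arK_lt (l := l) (t := 0) hl4 zero_le_one
      constructor
      · intro h; exfalso; linarith
      · intro h; exfalso; linarith
    · rw [(ar_right hl4 ht.2).2, (ar_right hl4 zero_le_one).2]

/-- the points of the middle sheet at the top -/
theorem N0_top (c : J) : D.N0 c ∩ (univ ×ˢ {D.top}) = D.mid c := by
  have hdp := D.three_le_dp c
  have hyy := D.yy_dp c
  ext p
  constructor
  · rintro ⟨hp, -, ht⟩
    have ht : p.2 = D.top := ht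
    rcases hp with hp | hp
    · exfalso
      have : p.2 = D.yy c := hp.2
      linarith
    · obtain ⟨⟨x, l⟩, ⟨hx, hl⟩, rfl⟩ := hp
      have h1 : (D.psi c).toFun ((x, l), 0) = ((D.a c).toFun (x, arS (l, 0)), D.yy c + arK (l, 0)) :=
        D.psi_apply c x l 0
      rw [show (fun q => (D.psi c).toFun (q, 0)) (x, l) = (D.psi c).toFun ((x, l), 0) from rfl, h1]
        at ht ⊢
      simp only at ht
      rcases lt_or_ge l 4 with hl4 | hl4
      · exfalso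
        have e2 := arK_lt (l := l) (t := 0) hl4 zero_le_one
        linarith
      · rw [(ar_right hl4 zero_le_one).1]
        exact ⟨⟨(x, 0), ⟨hx, rfl⟩, rfl⟩, ht⟩
  · intro hp
    exact ⟨D.mid_sub c hp, mem_univ _, hp.2⟩

/-- the middle sheet is the zero set of the level function -/
theorem mem_N0_iff {c : J} {p : E × ℝ} (hp : p.1 ∈ S) (hp2 : p.2 ≤ D.top) :
    p ∈ D.N0 c ↔ D.b c p = 0 := by
  constructor
  · intro h
    exact ((D.fib c).mem_D_iff.1 h).2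
  · intro h
    refine (D.fib c).mem_D_iff.2 ⟨?_, h⟩
    by_contra hN
    rcases D.b_off hp hp2 hN with h1 | h1
    · rw [h] at h1; norm_num at h1
    · rw [h] at h1; norm_num at h1

/-- **The thick cap is a thick ball.** -/
theorem thick (c : J) : Thick n (D.N c) (D.b c) (D.A c ×ˢ {D.top}) := by
  obtain ⟨hsub, φ, hφ⟩ := D.ball c
  let Φ : ConHomeo (D.N c) (closedBall (0 : Fin n → ℝ) 1 ×ˢ Icc (-1:ℝ) 1) :=
    (D.Gam c).symm.trans (φ.prod (ConHomeo.refl (conicalSet_Icc _ _)))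
  have hΦ : ∀ z ∈ D.N0 c, ∀ t ∈ Icc (-1:ℝ) 1,
      Φ.toFun ((D.Gam c).toFun (z, t)) = (φ.toFun z, t) := by
    intro z hz t ht
    show (φ.prod (ConHomeo.refl (conicalSet_Icc (-1:ℝ) 1))).toFun
      ((D.Gam c).invFun ((D.Gam c).toFun (z, t))) = _
    rw [(D.Gam c).left_inv ⟨hz, ht⟩]
    rfl
  have hAsub : D.A c ×ˢ {D.top} ⊆ D.N c := by
    rw [← D.N_top c]; exact inter_subset_left
  refine ⟨hAsub, Φ, ?_, ?_⟩
  · intro p hp
    have h1 := (D.fib c).pr_eq hp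
    have h2 := hΦ _ ((D.fib c).pr_mem hp) _ ((D.fib c).lev_mem hp)
    rw [D.fib_Γ] at h1
    rw [h1] at h2
    rw [h2]
  · ext ⟨w, t⟩
    constructor
    · rintro ⟨p, ⟨hp1, hp2⟩, hpw⟩
      obtain ⟨⟨x, r⟩, ⟨hx, hr⟩, hxr⟩ := (D.a c).image_eq.symm ▸ hp1
      have h3 := D.Gam_top c hx hr
      have h4 : p = ((D.a c).toFun (x, r), D.top) := Prod.ext hxr.symm hp2
      have hm : ((D.a c).toFun (x, 0), D.top) ∈ D.mid c := ⟨⟨(x, 0), ⟨hx, rfl⟩, rfl⟩, rfl⟩
      have h5 := hΦ _ (D.mid_sub c hm) r hr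
      rw [h3, ← h4, hpw, Prod.mk.injEq] at h5
      refine ⟨?_, h5.2 ▸ hr⟩
      rw [← hφ, h5.1]
      exact mem_image_of_mem _ hm
    · rintro ⟨hw, ht⟩
      rw [← hφ] at hw
      obtain ⟨z, hz, hzw⟩ := hw
      have hz' := hz
      obtain ⟨⟨⟨x, r⟩, ⟨hx, hr⟩, hxr⟩, hz2⟩ := hz
      have hr : r = 0 := hr
      subst hr
      have hzz : z = ((D.a c).toFun (x, 0), D.top) := Prod.ext hxr.symm hz2
      refine ⟨((D.a c).toFun (x, t), D.top), ⟨(D.a c).mapsTo ⟨hx, ht⟩, rfl⟩, ?_⟩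
      rw [← D.Gam_top c hx ht, ← hzz, hΦ z (D.mid_sub c hz') t ht, hzw]

end Circles

end P073.H267
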