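import Vale.Agent.P073.H894.Add
import Vale.Agent.P073.H248.Link
import Vale.Agent.P073.H936.Planar

/-!
# P073, block H267 (CONE3, A6): a disc in a conical sphere avoiding a base point
-/

open Set Metric Topology Filter

namespace P073.H267

open P073

variable {E : Type*} [NormedAddCommGroup E] [NormedSpace ℝ E]

theorem base_disc_std {p0 : Fin 3 → ℝ} (hp : p0 ∈ sphere (0 : Fin 3 → ℝ) 1)
    {K : Set (Fin 3 → ℝ)} (hK : IsClosed K) (hKS : K ⊆ sphere 0 1) (h0 : p0 ∉ K) :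
    ∃ S0 B0 : Set (Fin 3 → ℝ), ConBall 2 S0 B0 ∧ S0 ⊆ sphere 0 1 ∧ p0 ∉ S0 ∧ K ⊆ S0 \ B0 := by
  have hS : ConSphere 2 (sphere (0 : Fin 3 → ℝ) 1) := ⟨ConHomeo.refl (conicalSet_sphere_pi 3)⟩
  obtain ⟨r, hr, hC⟩ := locCone_sphere_pi 3 p0
  obtain ⟨q, hq, hb⟩ := Metric.nhds_basis_closedBall.mem_iff.1 (hK.isOpen_compl.mem_nhds h0)
  set ρ := min r q with hρdef
  have hρ : 0 < ρ := lt_min hr hq
  have hCI : H248.ConeIn (sphere (0 : Fin 3 → ℝ) 1) p0 ρ := fun v hv t ht =>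
    hC v (hv.trans (min_le_left _ _)) t ht
  have hγ := H248.conSphere_link (H248.normCon_pi 3) hS hp hρ hCI
  obtain ⟨D₁, D₂, b1, b2, bu, bi⟩ := H894.exists_two_discs hS hγ inter_subset_left
  have hKb : ∀ x ∈ K, x ∉ closedBall p0 ρ := fun x hx h =>
    hb (closedBall_subset_closedBall (min_le_right _ _) h) hx
  have hp0 : p0 ∉ sphere (0 : Fin 3 → ℝ) 1 ∩ sphere p0 ρ := fun h => by
    have := h.2
    rw [mem_sphere, dist_self] at this
    exact hρ.ne this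
  have key : ∀ D₁ D₂ : Set (Fin 3 → ℝ), ConBall 2 D₁ (sphere (0 : Fin 3 → ℝ) 1 ∩ sphere p0 ρ) →
      ConBall 2 D₂ (sphere (0 : Fin 3 → ℝ) 1 ∩ sphere p0 ρ) → D₁ ∪ D₂ = sphere 0 1 →
      D₁ ∩ D₂ = sphere (0 : Fin 3 → ℝ) 1 ∩ sphere p0 ρ → p0 ∈ D₁ →
      ∃ S0 B0 : Set (Fin 3 → ℝ), ConBall 2 S0 B0 ∧ S0 ⊆ sphere 0 1 ∧ p0 ∉ S0 ∧ K ⊆ S0 \ B0 := by
    intro D₁ D₂ b1 b2 bu bi hp1
    have hcon := b1.open_isPreconnected.1
    have hsub : D₁ \ (sphere (0 : Fin 3 → ℝ) 1 ∩ sphere p0 ρ) ⊆ ball p0 ρ := by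
      refine hcon.subset_left_of_subset_union isOpen_ball isClosed_closedBall.isOpen_compl
        (disjoint_compl_right.mono_left ball_subset_closedBall) ?_ ⟨p0, ⟨hp1, hp0⟩, mem_ball_self hρ⟩
      rintro x ⟨hx1, hx2⟩
      by_cases hx3 : x ∈ closedBall p0 ρ
      · left
        rcases eq_or_lt_of_le (mem_closedBall.1 hx3) with h | h
        · exact absurd ⟨bu.subset (Or.inl hx1), mem_sphere.2 h⟩ hx2
        · exact mem_ball.2 h
      · exact Or.inr hx3
    refine ⟨D₂, _, b2, bu ▸ subset_union_right, fun h => hp0 (bi ▸ ⟨hp1, h⟩), fun x hx => ?_⟩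
    have hxγ : x ∉ sphere (0 : Fin 3 → ℝ) 1 ∩ sphere p0 ρ := fun h =>
      hKb x hx (sphere_subset_closedBall h.2)
    refine ⟨?_, hxγ⟩
    rcases bu.symm.subset (hKS hx) with h | h
    · exact absurd (ball_subset_closedBall (hsub ⟨h, hxγ⟩)) (hKb x hx)
    · exact h
  rcases bu.symm.subset hp with h | h
  · exact key D₁ D₂ b1 b2 bu bi h
  · exact key D₂ D₁ b2 b1 (by rw [union_comm]; exact bu) (by rw [inter_comm]; exact bi) h

/-- **A conical sphere without a neighbourhood of a point is a disc.** -/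
theorem exists_base_disc {S : Set E} (hS : ConSphere 2 S) {p0 : E} (hp : p0 ∈ S) {K : Set E}
    (hK : IsCompact K) (hKS : K ⊆ S) (h0 : p0 ∉ K) :
    ∃ S0 B0 : Set E, ConBall 2 S0 B0 ∧ S0 ⊆ S ∧ p0 ∉ S0 ∧ K ⊆ S0 \ B0 := by
  obtain ⟨φ⟩ := hS
  have hK' : IsCompact (φ.toFun '' K) := hK.image_of_continuousOn (φ.cont.mono hKS)
  have hK2 : φ.toFun '' K ⊆ sphere 0 1 := by
    rintro _ ⟨x, hx, rfl⟩; exact φ.mapsTo (hKS hx)
  have h0' : φ.toFun p0 ∉ φ.toFun '' K := by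
    rintro ⟨x, hx, hxe⟩
    exact h0 (φ.injOn (hKS hx) hp hxe ▸ hx)
  obtain ⟨S0, B0, h1, h2, h3, h4⟩ := base_disc_std (φ.mapsTo hp) hK'.isClosed hK2 h0'
  refine ⟨φ.invFun '' S0, φ.invFun '' B0, h1.image φ.symm h2, ?_, ?_, ?_⟩
  · rintro _ ⟨x, hx, rfl⟩; exact φ.mapsTo_inv (h2 hx)
  · rintro ⟨x, hx, hxe⟩
    apply h3
    rw [← hxe, φ.right_inv (h2 hx)]
    exact hx
  · intro x hx
    have h5 := h4 (mem_image_of_mem _ hx)
    refine ⟨⟨_, h5.1, φ.left_inv (hKS hx)⟩, ?_⟩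
    rintro ⟨y, hy, hye⟩
    apply h5.2
    rw [← hye, φ.right_inv (h2 (h1.1 hy))]
    exact hy

/-- **A ranking of finitely many sets compatible with strict inclusion.** -/
theorem exists_rank {J α : Type*} [Fintype J] (O : J → Set α) :
    ∃ rk : J → ℕ, Function.Injective rk ∧ (∀ c, rk c < Fintype.card J) ∧
      ∀ c c', O c ⊂ O c' → rk c < rk c' := by
  classical
  let f : J ≃ Fin (Fintype.card J) := Fintype.equivFin J
  let g : J → ℕ := fun c => (Finset.univ.filter fun c'' => O c'' ⊆ O c).card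
  let L : J → ℕ ×ₗ Fin (Fintype.card J) := fun c => toLex (g c, f c)
  have hL : Function.Injective L := fun c c' h => by
    have h1 : (g c, f c) = (g c', f c') := toLex.injective h
    exact f.injective (Prod.mk.inj h1).2
  let rk : J → ℕ := fun c => (Finset.univ.filter fun c' => L c' < L c).card
  have hmono : ∀ c c', L c < L c' → rk c < rk c' := by
    intro c c' h
    refine Finset.card_lt_card ⟨fun x hx => ?_, fun hsub => ?_⟩
    · rw [Finset.mem_filter] at hx ⊢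
      exact ⟨hx.1, hx.2.trans h⟩
    · have : c ∈ Finset.univ.filter fun c' => L c' < L c :=
        hsub (Finset.mem_filter.2 ⟨Finset.mem_univ _, h⟩)
      exact lt_irrefl _ (Finset.mem_filter.1 this).2
  refine ⟨rk, fun c c' h => ?_, fun c => ?_, fun c c' h => ?_⟩
  · rcases lt_trichotomy (L c) (L c') with h1 | h1 | h1
    · exact absurd h (hmono c c' h1).ne
    · exact hL h1
    · exact absurd h (hmono c' c h1).ne'
  · refine Finset.card_lt_card ⟨Finset.filter_subset _ _, fun hsub => ?_⟩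
    exact lt_irrefl _ (Finset.mem_filter.1 (hsub (Finset.mem_univ c))).2
  · apply hmono
    have hg : g c < g c' := by
      refine Finset.card_lt_card ⟨fun x hx => ?_, fun hsub => ?_⟩
      · rw [Finset.mem_filter] at hx ⊢
        exact ⟨hx.1, hx.2.trans h.1⟩
      · have : c' ∈ Finset.univ.filter fun c'' => O c'' ⊆ O c :=
          hsub (Finset.mem_filter.2 ⟨Finset.mem_univ _, Subset.refl _⟩)
        exact h.2 (Finset.mem_filter.1 this).2
    exact Prod.Lex.toLex_lt_toLex.2 (Or.inl hg)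

end P073.H267
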