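import Vale.Agent.P073.H267.Arch
import Vale.Agent.P073.H880.Fib

/-!
# P073, block H267 (CONE3): thick caps over a boundary sphere

`Circles n S J m`: two families of thick `(n-1)`-spheres in a set `S` (the boundary of a cell), with
their inner discs.  `b c (θ, y) = min (s c θ) (clip (y - yy c))` on `S × [0, 4m+1]` is the level
function of the thick cap `N c`.
-/

open Set Metric Topology Filter

namespace P073.H267

open P073 P073.H936 P073.H880

variable {E : Type*} [NormedAddCommGroup E] [NormedSpace ℝ E]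

/-- the standard sphere -/
abbrev Sn (n : ℕ) : Set (Fin n → ℝ) := sphere (0 : Fin n → ℝ) 1

/-- **Data on the boundary of a cell** -/
structure Circles (n : ℕ) (S : Set E) (J : Type*) (m : ℕ) where
  typ : J → Bool
  A : J → Set E
  I : J → Set E
  a : ∀ c, ConHomeo (Sn n ×ˢ Icc (-1:ℝ) 1) (A c)
  ballI : ∀ c, ConBall n (I c) ((a c).toFun '' (Sn n ×ˢ {1}))
  IA : ∀ c, I c ∩ A c = (a c).toFun '' (Sn n ×ˢ {1})
  sub : ∀ c, I c ∪ A c ⊆ S
  s : J → E → ℝ
  s_a : ∀ c, ∀ x ∈ Sn n, ∀ t ∈ Icc (-1:ℝ) 1, s c ((a c).toFun (x, t)) = t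
  s_I : ∀ c, ∀ x ∈ I c, s c x = 1
  s_out : ∀ c, ∀ x ∈ S, x ∉ I c ∪ A c → s c x = -1
  s_con : ∀ c, ConicalOn (s c) S
  s_cont : ∀ c, ContinuousOn (s c) S
  A_disj : ∀ c c', c ≠ c' → typ c = typ c' → Disjoint (A c) (A c')
  lam : ∀ c c', c ≠ c' → typ c = typ c' → (I c ∪ A c ⊆ I c' \ A c') ∨ (I c' ∪ A c' ⊆ I c \ A c) ∨
    Disjoint (I c ∪ A c) (I c' ∪ A c')
  /-- the functions of the other family are constant along the fibres -/
  vert : ∀ c c', typ c ≠ typ c' → ∀ x ∈ Sn n, ∀ t ∈ Icc (-1:ℝ) 1,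
    s c' ((a c).toFun (x, t)) = s c' ((a c).toFun (x, 0)) ∧
      ((a c).toFun (x, t) ∈ A c' ↔ (a c).toFun (x, 0) ∈ A c')
  rk : J → ℕ
  rk_lt : ∀ c, rk c < m
  rk_ne : ∀ c c', typ c ≠ typ c' → rk c ≠ rk c'
  rk_mono : ∀ c c', c ≠ c' → typ c = typ c' → I c ∪ A c ⊆ I c' \ A c' → rk c < rk c'

/-- clipping to `[-1,1]` -/
noncomputable def clip (z : ℝ) : ℝ := max (-1) (min 1 z)

theorem clip_mem (z : ℝ) : clip z ∈ Icc (-1:ℝ) 1 :=
  ⟨le_max_left _ _, max_le (by norm_num) (min_le_left _ _)⟩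

theorem clip_of_ge {z : ℝ} (h : 1 ≤ z) : clip z = 1 := by
  unfold clip; rw [min_eq_left h, max_eq_right (by norm_num)]

theorem clip_of_le {z : ℝ} (h : z ≤ -1) : clip z = -1 := by
  unfold clip; rw [min_eq_right (by linarith), max_eq_left h]

theorem clip_of_mem {z : ℝ} (h : z ∈ Icc (-1:ℝ) 1) : clip z = z := by
  unfold clip; rw [min_eq_right h.2, max_eq_right h.1]

theorem clip_mono {z z' : ℝ} (h : z ≤ z') : clip z ≤ clip z' := by
  unfold clip; gcongr

namespace Circles

variable {n m : ℕ} {S : Set E} {J : Type*} (D : Circles n S J m)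

/-- the outer disc -/
def O (c : J) : Set E := D.I c ∪ D.A c

/-- the height of the top -/
def top (_ : Circles n S J m) : ℝ := 4 * m + 1

/-- the height of the cap -/
def yy (c : J) : ℝ := 4 * ((m:ℝ) - D.rk c) - 2

/-- the depth of the cap under the top -/
def dp (c : J) : ℝ := 4 * (D.rk c : ℝ) + 3

theorem yy_dp (c : J) : D.yy c + D.dp c = D.top := by unfold yy dp top; ring

theorem three_le_dp (c : J) : 3 ≤ D.dp c := by
  unfold dp
  have : (0:ℝ) ≤ D.rk c := Nat.cast_nonneg _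
  linarith

theorem two_le_yy (c : J) : 2 ≤ D.yy c := by
  unfold yy
  have : (D.rk c : ℝ) + 1 ≤ m := by exact_mod_cast D.rk_lt c
  linarith

theorem yy_lt {c c' : J} (h : D.rk c < D.rk c') : D.yy c' + 4 ≤ D.yy c := by
  unfold yy
  have : (D.rk c : ℝ) + 1 ≤ D.rk c' := by exact_mod_cast h
  linarith

theorem yy_cases {c c' : J} (h : D.typ c ≠ D.typ c') :
    D.yy c' + 4 ≤ D.yy c ∨ D.yy c + 4 ≤ D.yy c' := by
  rcases lt_or_gt_of_ne (D.rk_ne c c' h) with h1 | h1
  · exact Or.inl (D.yy_lt h1)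
  · exact Or.inr (D.yy_lt h1)

/-- the level function of the cap -/
noncomputable def b (c : J) (p : E × ℝ) : ℝ := min (D.s c p.1) (clip (p.2 - D.yy c))

/-- the wall part of the cap -/
def NA (c : J) : Set (E × ℝ) := D.A c ×ˢ Icc (D.yy c - 1) D.top

/-- the inner part of the cap -/
def NI (c : J) : Set (E × ℝ) := D.I c ×ˢ Icc (D.yy c - 1) (D.yy c + 1)

/-- **the thick cap** -/
def N (c : J) : Set (E × ℝ) := D.NI c ∪ D.NA c

theorem s_mem {c : J} {x : E} (hx : x ∈ S) : D.s c x ∈ Icc (-1:ℝ) 1 := by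
  by_cases h : x ∈ D.I c ∪ D.A c
  · rcases h with h | h
    · rw [D.s_I c x h]; exact ⟨by norm_num, le_rfl⟩
    · have h1 := (D.a c).mapsTo_inv h
      have h2 := D.s_a c _ h1.1 _ h1.2
      have h3 : (D.a c).toFun (((D.a c).invFun x).1, ((D.a c).invFun x).2) = x :=
        (D.a c).right_inv h
      rw [h3] at h2
      rw [h2]; exact h1.2
  · rw [D.s_out c x hx h]; exact ⟨le_rfl, by norm_num⟩

theorem b_mem {c : J} {p : E × ℝ} (hx : p.1 ∈ S) : D.b c p ∈ Icc (-1:ℝ) 1 :=
  ⟨le_min (D.s_mem hx).1 (clip_mem _).1, (min_le_left _ _).trans (D.s_mem hx).2⟩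

/-- two caps of the same family are disjoint -/
theorem N_disj {c c' : J} (h : c ≠ c') (ht : D.typ c = D.typ c') : Disjoint (D.N c) (D.N c') := by
  -- it is enough to treat the nested case
  have key : ∀ c c' : J, c ≠ c' → D.typ c = D.typ c' → (D.I c ∪ D.A c ⊆ D.I c' \ D.A c') →
      Disjoint (D.N c) (D.N c') := by
    intro c c' h ht hs
    have hr := D.yy_lt (D.rk_mono c c' h ht hs)
    rw [Set.disjoint_left]
    rintro p hp hp'
    have hO : p.1 ∈ D.I c ∪ D.A c := by
      rcases hp with hp | hp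
      · exact Or.inl hp.1
      · exact Or.inr hp.1
    have hy : D.yy c - 1 ≤ p.2 := by
      rcases hp with hp | hp
      · exact hp.2.1
      · exact hp.2.1
    have hnA := (hs hO).2
    rcases hp' with hp' | hp'
    · have := hp'.2.2; linarith
    · exact hnA hp'.1
  rcases D.lam c c' h ht with h1 | h1 | h1
  · exact key c c' h ht h1
  · exact (key c' c h.symm ht.symm h1).symm
  · rw [Set.disjoint_left] at h1 ⊢
    intro p hp hp'
    refine h1 (a := p.1) ?_ ?_
    · rcases hp with hp | hp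
      · exact Or.inl hp.1
      · exact Or.inr hp.1
    · rcases hp' with hp | hp
      · exact Or.inl hp.1
      · exact Or.inr hp.1

/-- outside the cap the level function is `±1` -/
theorem b_off {c : J} {p : E × ℝ} (hS : p.1 ∈ S) (hy : p.2 ≤ D.top) (hp : p ∉ D.N c) :
    D.b c p = -1 ∨ D.b c p = 1 := by
  unfold b
  by_cases hA : p.1 ∈ D.A c
  · left
    have h1 : p.2 < D.yy c - 1 := by
      by_contra h
      exact hp (Or.inr ⟨hA, not_lt.1 h, hy⟩)
    rw [clip_of_le (by linarith), min_eq_right (D.s_mem hS).1]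
  · by_cases hI : p.1 ∈ D.I c
    · rw [D.s_I c _ hI]
      by_cases h1 : p.2 < D.yy c - 1
      · left
        rw [clip_of_le (by linarith), min_eq_right (by norm_num)]
      · right
        have h2 : D.yy c + 1 < p.2 := by
          by_contra h
          exact hp (Or.inl ⟨hI, not_lt.1 h1, not_lt.1 h⟩)
        rw [clip_of_ge (by linarith), min_self]
    · left
      rw [D.s_out c _ hS (by rintro (h | h); exacts [hI h, hA h]), min_eq_left (clip_mem _).1]

end Circles

end P073.H267
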