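import Vale.Agent.P073.H267.Gam

/-!
# P073, block H267 (CONE3): the thick caps are fibred sheets with commuting fibres
-/

open Set Metric Topology Filter

namespace P073.H267

open P073 P073.H936 P073.H880

variable {E : Type*} [NormedAddCommGroup E] [NormedSpace ℝ E]

namespace Circles

variable {n m : ℕ} {S : Set E} {J : Type*} (D : Circles n S J m)

theorem _root_.P073.H267.arK_lt {l t : ℝ} (hl : l < 4) (h1 : t ≤ 1) : arK (l, t) < 3 := by
  unfold arK Fl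
  simp only
  have h2 : max (max (l - t - 1) (min (l + t + 1) ((l + 2) / 3))) 0 < 3 - t := by
    refine max_lt (max_lt (by linarith) ((min_le_right _ _).trans_lt (by linarith))) (by linarith)
  linarith

theorem zero_mem_Icc' : (0:ℝ) ∈ Icc (-1:ℝ) 1 := ⟨by norm_num, zero_le_one⟩

theorem isCompact_N0I (c : J) : IsCompact (D.N0I c) := (D.isCompact_I c).prod isCompact_singleton

theorem isCompact_N0A (c : J) : IsCompact (D.N0A c) := by
  have h : IsCompact (Sn n ×ˢ Icc (-2) (D.dp c + 1) : Set ((Fin n → ℝ) × ℝ)) :=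
    (isCompact_sphere _ _).prod isCompact_Icc
  exact h.image_of_continuousOn ((D.psi c).cont.comp (by fun_prop) fun q hq => ⟨hq, zero_mem_Icc'⟩)

theorem isCompact_N0 (c : J) : IsCompact (D.N0 c) := (D.isCompact_N0I c).union (D.isCompact_N0A c)

theorem isCompact_NI (c : J) : IsCompact (D.NI c) := (D.isCompact_I c).prod isCompact_Icc

theorem isCompact_NA (c : J) : IsCompact (D.NA c) := (D.isCompact_A c).prod isCompact_Icc

theorem isCompact_Nc (c : J) : IsCompact (D.N c) := (D.isCompact_NI c).union (D.isCompact_NA c)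

/-- **The fibres of a thick cap** -/
theorem exists_Gam (c : J) : ∃ Γ : ConHomeo (D.N0 c ×ˢ Icc (-1:ℝ) 1) (D.N c),
    (∀ x ∈ Sn n, ∀ l ∈ Icc (-2) (D.dp c + 1), ∀ t ∈ Icc (-1:ℝ) 1,
      Γ.toFun ((D.psi c).toFun ((x, l), 0), t) = (D.psi c).toFun ((x, l), t)) ∧
    (∀ x ∈ D.I c, ∀ t ∈ Icc (-1:ℝ) 1, Γ.toFun ((x, D.yy c), t) = (x, D.yy c + t)) := by
  have hX : ConicalSet (Sn n ×ˢ Icc (-2) (D.dp c + 1) : Set ((Fin n → ℝ) × ℝ)) :=
    (conicalSet_sphere_pi n).prod (conicalSet_Icc _ _)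
  obtain ⟨ΓA, hΓA⟩ := exists_fib_of_prod hX (D.psi c)
  have hagree : ∀ z ∈ D.N0I c ∩ D.N0A c, ∀ t ∈ Icc (-1:ℝ) 1,
      (D.GI c).toFun (z, t) = ΓA.toFun (z, t) := by
    intro z hz t ht
    rw [D.N0_inter c] at hz
    obtain ⟨y, hy, rfl⟩ := hz
    have h1 : (D.psi c).toFun ((y, -2), 0) = ((D.a c).toFun (y, 1), D.yy c) := by
      rw [D.psi_left c zero_mem_Icc', add_zero]
    have h2 := hΓA (y, -2) ⟨hy, le_rfl, by linarith [D.three_le_dp c]⟩ t ht
    rw [h1, D.psi_left c ht] at h2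
    exact h2.symm
  have hag : EqOn (D.GI c).toFun ΓA.toFun ((D.N0I c ×ˢ Icc (-1:ℝ) 1) ∩
      (((fun x => (D.psi c).toFun (x, 0)) '' (Sn n ×ˢ Icc (-2) (D.dp c + 1))) ×ˢ Icc (-1:ℝ) 1)) := by
    rintro ⟨z, t⟩ ⟨h1, h2⟩
    exact hagree z ⟨h1.1, h2.1⟩ t h1.2
  have himg : D.NI c ∩ D.NA c ⊆ (D.GI c).toFun '' ((D.N0I c ×ˢ Icc (-1:ℝ) 1) ∩
      (((fun x => (D.psi c).toFun (x, 0)) '' (Sn n ×ˢ Icc (-2) (D.dp c + 1))) ×ˢ
        Icc (-1:ℝ) 1)) := by
    rintro ⟨x, y⟩ ⟨h1, h2⟩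
    obtain ⟨w, hw, rfl⟩ := D.mem_ring h2.1 h1.1
    have hz : ((D.a c).toFun (w, 1), D.yy c) ∈ D.N0I c ∩ D.N0A c := by
      rw [D.N0_inter c]; exact ⟨w, hw, rfl⟩
    have ht : y - D.yy c ∈ Icc (-1:ℝ) 1 := ⟨by linarith [h1.2.1], by linarith [h1.2.2]⟩
    refine ⟨(((D.a c).toFun (w, 1), D.yy c), y - D.yy c), ⟨⟨hz.1, ht⟩, ⟨hz.2, ht⟩⟩, ?_⟩
    show ((D.a c).toFun (w, 1), D.yy c + (y - D.yy c)) = _
    rw [add_sub_cancel]
  let G := ConHomeo.glue (D.GI c) ΓA ((D.isCompact_N0I c).prod isCompact_Icc).isClosed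
    ((D.isCompact_N0A c).prod isCompact_Icc).isClosed (D.isCompact_NI c).isClosed
    (D.isCompact_NA c).isClosed hag himg
  have hGl := ConHomeo.glue_left (D.GI c) ΓA ((D.isCompact_N0I c).prod isCompact_Icc).isClosed
    ((D.isCompact_N0A c).prod isCompact_Icc).isClosed (D.isCompact_NI c).isClosed
    (D.isCompact_NA c).isClosed hag himg
  have hGr := ConHomeo.glue_right (D.GI c) ΓA ((D.isCompact_N0I c).prod isCompact_Icc).isClosed
    ((D.isCompact_N0A c).prod isCompact_Icc).isClosed (D.isCompact_NI c).isClosed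
    (D.isCompact_NA c).isClosed hag himg
  refine ⟨G.cast ?_ rfl, ?_, ?_⟩
  · show _ = (D.N0I c ∪ D.N0A c) ×ˢ Icc (-1:ℝ) 1
    rw [union_prod]
    rfl
  · intro x hx l hl t ht
    show G.toFun _ = _
    rw [hGr ⟨⟨(x, l), ⟨hx, hl⟩, rfl⟩, ht⟩]
    exact hΓA (x, l) ⟨hx, hl⟩ t ht
  · intro x hx t ht
    show G.toFun _ = _
    have hz : ((x, D.yy c) : E × ℝ) ∈ D.N0I c := ⟨hx, rfl⟩
    rw [hGl (show (((x, D.yy c), t) : (E × ℝ) × ℝ) ∈ D.N0I c ×ˢ Icc (-1:ℝ) 1 from ⟨hz, ht⟩)]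
    rfl

noncomputable def Gam (c : J) : ConHomeo (D.N0 c ×ˢ Icc (-1:ℝ) 1) (D.N c) := (D.exists_Gam c).choose

theorem Gam_psi (c : J) {x : Fin n → ℝ} (hx : x ∈ Sn n) {l : ℝ} (hl : l ∈ Icc (-2) (D.dp c + 1))
    {t : ℝ} (ht : t ∈ Icc (-1:ℝ) 1) :
    (D.Gam c).toFun ((D.psi c).toFun ((x, l), 0), t) = (D.psi c).toFun ((x, l), t) :=
  (D.exists_Gam c).choose_spec.1 x hx l hl t ht

theorem Gam_I (c : J) {x : E} (hx : x ∈ D.I c) {t : ℝ} (ht : t ∈ Icc (-1:ℝ) 1) :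
    (D.Gam c).toFun ((x, D.yy c), t) = (x, D.yy c + t) :=
  (D.exists_Gam c).choose_spec.2 x hx t ht

/-- case distinction on the middle sheet -/
theorem N0_cases {c : J} {z : E × ℝ} (hz : z ∈ D.N0 c) :
    (z.1 ∈ D.I c ∧ z = (z.1, D.yy c) ∧ ∀ t ∈ Icc (-1:ℝ) 1, (D.Gam c).toFun (z, t) = (z.1, D.yy c + t)) ∨
    (∃ x ∈ Sn n, ∃ l ∈ Icc (-2) (D.dp c + 1), ∀ t ∈ Icc (-1:ℝ) 1,
      (D.Gam c).toFun (z, t) = ((D.a c).toFun (x, arS (l, t)), D.yy c + arK (l, t))) := by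
  rcases hz with hz | hz
  · left
    have hz2 : z = (z.1, D.yy c) := Prod.ext rfl hz.2
    refine ⟨hz.1, hz2, fun t ht => ?_⟩
    conv_lhs => rw [hz2]
    exact D.Gam_I c hz.1 ht
  · right
    obtain ⟨⟨x, l⟩, ⟨hx, hl⟩, rfl⟩ := hz
    refine ⟨x, hx, l, hl, fun t ht => ?_⟩
    show (D.Gam c).toFun ((D.psi c).toFun ((x, l), 0), t) = _
    rw [D.Gam_psi c hx hl ht, D.psi_apply]

theorem Gam_zero (c : J) {z : E × ℝ} (hz : z ∈ D.N0 c) : (D.Gam c).toFun (z, 0) = z := by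
  rcases hz with hz | hz
  · have hz2 : z = (z.1, D.yy c) := Prod.ext rfl hz.2
    rw [hz2, D.Gam_I c hz.1 zero_mem_Icc', add_zero]
  · obtain ⟨⟨x, l⟩, ⟨hx, hl⟩, rfl⟩ := hz
    exact D.Gam_psi c hx hl zero_mem_Icc'

theorem arS_mem {c : J} {l t : ℝ} (hl : l ∈ Icc (-2) (D.dp c + 1)) (ht : t ∈ Icc (-1:ℝ) 1) :
    arS (l, t) ∈ Icc (-1:ℝ) 1 := (arch_mem (D.three_le_dp c) (p := (l, t)) ⟨hl, ht⟩).1

theorem arK_mem {c : J} {l t : ℝ} (hl : l ∈ Icc (-2) (D.dp c + 1)) (ht : t ∈ Icc (-1:ℝ) 1) :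
    arK (l, t) ∈ Icc (-1:ℝ) (D.dp c) := (arch_mem (D.three_le_dp c) (p := (l, t)) ⟨hl, ht⟩).2

theorem min_clip {s k : ℝ} (hs : s ≤ 1) (hk : -1 ≤ k) : min s (clip k) = min s k := by
  rcases le_total k 1 with h | h
  · rw [clip_of_mem ⟨hk, h⟩]
  · rw [clip_of_ge h, min_eq_left hs, min_eq_left (hs.trans h)]

/-- the level of a point of a fibre -/
theorem b_Gam (c : J) {z : E × ℝ} (hz : z ∈ D.N0 c) {t : ℝ} (ht : t ∈ Icc (-1:ℝ) 1) :
    D.b c ((D.Gam c).toFun (z, t)) = t := by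
  rcases D.N0_cases hz with ⟨h1, -, h3⟩ | ⟨x, hx, l, hl, h3⟩
  · rw [h3 t ht]
    show min (D.s c z.1) (clip (D.yy c + t - D.yy c)) = t
    rw [D.s_I c _ h1, add_sub_cancel_left, clip_of_mem ht, min_eq_right ht.2]
  · rw [h3 t ht]
    show min (D.s c ((D.a c).toFun (x, arS (l, t)))) (clip (D.yy c + arK (l, t) - D.yy c)) = t
    have h4 := D.arS_mem hl ht
    rw [D.s_a c x hx _ h4, add_sub_cancel_left, min_clip h4.2 (D.arK_mem hl ht).1]
    exact min_ar (l, t)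

/-- **The thick cap is a fibred sheet.** -/
noncomputable def fib (c : J) : Fib (D.N0 c) (D.N c) (D.b c) where
  Γ := D.Gam c
  lev := fun _ hz _ ht => D.b_Gam c hz ht
  zero := fun _ hz => D.Gam_zero c hz

@[simp] theorem fib_Γ (c : J) : (D.fib c).Γ = D.Gam c := rfl

/-- a description of the thick cap -/
theorem mem_N_iff {c : J} {p : E × ℝ} : p ∈ D.N c ↔
    (p.1 ∈ D.A c ∧ p.2 ∈ Icc (D.yy c - 1) D.top) ∨ (p.1 ∈ D.I c ∧ p.2 ∈ Icc (D.yy c - 1) (D.yy c + 1)) := by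
  constructor
  · rintro (h | h)
    · exact Or.inr h
    · exact Or.inl h
  · rintro (h | h)
    · exact Or.inr h
    · exact Or.inl h

/-- membership in the inner disc is constant along the fibres of the other family -/
theorem vert_I (c c' : J) (h : D.typ c ≠ D.typ c') {x : Fin n → ℝ} (hx : x ∈ Sn n) {t t' : ℝ}
    (ht : t ∈ Icc (-1:ℝ) 1) (ht' : t' ∈ Icc (-1:ℝ) 1) (hI : (D.a c).toFun (x, t) ∈ D.I c') :
    (D.a c).toFun (x, t') ∈ D.I c' := by
  have hS : ∀ r ∈ Icc (-1:ℝ) 1, (D.a c).toFun (x, r) ∈ S := fun r hr =>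
    D.sub c (Or.inr ((D.a c).mapsTo ⟨hx, hr⟩))
  have hv := D.vert c c' h x hx t ht
  have hv' := D.vert c c' h x hx t' ht'
  have h1 : D.s c' ((D.a c).toFun (x, t')) = 1 := by
    rw [hv'.1, ← hv.1, D.s_I c' _ hI]
  by_cases hA : (D.a c).toFun (x, t) ∈ D.A c'
  · -- on the ring; the level `1` of `A c'`
    have hA' : (D.a c).toFun (x, t') ∈ D.A c' := hv'.2.2 (hv.2.1 hA)
    have h2 := (D.a c').mapsTo_inv hA'
    have h3 : (D.a c').toFun (((D.a c').invFun ((D.a c).toFun (x, t'))).1,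
        ((D.a c').invFun ((D.a c).toFun (x, t'))).2) = (D.a c).toFun (x, t') :=
      (D.a c').right_inv hA'
    have h4 := D.s_a c' _ h2.1 _ h2.2
    rw [h3, h1] at h4
    rw [← h3, ← h4]
    exact D.ring_I h2.1
  · by_contra hI'
    have hA' : (D.a c).toFun (x, t') ∉ D.A c' := fun h => hA (hv.2.2 (hv'.2.1 h))
    have h5 := D.s_out c' _ (hS t' ht') (by rintro (h | h); exacts [hI' h, hA' h])
    rw [h5] at h1
    norm_num at h1

/-- the level function of the other family along a fibre -/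
theorem vert_s (c c' : J) (h : D.typ c ≠ D.typ c') {x : Fin n → ℝ} (hx : x ∈ Sn n) {t t' : ℝ}
    (ht : t ∈ Icc (-1:ℝ) 1) (ht' : t' ∈ Icc (-1:ℝ) 1) :
    D.s c' ((D.a c).toFun (x, t)) = D.s c' ((D.a c).toFun (x, t')) :=
  ((D.vert c c' h x hx t ht).1).trans ((D.vert c c' h x hx t' ht').1).symm

theorem vert_A (c c' : J) (h : D.typ c ≠ D.typ c') {x : Fin n → ℝ} (hx : x ∈ Sn n) {t t' : ℝ}
    (ht : t ∈ Icc (-1:ℝ) 1) (ht' : t' ∈ Icc (-1:ℝ) 1) (hA : (D.a c).toFun (x, t) ∈ D.A c') :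
    (D.a c).toFun (x, t') ∈ D.A c' :=
  (D.vert c c' h x hx t' ht').2.2 ((D.vert c c' h x hx t ht).2.1 hA)

theorem typ_ne {c c' : J} (h : D.typ c ≠ D.typ c') : c ≠ c' := fun e => h (by rw [e])

/-- **The fibres of two caps of different families commute.** -/
theorem pres (c c' : J) (h : D.typ c ≠ D.typ c') : Pres (D.fib c) (D.N c') (D.b c') := by
  intro z hz t ht t' ht' hN
  rw [D.fib_Γ] at hN ⊢
  rcases D.N0_cases hz with ⟨h1, -, h3⟩ | ⟨x, hx, l, hl, h3⟩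
  · -- over the inner disc the base point is fixed
    rw [h3 t ht] at hN ⊢
    rw [h3 t' ht']
    have hb := ht.1; have hb2 := ht.2; have hc := ht'.1; have hc2 := ht'.2
    rw [D.mem_N_iff] at hN ⊢
    rcases D.yy_cases h with hy | hy
    · -- `c'` is deeper than `c`: the fibre is far above the cap of `c'`
      constructor
      · rcases hN with ⟨h4, h5⟩ | ⟨h4, h5⟩
        · have hyt := D.yy_dp c
          have hdp := D.three_le_dp c
          exact Or.inl ⟨h4, by show D.yy c' - 1 ≤ D.yy c + t'; linarith,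
            by show D.yy c + t' ≤ D.top; linarith⟩
        · have := h5.2
          simp only at this
          linarith
      · show min (D.s c' z.1) (clip (D.yy c + t' - D.yy c')) =
          min (D.s c' z.1) (clip (D.yy c + t - D.yy c'))
        rw [clip_of_ge (by linarith), clip_of_ge (by linarith)]
    · -- `c'` is higher: no intersection
      exfalso
      rcases hN with ⟨h4, h5⟩ | ⟨h4, h5⟩
      · have := h5.1
        simp only at this
        linarith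
      · have := h5.1
        simp only at this
        linarith
  · rw [h3 t ht] at hN ⊢
    rw [h3 t' ht']
    rw [D.mem_N_iff] at hN ⊢
    simp only at hN ⊢
    have hS := D.arS_mem hl ht
    have hS' := D.arS_mem hl ht'
    have hK := D.arK_mem hl ht
    have hK' := D.arK_mem hl ht'
    have hyt := D.yy_dp c
    rcases D.yy_cases h with hy | hy
    · constructor
      · rcases hN with ⟨h4, h5⟩ | ⟨h4, h5⟩
        · refine Or.inl ⟨D.vert_A c c' h hx hS hS' h4, ?_, ?_⟩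
          · linarith [hK'.1]
          · linarith [hK'.2]
        · exfalso
          linarith [h5.2, hK.1]
      · show min (D.s c' ((D.a c).toFun (x, arS (l, t')))) (clip (D.yy c + arK (l, t') - D.yy c')) =
          min (D.s c' ((D.a c).toFun (x, arS (l, t)))) (clip (D.yy c + arK (l, t) - D.yy c'))
        rw [D.vert_s c c' h hx hS' hS, clip_of_ge (by linarith [hK'.1]),
          clip_of_ge (by linarith [hK.1])]
    · -- `c'` is higher: only the horizontal part of the fibres meets it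
      rcases lt_or_ge l 4 with hl4 | hl4
      · exfalso
        have h6 := arK_lt (l := l) (t := t) hl4 ht.2
        rcases hN with ⟨h4, h5⟩ | ⟨h4, h5⟩
        · linarith [h5.1]
        · linarith [h5.1]
      · have e1 := ar_right (l := l) (t := t) hl4 ht.2
        have e2 := ar_right (l := l) (t := t') hl4 ht'.2
        rw [e1.1, e1.2] at hN
        rw [e2.1, e2.2]
        constructor
        · rcases hN with ⟨h4, h5⟩ | ⟨h4, h5⟩
          · exact Or.inl ⟨D.vert_A c c' h hx ht ht' h4, h5⟩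
          · exact Or.inr ⟨D.vert_I c c' h hx ht ht' h4, h5⟩
        · show min (D.s c' ((D.a c).toFun (x, t'))) (clip (D.yy c + (l - 1) - D.yy c')) =
            min (D.s c' ((D.a c).toFun (x, arS (l, t)))) (clip (D.yy c + arK (l, t) - D.yy c'))
          rw [e1.1, e1.2, D.vert_s c c' h hx ht' ht]

end Circles

end P073.H267
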