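import Vale.Agent.P073.H267.Cone

/-!
# P073, block H267 (CONE3): the fibres of the thick caps
-/

open Set Metric Topology Filter

namespace P073.H267

open P073 P073.H936 P073.H880

variable {E : Type*} [NormedAddCommGroup E] [NormedSpace ℝ E]

/-- reassociation of a product -/
def assoc {F G H : Type*} [NormedAddCommGroup F] [NormedSpace ℝ F] [NormedAddCommGroup G]
    [NormedSpace ℝ G] [NormedAddCommGroup H] [NormedSpace ℝ H] {X : Set F} {Y : Set G} {Z : Set H}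
    (hX : ConicalSet X) (hY : ConicalSet Y) (hZ : ConicalSet Z) :
    ConHomeo (X ×ˢ (Y ×ˢ Z)) ((X ×ˢ Y) ×ˢ Z) where
  toFun := fun q => ((q.1, q.2.1), q.2.2)
  invFun := fun q => (q.1.1, (q.1.2, q.2))
  mapsTo := fun _ hq => ⟨⟨hq.1, hq.2.1⟩, hq.2.2⟩
  mapsTo_inv := fun _ hq => ⟨hq.1.1, ⟨hq.1.2, hq.2⟩⟩
  left_inv := fun _ _ => rfl
  right_inv := fun _ _ => rfl
  cont := by fun_prop
  cont_inv := by fun_prop
  conical := by
    have hc : ConicalSet (X ×ˢ (Y ×ˢ Z)) := hX.prod (hY.prod hZ)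
    have h1 : ConicalOn (fun q : F × G × H => q.1) (X ×ˢ (Y ×ˢ Z)) := conicalOn_fst hc
    have h2 : ConicalOn (fun q : F × G × H => q.2.1) (X ×ˢ (Y ×ˢ Z)) :=
      conicalOn_linear ((LinearMap.fst ℝ G H) ∘ₗ LinearMap.snd ℝ F (G × H)) hc
    have h3 : ConicalOn (fun q : F × G × H => q.2.2) (X ×ˢ (Y ×ˢ Z)) :=
      conicalOn_linear ((LinearMap.snd ℝ G H) ∘ₗ LinearMap.snd ℝ F (G × H)) hc
    exact (h1.prodMk h2).prodMk h3

@[simp] theorem assoc_toFun {F G H : Type*} [NormedAddCommGroup F] [NormedSpace ℝ F]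
    [NormedAddCommGroup G] [NormedSpace ℝ G] [NormedAddCommGroup H] [NormedSpace ℝ H] {X : Set F}
    {Y : Set G} {Z : Set H} (hX : ConicalSet X) (hY : ConicalSet Y) (hZ : ConicalSet Z)
    (q : F × G × H) : (assoc hX hY hZ).toFun q = ((q.1, q.2.1), q.2.2) := rfl

/-- translation of an interval -/
noncomputable def shiftIcc (a b y : ℝ) : ConHomeo (Icc a b) (Icc (y + a) (y + b)) where
  toFun := fun t => y + t
  invFun := fun t => t - y
  mapsTo := fun t ht => ⟨by linarith [ht.1], by linarith [ht.2]⟩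
  mapsTo_inv := fun t ht => ⟨by linarith [ht.1], by linarith [ht.2]⟩
  left_inv := fun t _ => by simp
  right_inv := fun t _ => by simp
  cont := by fun_prop
  cont_inv := by fun_prop
  conical := by
    intro x hx
    obtain ⟨r, hr, H⟩ := conicalSet_Icc a b x hx
    refine ⟨r, hr, fun v hv hxv t ht => ⟨H v hv hxv t ht, ?_⟩⟩
    simp only [smul_eq_mul]
    ring

/-- the slice `x ↦ (x, 0)` and a parametrised product give fibres over the middle -/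
theorem exists_fib_of_prod {F : Type*} [NormedAddCommGroup F] [NormedSpace ℝ F] {X : Set F}
    (hX : ConicalSet X) {N : Set E} (ψ : ConHomeo (X ×ˢ Icc (-1:ℝ) 1) N) :
    ∃ Γ : ConHomeo (((fun x => ψ.toFun (x, 0)) '' X) ×ˢ Icc (-1:ℝ) 1) N,
      ∀ x ∈ X, ∀ t ∈ Icc (-1:ℝ) 1, Γ.toFun (ψ.toFun (x, 0), t) = ψ.toFun (x, t) := by
  have h0 : (0:ℝ) ∈ Icc (-1:ℝ) 1 := ⟨by norm_num, zero_le_one⟩
  have hsub : (X ×ˢ {(0:ℝ)} : Set (F × ℝ)) ⊆ X ×ˢ Icc (-1:ℝ) 1 :=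
    prod_mono (Subset.refl _) (singleton_subset_iff.2 h0)
  have hcs : ConicalSet (X ×ˢ {(0:ℝ)} : Set (F × ℝ)) := (slice hX 0).conicalSet_right
  let τ : ConHomeo X (ψ.toFun '' (X ×ˢ {(0:ℝ)})) := (slice hX 0).trans (ψ.restr hcs hsub)
  have hτ : ∀ x, τ.toFun x = ψ.toFun (x, 0) := fun x => rfl
  have himg : ψ.toFun '' (X ×ˢ {(0:ℝ)}) = (fun x => ψ.toFun (x, 0)) '' X := by
    ext y
    constructor
    · rintro ⟨⟨x, t⟩, ⟨hx, ht⟩, rfl⟩
      have : t = 0 := ht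
      subst this
      exact ⟨x, hx, rfl⟩
    · rintro ⟨x, hx, rfl⟩
      exact ⟨(x, 0), ⟨hx, rfl⟩, rfl⟩
  let τ' : ConHomeo X ((fun x => ψ.toFun (x, 0)) '' X) := τ.cast rfl himg
  let Γ := (τ'.symm.prod (ConHomeo.refl (conicalSet_Icc (-1) 1))).trans ψ
  refine ⟨Γ, fun x hx t ht => ?_⟩
  show ψ.toFun (τ'.invFun (ψ.toFun (x, 0)), t) = _
  have h1 : τ'.invFun (ψ.toFun (x, 0)) = x := τ'.left_inv hx
  rw [h1]

namespace Circles

variable {n m : ℕ} {S : Set E} {J : Type*} (D : Circles n S J m)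

theorem dp_top (c : J) : D.yy c + D.dp c = D.top := D.yy_dp c

/-- the parametrisation of the wall -/
noncomputable def psi (c : J) :
    ConHomeo ((Sn n ×ˢ Icc (-2) (D.dp c + 1)) ×ˢ Icc (-1:ℝ) 1) (D.NA c) :=
  let hS : ConicalSet (Sn n) := conicalSet_sphere_pi n
  let h1 := (assoc hS (conicalSet_Icc (-2) (D.dp c + 1)) (conicalSet_Icc (-1) 1)).symm
  let h2 := (ConHomeo.refl hS).prod (arch (D.three_le_dp c))
  let h3 := assoc hS (conicalSet_Icc (-1) 1) (conicalSet_Icc (-1) (D.dp c))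
  let h4 := (D.a c).prod (shiftIcc (-1) (D.dp c) (D.yy c))
  (h1.trans (h2.trans (h3.trans h4))).cast rfl (by
    unfold NA
    rw [← sub_eq_add_neg, D.dp_top c])

theorem psi_apply (c : J) (x : Fin n → ℝ) (l t : ℝ) :
    (D.psi c).toFun ((x, l), t) = ((D.a c).toFun (x, arS (l, t)), D.yy c + arK (l, t)) := rfl

/-- the middle of the wall -/
def N0A (c : J) : Set (E × ℝ) := (fun q => (D.psi c).toFun (q, 0)) '' (Sn n ×ˢ Icc (-2) (D.dp c + 1))

/-- the middle of the cap -/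
def N0I (c : J) : Set (E × ℝ) := D.I c ×ˢ {D.yy c}

/-- **the middle sheet** -/
def N0 (c : J) : Set (E × ℝ) := D.N0I c ∪ D.N0A c

theorem isCompact_I (c : J) : IsCompact (D.I c) := (D.ballI c).isCompact

theorem isCompact_A (c : J) : IsCompact (D.A c) :=
  (D.a c).isCompact_right ((isCompact_sphere _ _).prod isCompact_Icc)

theorem psi_left (c : J) {x : Fin n → ℝ} {t : ℝ} (ht : t ∈ Icc (-1:ℝ) 1) :
    (D.psi c).toFun ((x, -2), t) = ((D.a c).toFun (x, 1), D.yy c + t) := by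
  rw [psi_apply, (ar_left ht.1 ht.2).1, (ar_left ht.1 ht.2).2]

theorem psi_right (c : J) {x : Fin n → ℝ} {t : ℝ} (ht : t ∈ Icc (-1:ℝ) 1) :
    (D.psi c).toFun ((x, D.dp c + 1), t) = ((D.a c).toFun (x, t), D.top) := by
  have h := ar_right (l := D.dp c + 1) (t := t) (by linarith [D.three_le_dp c]) ht.2
  rw [psi_apply, h.1, h.2, ← D.dp_top c]
  congr 1
  ring

theorem mem_ring {c : J} {x : E} (h : x ∈ D.A c) (h' : x ∈ D.I c) :
    ∃ y ∈ Sn n, x = (D.a c).toFun (y, 1) := by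
  have h1 : x ∈ D.I c ∩ D.A c := ⟨h', h⟩
  rw [D.IA c] at h1
  obtain ⟨⟨y, t⟩, ⟨hy, ht⟩, rfl⟩ := h1
  have : t = 1 := ht
  subst this
  exact ⟨y, hy, rfl⟩

theorem ring_I {c : J} {y : Fin n → ℝ} (hy : y ∈ Sn n) : (D.a c).toFun (y, 1) ∈ D.I c := by
  have h1 : (D.a c).toFun (y, 1) ∈ D.I c ∩ D.A c := by
    rw [D.IA c]; exact ⟨(y, 1), ⟨hy, rfl⟩, rfl⟩
  exact h1.1

/-- the overlap of the two parts -/
theorem N0_inter (c : J) : D.N0I c ∩ D.N0A c = (fun y => ((D.a c).toFun (y, 1), D.yy c)) '' Sn n := by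
  ext p
  constructor
  · rintro ⟨hI, ⟨⟨x, l⟩, ⟨hx, hl⟩, h⟩⟩
    have h0 : (0:ℝ) ∈ Icc (-1:ℝ) 1 := ⟨by norm_num, zero_le_one⟩
    have hp : p ∈ D.NA c := by
      rw [← h]; exact (D.psi c).mapsTo ⟨⟨hx, hl⟩, h0⟩
    obtain ⟨y, hy, hy2⟩ := D.mem_ring hp.1 hI.1
    exact ⟨y, hy, Prod.ext hy2.symm hI.2.symm⟩
  · rintro ⟨y, hy, rfl⟩
    refine ⟨⟨D.ring_I hy, rfl⟩, ⟨(y, -2), ⟨hy, le_rfl, ?_⟩, ?_⟩⟩
    · linarith [D.three_le_dp c]
    · show (D.psi c).toFun ((y, -2), 0) = _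
      rw [D.psi_left c ⟨by norm_num, zero_le_one⟩, add_zero]

/-- the fibres of the inner part -/
noncomputable def GI (c : J) : ConHomeo (D.N0I c ×ˢ Icc (-1:ℝ) 1) (D.NI c) where
  toFun := fun q => (q.1.1, D.yy c + q.2)
  invFun := fun p => ((p.1, D.yy c), p.2 - D.yy c)
  mapsTo := fun q hq => ⟨hq.1.1, by linarith [hq.2.1], by linarith [hq.2.2]⟩
  mapsTo_inv := fun p hp => ⟨⟨hp.1, rfl⟩, by linarith [hp.2.1], by linarith [hp.2.2]⟩
  left_inv := fun q hq => by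
    refine Prod.ext (Prod.ext rfl hq.1.2.symm) ?_
    simp
  right_inv := fun p _ => by
    refine Prod.ext rfl ?_
    simp
  cont := by fun_prop
  cont_inv := by fun_prop
  conical := by
    have hI : ConicalSet (D.N0I c) := (slice (D.ballI c).conicalSet (D.yy c)).conicalSet_right
    have hX : ConicalSet (D.N0I c ×ˢ Icc (-1:ℝ) 1) := hI.prod (conicalSet_Icc _ _)
    have h1 : ConicalOn (fun q : (E × ℝ) × ℝ => q.1.1) (D.N0I c ×ˢ Icc (-1:ℝ) 1) :=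
      conicalOn_linear ((LinearMap.fst ℝ E ℝ) ∘ₗ LinearMap.fst ℝ (E × ℝ) ℝ) hX
    have h2 : ConicalOn (fun q : (E × ℝ) × ℝ => q.2) (D.N0I c ×ˢ Icc (-1:ℝ) 1) := conicalOn_snd hX
    exact h1.prodMk ((conicalOn_const (D.yy c) hX).add h2)

end Circles

end P073.H267
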