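import Vale.Agent.P073.H471.Univ

/-!
# P073, block A14.1 (GEO): the boxes of the two rounds

On top of `H471` (radii, widths, the boxes `P`, `E`, `Zv` of the collapse).  The numbers satisfy

`om << κ << τ << p << uT << lam << be << a << u << T << wv`.

* `TB true b` resp. `TB false b`: full zone and support of the box `b` of round T; `b` is an edge, or
  a vertex hanging in a side of a square (`Hang`);
* `PB c s`: plate of the square `s`, at distance `c * p s` from the sides.
-/

open Set Metric Topology Filter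

namespace Vale.Agent.P073.H267

open _root_.P073 _root_.P073.Net _root_.P073.PA691
open _root_.P073.PR720 (LF)
open Vale.Agent.P073.St (V)
open Vale.Agent.P073.H471

variable {Λ : Set V} {v : V} {K : BoxCx Λ v} {S : Rad K} {W : Wid K S} {B : Boxes W} {y z : V}

/-- a vertex in the relative interior of a side of a square; `l` is the direction of the side,
`k` is the other tangential direction -/
structure Hang (K : BoxCx Λ v) where
  i : K.W
  s : K.S
  k : Fin 3
  l : Fin 3
  β : Bool
  k_n : k ≠ K.nrm s
  l_n : l ≠ K.nrm s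
  k_l : k ≠ l
  nrm : K.w i (K.nrm s) = K.slo s (K.nrm s)
  side : K.w i k = if β then K.shi s k else K.slo s k
  lo : K.slo s l < K.w i l
  hi : K.w i l < K.shi s l

/-- the numbers -/
structure Geo (B : Boxes W) where
  /-- the boxes of round T around the edges end at distance `be i` from the vertices -/
  be : K.W → ℝ
  /-- thickness of the full zone -/
  uT : K.G → ℝ
  /-- thickness of the support -/
  lam : K.G → ℝ
  /-- the plates of round P begin at distance `p s` from the sides -/
  p : K.S → ℝ
  /-- the levels of round P begin at distance `a s` from the sides -/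
  a : K.S → ℝ
  /-- thickness of the shell -/
  κ : K.T → ℝ
  /-- oscillation of the faces -/
  om : K.T → ℝ
  oW : K.W → ℝ
  oG : K.G → ℝ
  oS : K.S → ℝ
  om_pos : ∀ q, 0 < om q
  om_κ : ∀ q, 1000 * om q ≤ κ q
  κ_τ : ∀ q s, (q = K.sm s ∨ q = K.sp s) → 8 * κ q ≤ B.τ s
  κ_uT : ∀ q e, K.edge e ⊆ K.cube q → 8 * κ q ≤ uT e
  κ_be : ∀ q i, K.w i ∈ K.cube q → 8 * κ q ≤ be i
  τ_p : ∀ s, 8 * B.τ s ≤ p s
  p_uT : ∀ s e, K.edge e ⊆ K.sq s → 4 * p s ≤ uT e
  p_be : ∀ s i, K.w i ∈ K.sq s → 8 * p s ≤ be i
  uT_lam : ∀ e, 2 * uT e ≤ lam e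
  lam_a : ∀ e, 8 * lam e ≤ be (K.a e)
  lam_b : ∀ e, 8 * lam e ≤ be (K.b e)
  lam_T : ∀ e, 8 * lam e ≤ B.T e
  be_a : ∀ s i, K.w i ∈ K.sq s → 2 * be i ≤ a s
  be_wv : ∀ i, 32 * be i ≤ W.wv i
  a_u : ∀ s, 2 * a s ≤ B.u s
  u_T : ∀ s e, K.edge e ⊆ K.sq s → 4 * B.u s ≤ B.T e
  om_oS : ∀ q s, (q = K.sm s ∨ q = K.sp s) → om q ≤ oS s
  om_oG : ∀ q e, K.edge e ⊆ K.cube q → om q ≤ oG e
  om_oW : ∀ q i, K.w i ∈ K.cube q → om q ≤ oW i
  oS_τ : ∀ s, 1000 * oS s ≤ B.τ s
  oG_uT : ∀ e, 1000 * oG e ≤ uT e
  oG_τ : ∀ s e, K.edge e ⊆ K.sq s → 1000 * oG e ≤ B.τ s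
  oW_τ : ∀ s i, K.w i ∈ K.sq s → 1000 * oW i ≤ B.τ s
  oW_be : ∀ i, 1000 * oW i ≤ be i
  be_pos : ∀ i, 0 < be i
  uT_pos : ∀ e, 0 < uT e

/-- indices of the boxes of round T -/
abbrev TBx (K : BoxCx Λ v) : Type := K.G ⊕ Hang K

/-- direction of the levels in a box of round T -/
def TBx.ax : TBx K → Fin 3
  | .inl e => K.dir e
  | .inr h => h.l

namespace Geo

variable (G : Geo B)

/-- lower corner of a box of round T; `f = true`: full zone, `f = false`: support -/
noncomputable def tlo (f : Bool) : TBx K → V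
  | .inl e => fun k => if k = K.dir e then K.w (K.a e) k + G.be (K.a e)
      else K.w (K.a e) k - if f then G.uT e else G.lam e
  | .inr h => fun k => if k = h.l then K.w h.i k - G.be h.i
      else if k = h.k then
        (if h.β then K.shi h.s k - (if f then 3 / 2 else 2) * G.p h.s
          else K.slo h.s k + (if f then 3 / 4 else 1 / 2) * G.p h.s)
      else K.slo h.s k - (if f then 1 / 2 else 1) * B.τ h.s

/-- upper corner of a box of round T -/
noncomputable def thi (f : Bool) : TBx K → V
  | .inl e => fun k => if k = K.dir e then K.w (K.b e) k - G.be (K.b e)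
      else K.w (K.a e) k + if f then G.uT e else G.lam e
  | .inr h => fun k => if k = h.l then K.w h.i k + G.be h.i
      else if k = h.k then
        (if h.β then K.shi h.s k - (if f then 3 / 4 else 1 / 2) * G.p h.s
          else K.slo h.s k + (if f then 3 / 2 else 2) * G.p h.s)
      else K.slo h.s k + (if f then 1 / 2 else 1) * B.τ h.s

/-- box of round T -/
def TB (f : Bool) (b : TBx K) : Set V := Icc (G.tlo f b) (G.thi f b)

/-- lower corner of a plate -/
noncomputable def plo (c : ℝ) (s : K.S) : V := fun k =>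
  if k = K.nrm s then K.slo s k - B.τ s else K.slo s k + c * G.p s

/-- upper corner of a plate -/
noncomputable def phi (c : ℝ) (s : K.S) : V := fun k =>
  if k = K.nrm s then K.slo s k + B.τ s else K.shi s k - c * G.p s

/-- plate -/
def PB (c : ℝ) (s : K.S) : Set V := Icc (G.plo c s) (G.phi c s)

/-- the corners of the two halves of a plate; `β = true`: above, `β = false`: below -/
noncomputable def plo' (c : ℝ) (s : K.S) (β : Bool) : V := fun k =>
  if k = K.nrm s then (if β then K.slo s k else K.slo s k - B.τ s) else K.slo s k + c * G.p s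

/-- upper corner of half a plate -/
noncomputable def phi' (c : ℝ) (s : K.S) (β : Bool) : V := fun k =>
  if k = K.nrm s then (if β then K.slo s k + B.τ s else K.slo s k) else K.shi s k - c * G.p s

/-- half of a plate -/
def PBh (c : ℝ) (s : K.S) (β : Bool) : Set V := Icc (G.plo' c s β) (G.phi' c s β)

variable {G} {f : Bool}

/-- distance from the side of the square -/
noncomputable def _root_.Vale.Agent.P073.H267.Hang.u (h : Hang K) (y : V) : ℝ :=
  if h.β then K.shi h.s h.k - y h.k else y h.k - K.slo h.s h.k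

theorem p_pos (s : K.S) : 0 < G.p s := by
  have := G.τ_p s
  linarith [B.τ_pos s]

theorem κ_pos (q : K.T) : 0 < G.κ q := by
  have := G.om_κ q
  linarith [G.om_pos q]

theorem lam_pos (e : K.G) : 0 < G.lam e := by
  have := G.uT_lam e
  linarith [G.uT_pos e]

theorem mem_inl {e : K.G} : y ∈ G.TB f (.inl e) ↔
    (K.w (K.a e) (K.dir e) + G.be (K.a e) ≤ y (K.dir e) ∧
      y (K.dir e) ≤ K.w (K.b e) (K.dir e) - G.be (K.b e)) ∧
    ∀ k, k ≠ K.dir e → |y k - K.w (K.a e) k| ≤ if f then G.uT e else G.lam e := by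
  constructor
  · intro h
    refine ⟨⟨?_, ?_⟩, fun k hk => ?_⟩
    · have := h.1 (K.dir e)
      simpa only [tlo, if_true] using this
    · have := h.2 (K.dir e)
      simpa only [thi, if_true] using this
    · have h1 := h.1 k
      have h2 := h.2 k
      simp only [tlo, thi, if_neg hk] at h1 h2
      rw [abs_le]
      constructor <;> linarith
  · rintro ⟨⟨h1, h2⟩, h3⟩
    refine ⟨fun k => ?_, fun k => ?_⟩
    · by_cases hk : k = K.dir e
      · subst hk; simpa only [tlo, if_true] using h1
      · simp only [tlo, if_neg hk]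
        linarith [(abs_le.1 (h3 k hk)).1]
    · by_cases hk : k = K.dir e
      · subst hk; simpa only [thi, if_true] using h2
      · simp only [thi, if_neg hk]
        linarith [(abs_le.1 (h3 k hk)).2]

theorem fin3_cases {a b c : Fin 3} (h1 : a ≠ b) (h2 : a ≠ c) (h3 : b ≠ c) (k : Fin 3) :
    k = a ∨ k = b ∨ k = c := by
  revert a b c k; decide

theorem mem_inr {h : Hang K} : y ∈ G.TB f (.inr h) ↔
    |y h.l - K.w h.i h.l| ≤ G.be h.i ∧
    ((if f then 3 / 4 else 1 / 2) * G.p h.s ≤ h.u y ∧
      h.u y ≤ (if f then 3 / 2 else 2) * G.p h.s) ∧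
    |y (K.nrm h.s) - K.slo h.s (K.nrm h.s)| ≤ (if f then 1 / 2 else 1) * B.τ h.s := by
  have hkn := h.k_n
  have hln := h.l_n
  have hkl := h.k_l
  constructor
  · intro hy
    refine ⟨?_, ?_, ?_⟩
    · have h1 := hy.1 h.l
      have h2 := hy.2 h.l
      simp only [tlo, thi, if_true] at h1 h2
      rw [abs_le]
      constructor <;> linarith
    · have h1 := hy.1 h.k
      have h2 := hy.2 h.k
      simp only [tlo, thi, if_neg hkl, if_true] at h1 h2
      unfold Hang.u
      cases hb : h.β
      · simp only [hb, Bool.false_eq_true, if_false] at h1 h2 ⊢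
        constructor <;> linarith
      · simp only [hb, if_true] at h1 h2 ⊢
        constructor <;> linarith
    · have h1 := hy.1 (K.nrm h.s)
      have h2 := hy.2 (K.nrm h.s)
      simp only [tlo, thi, if_neg hln.symm, if_neg hkn.symm] at h1 h2
      rw [abs_le]
      constructor <;> linarith
  · rintro ⟨h1, h2, h3⟩
    have h1' := abs_le.1 h1
    have h3' := abs_le.1 h3
    have key : ∀ k, G.tlo f (.inr h) k ≤ y k ∧ y k ≤ G.thi f (.inr h) k := by
      intro k
      rcases fin3_cases hkn hkl hln.symm k with rfl | rfl | rfl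
      · simp only [tlo, thi, if_neg hkl, if_true]
        unfold Hang.u at h2
        cases hb : h.β
        · simp only [hb, Bool.false_eq_true, if_false] at h2 ⊢
          constructor <;> linarith
        · simp only [hb, if_true] at h2 ⊢
          constructor <;> linarith
      · simp only [tlo, thi, if_neg hln.symm, if_neg hkn.symm]
        constructor <;> linarith
      · simp only [tlo, thi, if_true]
        constructor <;> linarith
    exact ⟨fun k => (key k).1, fun k => (key k).2⟩

theorem mem_PB {c : ℝ} {s : K.S} : y ∈ G.PB c s ↔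
    (∀ k, k ≠ K.nrm s → K.slo s k + c * G.p s ≤ y k ∧ y k ≤ K.shi s k - c * G.p s) ∧
    |y (K.nrm s) - K.slo s (K.nrm s)| ≤ B.τ s := by
  constructor
  · intro h
    refine ⟨fun k hk => ?_, ?_⟩
    · have h1 := h.1 k
      have h2 := h.2 k
      simp only [plo, phi, if_neg hk] at h1 h2
      exact ⟨h1, h2⟩
    · have h1 := h.1 (K.nrm s)
      have h2 := h.2 (K.nrm s)
      simp only [plo, phi, if_true] at h1 h2
      rw [abs_le]
      constructor <;> linarith
  · rintro ⟨h1, h2⟩
    have h2' := abs_le.1 h2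
    have key : ∀ k, G.plo c s k ≤ y k ∧ y k ≤ G.phi c s k := by
      intro k
      by_cases hk : k = K.nrm s
      · subst hk
        simp only [plo, phi, if_true]
        constructor <;> linarith
      · simp only [plo, phi, if_neg hk]
        exact h1 k hk
    exact ⟨fun k => (key k).1, fun k => (key k).2⟩

theorem PBh_subset {c : ℝ} {s : K.S} {β : Bool} : G.PBh c s β ⊆ G.PB c s := by
  have hτ := B.τ_pos s
  refine Icc_subset_Icc (fun k => ?_) (fun k => ?_)
  · simp only [plo, plo']
    split_ifs <;> linarith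
  · simp only [phi, phi']
    split_ifs <;> linarith

end Geo

end Vale.Agent.P073.H267
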