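import Vale.Agent.P073.H267.Geo4
import Vale.Agent.P073.H471.GeoCover

/-!
# P073, block A14.1 (GEO), part 5: deep edges and deep plates

The tiles around a grid edge (a grid square) have equal size; points near the grid edge (square)
and far from its end points (sides) are in the full zone of the box of the edge (in the inner part of
the plate of the square) and in no other box.
-/

open Set Metric Topology Filter

namespace Vale.Agent.P073.H267

open _root_.P073 _root_.P073.Net _root_.P073.PA691 _root_.P073.TM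
open _root_.P073.PR720 (LF)
open Vale.Agent.P073.St (V)
open Vale.Agent.P073.H471

variable {Λ : Set V} {ρ : V → ℝ} {v : V} {K : BoxCx Λ v} {m : ℕ} {z : Fin 3 → ℤ} {l : Fin 3}

/-- the edge of the complex -/
theorem exists_deep_edge (C : Cells ρ v K)
    (ht : ∀ z' : Fin 3 → ℤ, z' l = z l → (∀ j, j ≠ l → z' j = z j ∨ z' j = z j - 1) →
      IsTile ρ v m z') :
    ∃ e : K.G, K.dir e = l ∧ C.sG e = 1 / 2 ^ m ∧ (∀ j, K.w (K.a e) j = v j + z j / 2 ^ m) ∧
      K.w (K.b e) l = v l + (z l + 1) / 2 ^ m := by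
  classical
  set σ : Face := ⟨m, z, fun j => decide (j ≠ l)⟩ with hσ
  have hn : ∀ j, σ.n j = true ↔ j ≠ l := fun j => by simp [hσ]
  have hcube : ∀ a, IsTile ρ v m (σ.cube a) := by
    intro a
    refine ht _ ?_ fun j hj => ?_
    · simp [Face.cube, hσ]
    · simp only [Face.cube, hσ, hj, ne_eq, not_false_eq_true, decide_true, Bool.true_and]
      cases a j <;> simp
  have hc : IsCell ρ v σ := ⟨fun a => ⟨m, _, hcube a, Subset.rfl⟩, ⟨fun _ => false, hcube _⟩⟩
  obtain ⟨e, he⟩ := C.onG σ l hc hn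
  have hdir : K.dir e = l := by
    have h1 := C.isE e (K.dir e)
    rw [he, hn] at h1
    by_contra hne
    exact (h1.1 hne) rfl
  have hlo := C.a_eq e
  have hhi := C.b_eq e
  rw [he] at hlo hhi
  refine ⟨e, hdir, ?_, fun j => ?_, ?_⟩
  · show (C.fG e).sd = _
    rw [he]; rfl
  · rw [hlo]; rfl
  · rw [hhi, Face.hi_of' (by simp [hσ])]

/-- the square of the complex -/
theorem exists_deep_plate (C : Cells ρ v K)
    (ht : ∀ z' : Fin 3 → ℤ, (z' l = z l ∨ z' l = z l - 1) → (∀ j, j ≠ l → z' j = z j) →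
      IsTile ρ v m z') :
    ∃ s : K.S, K.nrm s = l ∧ C.sS s = 1 / 2 ^ m ∧ (∀ j, K.slo s j = v j + z j / 2 ^ m) ∧
      ∀ j, j ≠ l → K.shi s j = v j + (z j + 1) / 2 ^ m := by
  classical
  set σ : Face := ⟨m, z, fun j => decide (j = l)⟩ with hσ
  have hn : ∀ j, σ.n j = true ↔ j = l := fun j => by simp [hσ]
  have hcube : ∀ a, IsTile ρ v m (σ.cube a) := by
    intro a
    refine ht _ ?_ fun j hj => ?_
    · simp only [Face.cube, hσ, decide_true, Bool.true_and]
      cases a l <;> simp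
    · simp [Face.cube, hσ, hj]
  have hc : IsCell ρ v σ := ⟨fun a => ⟨m, _, hcube a, Subset.rfl⟩, ⟨fun _ => false, hcube _⟩⟩
  obtain ⟨s, hs⟩ := C.onS σ l hc hn
  have hnrm : K.nrm s = l := by
    have h1 := C.isS s (K.nrm s)
    rw [hs, hn] at h1
    exact h1.2 rfl
  have hlo := C.slo_eq s
  have hhi := C.shi_eq s
  rw [hs] at hlo hhi
  refine ⟨s, hnrm, ?_, fun j => ?_, fun j hj => ?_⟩
  · show (C.fS s).sd = _
    rw [hs]; rfl
  · rw [hlo]; rfl
  · rw [hhi, Face.hi_of' (by simp [hσ, hj])]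

variable {S : Rad K} {W : Wid K S} {B : Boxes W} {G : Geo B} {y : V}

namespace Geo

/-- no plate meets the core of a tube -/
theorem notMem_PB_of_core {e : K.G} (hy : y ∈ G.TB true (.inl e))
    (hc : ∀ k, k ≠ K.dir e → ∀ s, K.edge e ⊆ K.sq s → |y k - K.w (K.a e) k| < 1 / 2 * G.p s)
    {c : ℝ} (hc2 : 1 / 2 ≤ c) (s : K.S) : y ∉ G.PB c s := by
  intro hys
  have hZs := PB_subset hc2 s hys
  have hZe := TB_subset_Ze e (TB_true_subset _ hy)
  have hes := edge_subset_sq (Zs_subset hZs) hZe.1 (Ze_nJ hZe)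
  have hdn := nrm_ne_dir hes
  obtain ⟨k, hkn, hkd⟩ : ∃ k, k ≠ K.nrm s ∧ k ≠ K.dir e := by
    have : ∀ a b : Fin 3, ∃ c, c ≠ a ∧ c ≠ b := by decide
    exact this _ _
  have h1 := (mem_PB.1 hys).1 k hkn
  have h2 := abs_lt.1 (hc k hkd s hes)
  have h3 : 1 / 2 * G.p s ≤ c * G.p s := mul_le_mul_of_nonneg_right hc2 (p_pos s).le
  rcases edge_side hes hkn hkd with h4 | h4 <;> linarith

/-- no box of round T meets the core of a plate -/
theorem notMem_TB_of_core {s : K.S} {c : ℝ} (hc : 1 / 2 ≤ c) (hy : y ∈ G.PB c s)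
    (hm : ∀ k, k ≠ K.nrm s → K.slo s k + 2 * G.p s < y k ∧ y k < K.shi s k - 2 * G.p s)
    (he : ∀ k, k ≠ K.nrm s → ∀ e, K.edge e ⊆ K.sq s → K.slo s k + G.lam e < y k ∧
      y k < K.shi s k - G.lam e) (b : TBx K) : y ∉ G.TB false b := by
  intro hyb
  have hZs := Zs_subset (PB_subset hc s hy)
  rcases b with e | h
  · have hZe := TB_subset_Ze e hyb
    have hes := edge_subset_sq hZs hZe.1 (Ze_nJ hZe)
    obtain ⟨k, hkn, hkd⟩ : ∃ k, k ≠ K.nrm s ∧ k ≠ K.dir e := by
      have : ∀ a b : Fin 3, ∃ c, c ≠ a ∧ c ≠ b := by decide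
      exact this _ _
    rw [mem_inl] at hyb
    simp only [Bool.false_eq_true, if_false] at hyb
    have h1 := abs_le.1 (hyb.2 k hkd)
    have h2 := he k hkn e hes
    rcases edge_side hes hkn hkd with h4 | h4 <;> linarith
  · have hss : s = h.s := by
      by_contra hne
      exact (disjoint_ss (W := W) hne).notMem_of_mem_left hZs (Zs_subset (TB_subset_Zs h hyb))
    rw [mem_inr] at hyb
    simp only [Bool.false_eq_true, if_false] at hyb
    have h1 := hyb.2.1.2
    have h2 := hm h.k (by rw [hss]; exact h.k_n)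
    rw [hss] at h2
    unfold Hang.u at h1
    cases hb : h.β
    · simp only [hb, Bool.false_eq_true, if_false] at h1; linarith
    · simp only [hb, if_true] at h1; linarith

end Geo

/-- **deep points of a tube** -/
theorem deep_edge (C : Cells ρ v K) (hρ : SizeFn Λ ρ) {A c κ o η δ : ℝ} (hc : 0 < c)
    (hcA : c ≤ A) (hA1 : A ≤ 1 / 128) (hκ : κ ≤ c / 536870912) (ho : 0 < o) (hoκ : 4000 * o ≤ κ)
    (hη : 8 * A ≤ η) (hδ : δ ≤ κ)
    (ht : ∀ z' : Fin 3 → ℤ, z' l = z l → (∀ j, j ≠ l → z' j = z j ∨ z' j = z j - 1) →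
      IsTile ρ v m z') :
    ∃ e : K.G, K.dir e = l ∧ C.sG e = 1 / 2 ^ m ∧ (∀ j, K.w (K.a e) j = v j + z j / 2 ^ m) ∧
      K.w (K.b e) l = v l + (z l + 1) / 2 ^ m ∧
      ∀ y : V, (∀ j, j ≠ l → |y j - (v j + z j / 2 ^ m)| ≤ δ / 2 ^ m) →
        v l + (z l + η) / 2 ^ m ≤ y l → y l ≤ v l + (z l + 1 - η) / 2 ^ m →
        closedBall y (κ / 2 ^ m) ⊆ (uGeo C hρ hc hcA hA1 hκ ho hoκ).TB true (.inl e) ∧
        closedBall y (κ / 2 ^ m) ⊆ (uBoxes C hρ hc hcA hA1).E e ∧
        (∀ y' ∈ closedBall y (κ / 2 ^ m), ∀ s,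
          y' ∉ (uGeo C hρ hc hcA hA1 hκ ho hoκ).PB (1 / 2) s) ∧
        (∀ y' ∈ closedBall y (κ / 2 ^ m), ∀ b : TBx K, b ≠ .inl e →
          y' ∉ (uGeo C hρ hc hcA hA1 hκ ho hoκ).TB false b) ∧
        ∀ y' ∈ closedBall y (κ / 2 ^ m), K.w (K.a e) l + 2 * (A * C.sW (K.a e)) ≤ y' l ∧
          y' l ≤ K.w (K.b e) l - 2 * (A * C.sW (K.b e)) := by
  obtain ⟨e, hd, hs, ha, hb⟩ := exists_deep_edge C ht
  refine ⟨e, hd, hs, ha, hb, fun y hy hy1 hy2 => ?_⟩
  have hm : (0:ℝ) < 1 / 2 ^ m := by positivity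
  set t : ℝ := 1 / 2 ^ m with htdef
  have e1 : κ / 2 ^ m = κ * t := by rw [htdef]; ring
  have e2 : δ / 2 ^ m = δ * t := by rw [htdef]; ring
  have e3 : v l + (z l + η) / 2 ^ m = K.w (K.a e) l + η * t := by rw [ha, htdef]; ring
  have e4 : v l + (z l + 1 - η) / 2 ^ m = K.w (K.b e) l - η * t := by rw [hb, htdef]; ring
  rw [e3] at hy1
  rw [e4] at hy2
  rw [e1]
  have hW : ∀ i, (i = K.a e ∨ i = K.b e) → C.sW i ≤ t := by
    intro i hi
    have hie : K.w i ∈ K.edge e := by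
      rcases hi with rfl | rfl
      · exact TM.wa_mem K e
      · exact TM.wb_mem K e
    rw [← hs]
    exact (C.sW_sG hρ hie).1
  have hWa := hW _ (Or.inl rfl)
  have hWb := hW _ (Or.inr rfl)
  have hκ0 : 0 < κ := by linarith
  have hball : ∀ y' ∈ closedBall y (κ * t), ∀ k, |y' k - y k| ≤ κ * t := by
    intro y' hy' k
    rw [mem_closedBall, dist_eq_norm] at hy'
    have := norm_le_pi_norm (y' - y) k
    rw [Pi.sub_apply, Real.norm_eq_abs] at this
    exact this.trans hy'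
  have hoff : ∀ y' ∈ closedBall y (κ * t), ∀ k, k ≠ K.dir e →
      |y' k - K.w (K.a e) k| ≤ 2 * (κ * t) := by
    intro y' hy' k hk
    have h1 := hball y' hy' k
    have h2 := hy k (by rw [← hd]; exact hk)
    rw [← ha, e2] at h2
    have h3 : δ * t ≤ κ * t := mul_le_mul_of_nonneg_right hδ hm.le
    have := abs_sub_le (y' k) (y k) (K.w (K.a e) k)
    linarith
  have hct : 0 < c * t := mul_pos hc hm
  have hA0 : 0 < A := hc.trans_le hcA
  have hAt : 0 < A * t := mul_pos hA0 hm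
  have hcAt : c * t ≤ A * t := mul_le_mul_of_nonneg_right hcA hm.le
  have h8 : 8 * (A * t) ≤ η * t := by
    have := mul_le_mul_of_nonneg_right hη hm.le
    linarith
  have hκc : κ * t ≤ c / 536870912 * t := mul_le_mul_of_nonneg_right hκ hm.le
  have hκc' : κ * t ≤ c * t / 536870912 := by rw [← div_mul_eq_mul_div]; exact hκc
  have hmid : ∀ y' ∈ closedBall y (κ * t), K.w (K.a e) l + 7 * (A * t) ≤ y' l ∧
      y' l ≤ K.w (K.b e) l - 7 * (A * t) := by
    intro y' hy'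
    have h1 := abs_le.1 (hball y' hy' l)
    constructor <;> linarith
  have hcWa : c * C.sW (K.a e) ≤ c * t := mul_le_mul_of_nonneg_left hWa hc.le
  have hcWb : c * C.sW (K.b e) ≤ c * t := mul_le_mul_of_nonneg_left hWb hc.le
  have hAWa : A * C.sW (K.a e) ≤ A * t := mul_le_mul_of_nonneg_left hWa hA0.le
  have hAWb : A * C.sW (K.b e) ≤ A * t := mul_le_mul_of_nonneg_left hWb hA0.le
  have hAW0 := mul_pos hA0 (C.sW_pos (K.a e))
  have hAW1 := mul_pos hA0 (C.sW_pos (K.b e))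
  have hcW0 := mul_pos hc (C.sW_pos (K.a e))
  have hcW1 := mul_pos hc (C.sW_pos (K.b e))
  have hT : closedBall y (κ * t) ⊆ (uGeo C hρ hc hcA hA1 hκ ho hoκ).TB true (.inl e) := by
    intro y' hy'
    rw [Geo.mem_inl]
    have h1 := hmid y' hy'
    refine ⟨⟨?_, ?_⟩, fun k hk => ?_⟩
    · show K.w (K.a e) (K.dir e) + c / 2048 * C.sW (K.a e) ≤ y' (K.dir e)
      rw [hd]
      linarith
    · show y' (K.dir e) ≤ K.w (K.b e) (K.dir e) - c / 2048 * C.sW (K.b e)
      rw [hd]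
      linarith
    · rw [if_pos rfl]
      show _ ≤ c / 131072 * C.sG e
      rw [hs]
      have := hoff y' hy' k hk
      linarith
  refine ⟨hT, ?_, ?_, ?_, ?_⟩
  · intro y' hy'
    have h1 := hmid y' hy'
    refine ⟨⟨?_, ?_⟩, fun k hk => ?_⟩
    · show K.w (K.a e) (K.dir e) + A * C.sW (K.a e) / 2 ≤ y' (K.dir e)
      rw [hd]
      linarith
    · show y' (K.dir e) ≤ K.w (K.b e) (K.dir e) - A * C.sW (K.b e) / 2
      rw [hd]
      linarith
    · show _ ≤ c / 32 * C.sG e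
      rw [hs]
      have := hoff y' hy' k hk
      linarith
  · intro y' hy' s
    refine Geo.notMem_PB_of_core (hT hy') (fun k hk s hes => ?_) le_rfl s
    have h1 := hoff y' hy' k hk
    have h2 := (C.sG_sS hρ hes).1
    rw [hs] at h2
    show _ < 1 / 2 * (c / 2097152 * C.sS s)
    have h3 : c / 2097152 * t ≤ c / 2097152 * C.sS s :=
      mul_le_mul_of_nonneg_left h2 (by positivity)
    linarith
  · intro y' hy' b hb
    refine fun hyb => (Geo.disjoint_TB (G := uGeo C hρ hc hcA hA1 hκ ho hoκ) hb.symm).notMem_of_mem_left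
      ?_ hyb
    rw [Geo.TB, TM.interior_Icc3]
    have h0 := hT hy'
    rw [Geo.mem_inl] at h0
    have h1 := hmid y' hy'
    intro k
    by_cases hk : k = K.dir e
    · subst hk
      rw [hd]
      simp only [Geo.tlo, Geo.thi, if_pos hd.symm]
      constructor
      · show K.w (K.a e) l + c / 2048 * C.sW (K.a e) < y' l
        linarith
      · show y' l < K.w (K.b e) l - c / 2048 * C.sW (K.b e)
        linarith
    · simp only [Geo.tlo, Geo.thi, if_neg hk, Bool.false_eq_true, if_false]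
      have h2 := abs_le.1 (hoff y' hy' k hk)
      have h3 : (uGeo C hρ hc hcA hA1 hκ ho hoκ).lam e = c / 65536 * t := by
        show c / 65536 * C.sG e = _
        rw [hs]
      rw [h3]
      constructor <;> linarith
  · intro y' hy'
    have h1 := hmid y' hy'
    constructor <;> linarith

/-- **deep points of a plate** -/
theorem deep_plate (C : Cells ρ v K) (hρ : SizeFn Λ ρ) {A c κ o η δ : ℝ} (hc : 0 < c)
    (hcA : c ≤ A) (hA1 : A ≤ 1 / 128) (hκ : κ ≤ c / 536870912) (ho : 0 < o) (hoκ : 4000 * o ≤ κ)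
    (hη : 8 * A ≤ η) (hδ : δ ≤ κ)
    (ht : ∀ z' : Fin 3 → ℤ, (z' l = z l ∨ z' l = z l - 1) → (∀ j, j ≠ l → z' j = z j) →
      IsTile ρ v m z') :
    ∃ s : K.S, K.nrm s = l ∧ C.sS s = 1 / 2 ^ m ∧ (∀ j, K.slo s j = v j + z j / 2 ^ m) ∧
      (∀ j, j ≠ l → K.shi s j = v j + (z j + 1) / 2 ^ m) ∧
      ∀ y : V, |y l - (v l + z l / 2 ^ m)| ≤ δ / 2 ^ m →
        (∀ j, j ≠ l → v j + (z j + η) / 2 ^ m ≤ y j ∧ y j ≤ v j + (z j + 1 - η) / 2 ^ m) →
        closedBall y (κ / 2 ^ m) ⊆ (uBoxes C hρ hc hcA hA1).P s ∧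
        closedBall y (κ / 2 ^ m) ⊆ (uGeo C hρ hc hcA hA1 hκ ho hoκ).PB 2 s ∧
        (∀ y' ∈ closedBall y (κ / 2 ^ m), ∀ s', s' ≠ s →
          y' ∉ (uGeo C hρ hc hcA hA1 hκ ho hoκ).PB (1 / 2) s') ∧
        (∀ y' ∈ closedBall y (κ / 2 ^ m), ∀ b : TBx K,
          y' ∉ (uGeo C hρ hc hcA hA1 hκ ho hoκ).TB false b) ∧
        ∀ y' ∈ closedBall y (κ / 2 ^ m), ∀ k, k ≠ l →
          K.slo s k + 7 * (c * (1 / 2 ^ m)) ≤ y' k ∧
          y' k ≤ K.shi s k - 7 * (c * (1 / 2 ^ m)) := by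
  obtain ⟨s, hn, hs, hlo, hhi⟩ := exists_deep_plate C ht
  refine ⟨s, hn, hs, hlo, hhi, fun y hy hyj => ?_⟩
  have hm : (0:ℝ) < 1 / 2 ^ m := by positivity
  set t : ℝ := 1 / 2 ^ m with htdef
  have e1 : κ / 2 ^ m = κ * t := by rw [htdef]; ring
  have e2 : δ / 2 ^ m = δ * t := by rw [htdef]; ring
  rw [e1]
  rw [e2, ← hlo] at hy
  have hκ0 : 0 < κ := by linarith
  have hball : ∀ y' ∈ closedBall y (κ * t), ∀ k, |y' k - y k| ≤ κ * t := by
    intro y' hy' k
    rw [mem_closedBall, dist_eq_norm] at hy'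
    have := norm_le_pi_norm (y' - y) k
    rw [Pi.sub_apply, Real.norm_eq_abs] at this
    exact this.trans hy'
  have hct : 0 < c * t := mul_pos hc hm
  have h8 : 8 * (c * t) ≤ η * t := by
    have := mul_le_mul_of_nonneg_right (hη.trans' (mul_le_mul_of_nonneg_left hcA
      (by norm_num : (0:ℝ) ≤ 8))) hm.le
    linarith
  have hκc : κ * t ≤ c / 536870912 * t := mul_le_mul_of_nonneg_right hκ hm.le
  have hκc' : κ * t ≤ c * t / 536870912 := by rw [← div_mul_eq_mul_div]; exact hκc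
  have hmid : ∀ y' ∈ closedBall y (κ * t), ∀ k, k ≠ l → K.slo s k + 7 * (c * t) ≤ y' k ∧
      y' k ≤ K.shi s k - 7 * (c * t) := by
    intro y' hy' k hk
    have h1 := abs_le.1 (hball y' hy' k)
    obtain ⟨h2, h3⟩ := hyj k hk
    have e3 : v k + (z k + η) / 2 ^ m = K.slo s k + η * t := by rw [hlo, htdef]; ring
    have e4 : v k + (z k + 1 - η) / 2 ^ m = K.shi s k - η * t := by rw [hhi k hk, htdef]; ring
    rw [e3] at h2
    rw [e4] at h3
    constructor <;> linarith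
  have hnn : ∀ y' ∈ closedBall y (κ * t), |y' (K.nrm s) - K.slo s (K.nrm s)| ≤
      2 * (κ * t) := by
    intro y' hy'
    have h1 := hball y' hy' (K.nrm s)
    rw [← hn] at hy
    have h3 : δ * t ≤ κ * t := mul_le_mul_of_nonneg_right hδ hm.le
    have := abs_sub_le (y' (K.nrm s)) (y (K.nrm s)) (K.slo s (K.nrm s))
    linarith
  have hτ : (uBoxes C hρ hc hcA hA1).τ s = c / 16777216 * t := by
    show c / 16777216 * C.sS s = _
    rw [hs]
  have hu : (uBoxes C hρ hc hcA hA1).u s = c / 512 * t := by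
    show c / 512 * C.sS s = _
    rw [hs]
  have hp : (uGeo C hρ hc hcA hA1 hκ ho hoκ).p s = c / 2097152 * t := by
    show c / 2097152 * C.sS s = _
    rw [hs]
  have hPB : ∀ y' ∈ closedBall y (κ * t), y' ∈ (uGeo C hρ hc hcA hA1 hκ ho hoκ).PB 2 s := by
    intro y' hy'
    rw [Geo.mem_PB, hp, hτ]
    refine ⟨fun k hk => ?_, ?_⟩
    · have := hmid y' hy' k (by rw [← hn]; exact hk)
      constructor <;> linarith
    · have := hnn y' hy'
      linarith
  refine ⟨?_, hPB, ?_, ?_, hmid⟩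
  · intro y' hy'
    show (∀ k, k ≠ K.nrm s → K.slo s k + (uBoxes C hρ hc hcA hA1).u s ≤ y' k ∧
      y' k ≤ K.shi s k - (uBoxes C hρ hc hcA hA1).u s) ∧
      |y' (K.nrm s) - K.slo s (K.nrm s)| ≤ (uBoxes C hρ hc hcA hA1).τ s
    rw [hu, hτ]
    refine ⟨fun k hk => ?_, ?_⟩
    · have := hmid y' hy' k (by rw [← hn]; exact hk)
      constructor <;> linarith
    · have := hnn y' hy'
      linarith
  · intro y' hy' s' hs' hys
    refine (Geo.disjoint_PB (G := uGeo C hρ hc hcA hA1 hκ ho hoκ) le_rfl hs').notMem_of_mem_left hys ?_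
    have h0 := hPB y' hy'
    rw [Geo.mem_PB, hp] at h0 ⊢
    refine ⟨fun k hk => ?_, h0.2⟩
    have := h0.1 k hk
    constructor <;> linarith
  · intro y' hy' b
    refine Geo.notMem_TB_of_core (c := 2) (by norm_num) (hPB y' hy') (fun k hk => ?_)
      (fun k hk e hes => ?_) b
    · have := hmid y' hy' k (by rw [← hn]; exact hk)
      rw [hp]
      constructor <;> linarith
    · have := hmid y' hy' k (by rw [← hn]; exact hk)
      have h2 := (C.sG_sS hρ hes).1
      rw [hs] at h2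
      have h3 : (uGeo C hρ hc hcA hA1 hκ ho hoκ).lam e ≤ c / 65536 * t := by
        show c / 65536 * C.sG e ≤ _
        exact mul_le_mul_of_nonneg_left h2 (by positivity)
      constructor <;> linarith

end Vale.Agent.P073.H267
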