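import Vale.Agent.P073.H267.Geo5
import Vale.Agent.P073.H239.Sharp

/-!
# P073, block A14.1 (GEO), part 6: `H239.Deep` and the boxes of the rounds
-/

open Set Metric Topology Filter

namespace Vale.Agent.P073.H267

open _root_.P073 _root_.P073.Net _root_.P073.PA691 _root_.P073.TM
open Vale.Agent.P073.St (V)
open Vale.Agent.P073.H471

variable {Λ : Set V} {ρ : V → ℝ} {v : V} {K : BoxCx Λ v} {m : ℕ} {z : Fin 3 → ℤ}
  {J₀ : Set (ℕ × (Fin 3 → ℤ))} {A : Finset (Fin 3)} {Q : Set V} {A₀ c κ o η δ : ℝ}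

theorem card_cases (hA : A.Nonempty) (hA' : A ≠ Finset.univ) :
    (∃ l, A = {l}) ∨ ∃ l, A = Finset.univ.erase l := by
  revert A; decide

/-- one tangential direction: the set is in the full zone of the box of an edge and in no other box;
this also holds for its `κ`-neighbourhood -/
theorem Deep.tube {l : Fin 3} (C : Cells ρ v K) (hρ : SizeFn Λ ρ) (hc : 0 < c)
    (hcA : c ≤ A₀) (hA1 : A₀ ≤ 1 / 128) (hκ : κ ≤ c / 536870912) (ho : 0 < o) (hoκ : 4000 * o ≤ κ)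
    (hη : 8 * A₀ ≤ η) (hδ : δ ≤ κ) (H : H239.Deep η δ v ρ J₀ {l} m z Q) :
    ∃ e : K.G, K.dir e = l ∧ C.sG e = 1 / 2 ^ m ∧ (∀ j, K.w (K.a e) j = v j + z j / 2 ^ m) ∧
      K.w (K.b e) l = v l + (z l + 1) / 2 ^ m ∧
      ∀ y ∈ Q,
        closedBall y (κ / 2 ^ m) ⊆ (uGeo C hρ hc hcA hA1 hκ ho hoκ).TB true (.inl e) ∧
        closedBall y (κ / 2 ^ m) ⊆ (uBoxes C hρ hc hcA hA1).E e ∧
        (∀ y' ∈ closedBall y (κ / 2 ^ m), ∀ s,
          y' ∉ (uGeo C hρ hc hcA hA1 hκ ho hoκ).PB (1 / 2) s) ∧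
        (∀ y' ∈ closedBall y (κ / 2 ^ m), ∀ b : TBx K, b ≠ .inl e →
          y' ∉ (uGeo C hρ hc hcA hA1 hκ ho hoκ).TB false b) ∧
        ∀ y' ∈ closedBall y (κ / 2 ^ m), K.w (K.a e) l + 2 * (A₀ * C.sW (K.a e)) ≤ y' l ∧
          y' l ≤ K.w (K.b e) l - 2 * (A₀ * C.sW (K.b e)) := by
  obtain ⟨e, h1, h2, h3, h4, h5⟩ := deep_edge (m := m) (z := z) (l := l) C hρ hc hcA hA1 hκ ho hoκ
    hη hδ fun z' hl hj => H.tile z' fun j => by
      by_cases hjl : j = l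
      · subst hjl; constructor <;> omega
      · rcases hj j hjl with h | h <;> constructor <;> omega
  refine ⟨e, h1, h2, h3, h4, fun y hy => ?_⟩
  have hm := H.mid y hy l (Finset.mem_singleton_self l)
  exact h5 y (fun j hj => H.near y hy j (by simpa using hj)) hm.1 hm.2

/-- two tangential directions: the set is in the inner part of the plate of a square and in no
other box; this also holds for its `κ`-neighbourhood -/
theorem Deep.plate {l : Fin 3} (C : Cells ρ v K) (hρ : SizeFn Λ ρ) (hc : 0 < c)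
    (hcA : c ≤ A₀) (hA1 : A₀ ≤ 1 / 128) (hκ : κ ≤ c / 536870912) (ho : 0 < o) (hoκ : 4000 * o ≤ κ)
    (hη : 8 * A₀ ≤ η) (hδ : δ ≤ κ) (H : H239.Deep η δ v ρ J₀ (Finset.univ.erase l) m z Q) :
    ∃ s : K.S, K.nrm s = l ∧ C.sS s = 1 / 2 ^ m ∧ (∀ j, K.slo s j = v j + z j / 2 ^ m) ∧
      (∀ j, j ≠ l → K.shi s j = v j + (z j + 1) / 2 ^ m) ∧
      ∀ y ∈ Q,
        closedBall y (κ / 2 ^ m) ⊆ (uBoxes C hρ hc hcA hA1).P s ∧
        closedBall y (κ / 2 ^ m) ⊆ (uGeo C hρ hc hcA hA1 hκ ho hoκ).PB 2 s ∧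
        (∀ y' ∈ closedBall y (κ / 2 ^ m), ∀ s', s' ≠ s →
          y' ∉ (uGeo C hρ hc hcA hA1 hκ ho hoκ).PB (1 / 2) s') ∧
        (∀ y' ∈ closedBall y (κ / 2 ^ m), ∀ b : TBx K,
          y' ∉ (uGeo C hρ hc hcA hA1 hκ ho hoκ).TB false b) ∧
        ∀ y' ∈ closedBall y (κ / 2 ^ m), ∀ k, k ≠ l →
          K.slo s k + 7 * (c * (1 / 2 ^ m)) ≤ y' k ∧
          y' k ≤ K.shi s k - 7 * (c * (1 / 2 ^ m)) := by
  obtain ⟨s, h1, h2, h3, h4, h5⟩ := deep_plate (m := m) (z := z) (l := l) C hρ hc hcA hA1 hκ ho hoκ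
    hη hδ fun z' hl hj => H.tile z' fun j => by
      by_cases hjl : j = l
      · subst hjl; rcases hl with h | h <;> constructor <;> omega
      · rw [hj j hjl]; constructor <;> omega
  exact ⟨s, h1, h2, h3, h4, fun y hy => h5 y (H.near y hy l (by simp))
    fun j hj => H.mid y hy j (by simpa using hj)⟩

end Vale.Agent.P073.H267
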