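import Vale.Agent.P073.H267.Geo5
import Vale.Agent.P073.H471.GeoCover
import Vale.Agent.P073.H238.TSep

/-!
# P073, block A14 ([AXES]): in the window of the levels of a plate in the direction `j` there are only
boxes of round T with the direction `j`
-/

open Set Metric Topology Filter

namespace Vale.Agent.P073.H267

open _root_.P073 _root_.P073.Net _root_.P073.PA691
open _root_.P073.PR720 (LF)
open Vale.Agent.P073.St (V)
open Vale.Agent.P073.H471
open Vale.Agent.P073.H238 (oT abs_sub_le_dist)

variable {Λ : Set V} {v : V} {K : BoxCx Λ v} {S : Rad K} {W : Wid K S} {B : Boxes W}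

namespace Geo

/-- near the box of an edge: in the zone of the edge -/
theorem near_Ze (G : Geo B) {e : K.G} {y z : V} (hy : y ∈ G.TB false (.inl e))
    (hd : dist y z ≤ 30 * G.oG e) : z ∈ Ze W e := by
  rw [mem_inl] at hy
  simp only [Bool.false_eq_true, if_false] at hy
  have h1 := G.oG_uT e
  have h2 := G.uT_lam e
  have h3 := G.uT_pos e
  have h4 := G.lam_T e
  have h5 := B.T_le e
  have h6 := G.lam_a e
  have h7 := G.lam_b e
  have hT := B.T_pos e
  have key : 19 / 10 * G.lam e ≤ W.ae e z := by
    refine le_marg (by linarith) fun k hk => ?_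
    have hk' : k = K.dir e := by by_contra h; exact hk (mem_Je.2 h)
    subst hk'
    have h8 := abs_le.1 (abs_sub_le_dist y z (K.dir e))
    constructor <;> linarith [hy.1.1, hy.1.2]
  refine ⟨lt_of_lt_of_le (by linarith) key, fun k hk => le_trans ?_ key⟩
  have h8 := abs_sub_le_dist y z k
  have h9 := hy.2 k hk
  have h10 := abs_sub_le (z k) (y k) (K.w (K.a e) k)
  linarith

/-- **[AXES]** -/
theorem ax_of_window (G : Geo B) {s : K.S} {c : ℝ} (hc : 1 / 2 ≤ c) {y y' : V}
    (hy : y ∈ G.PB c s) {j : Fin 3} (hj : j ≠ K.nrm s) (hlo : K.slo s j + G.a s / 2 ≤ y j)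
    (hhi : y j ≤ K.shi s j - G.a s / 2) {b : TBx K} (hb : y' ∈ G.TB false b)
    (hd : dist y' y ≤ 30 * oT G b) : b.ax = j := by
  have hZs := Zs_subset (PB_subset hc s hy)
  rcases b with e | h
  · have hd' : dist y' y ≤ 30 * G.oG e := hd
    have hZe := near_Ze G hb hd'
    have hes := edge_subset_sq hZs hZe.1 (Ze_nJ hZe)
    show K.dir e = j
    by_contra hne
    have hjd : j ≠ K.dir e := fun h => hne h.symm
    have h1 := G.be_a s _ (hes (TM.wa_mem K e))
    have h2 := G.lam_a e
    have h3 := G.oG_uT e
    have h4 := G.uT_lam e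
    have h5 := G.uT_pos e
    rw [mem_inl] at hb
    simp only [Bool.false_eq_true, if_false] at hb
    have h6 := abs_le.1 (hb.2 j hjd)
    have h7 := abs_le.1 (abs_sub_le_dist y' y j)
    rcases edge_side hes hj hjd with h8 | h8
    · linarith
    · linarith
  · have hd' : dist y' y ≤ 30 * G.oW h.i := hd
    have hp := G.p_be h.s h.i (hang_mem h)
    have hba := G.be_a h.s h.i (hang_mem h)
    have hoτ := G.oW_τ h.s h.i (hang_mem h)
    have hτp := G.τ_p h.s
    have hp0 := G.p_pos h.s
    by_cases h0 : 0 < G.oW h.i
    · have hss : s = h.s := by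
        by_contra hne
        exact (disjoint_ss (W := W) hne).notMem_of_mem_left hZs (H238.near_inr G hb hd' h0)
      subst hss
      show h.l = j
      by_contra hne
      have hjk : j = h.k := fin3_uniq h.k_n h.k_l hj (fun h => hne h.symm) (Ne.symm h.l_n)
      rw [mem_inr] at hb
      simp only [Bool.false_eq_true, if_false] at hb
      have h1 := hb.2.1.2
      have h7 := abs_le.1 (abs_sub_le_dist y' y j)
      rw [hjk] at h7 hlo hhi
      unfold Hang.u at h1
      cases hβ : h.β
      · simp only [hβ, Bool.false_eq_true, if_false] at h1; linarith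
      · simp only [hβ, if_true] at h1; linarith
    · -- then the two points are equal
      have h1 : dist y' y ≤ 0 := by linarith
      have h2 : y' = y := dist_le_zero.1 h1
      subst h2
      have hss : s = h.s := by
        by_contra hne
        exact (disjoint_ss (W := W) hne).notMem_of_mem_left hZs (Zs_subset (TB_subset_Zs h hb))
      subst hss
      show h.l = j
      by_contra hne
      have hjk : j = h.k := fin3_uniq h.k_n h.k_l hj (fun h => hne h.symm) (Ne.symm h.l_n)
      rw [mem_inr] at hb
      simp only [Bool.false_eq_true, if_false] at hb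
      have h1 := hb.2.1.2
      rw [hjk] at hlo hhi
      unfold Hang.u at h1
      cases hβ : h.β
      · simp only [hβ, Bool.false_eq_true, if_false] at h1; linarith
      · simp only [hβ, if_true] at h1; linarith

end Geo

end Vale.Agent.P073.H267
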