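import Vale.Agent.P073.H267.Ball
import Vale.Agent.P073.TR.DirMap
import Vale.Agent.P073.TR.OneDim2
import Vale.Agent.P073.H339.Glue2
import Vale.Agent.P073.SCH.LocConeImage

/-!
# P073, block H267 (CONE3): the middle sheets of two caps of different families meet in curves
-/

open Set Metric Topology Filter

namespace P073.H267

open P073 P073.H936 P073.H880 P073.TR P073.TR.DM P073.H339

variable {E : Type*} [NormedAddCommGroup E] [NormedSpace ℝ E]

/-- directions of a segment in the last variable -/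
theorem encard_dirs_vseg {x : E} {a b y : ℝ} (hy : y ∈ Icc a b) :
    (dirs ({x} ×ˢ Icc a b : Set (E × ℝ)) (x, y)).encard = (dirs (Icc a b) y).encard := by
  have hsub : ConicalSet (Icc a b) := conicalSet_Icc a b
  let φ : ConHomeo (Icc a b) ({x} ×ˢ Icc a b : Set (E × ℝ)) :=
    { toFun := fun t => (x, t)
      invFun := fun p => p.2
      mapsTo := fun t ht => ⟨rfl, ht⟩
      mapsTo_inv := fun p hp => hp.2
      left_inv := fun _ _ => rfl
      right_inv := fun p hp => Prod.ext (show x = p.1 from hp.1.symm) rfl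
      cont := by fun_prop
      cont_inv := by fun_prop
      conical := by
        have h1 : ConicalOn (fun _ : ℝ => x) (Icc a b) := conicalOn_const x hsub
        have h2 : ConicalOn (fun t : ℝ => t) (Icc a b) := conicalOn_id hsub
        exact h1.prodMk h2 }
  exact encard_dirs φ hy

/-- directions of a slice -/
theorem encard_dirs_slice {X : Set E} (hX : ConicalSet X) {x : E} (hx : x ∈ X) (y : ℝ) :
    (dirs (X ×ˢ {y} : Set (E × ℝ)) (x, y)).encard = (dirs X x).encard :=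
  encard_dirs (slice hX y) hx

/-- directions of a product with a finite set -/
theorem encard_dirs_fin {F : Set E} (hF : F.Finite) {x : E} (hx : x ∈ F) {a b y : ℝ}
    (hy : y ∈ Icc a b) :
    (dirs (F ×ˢ Icc a b : Set (E × ℝ)) (x, y)).encard = (dirs (Icc a b) y).encard := by
  rw [← encard_dirs_vseg (x := x) hy]
  congr 1
  apply dirs_congr
  have h1 : IsClosed (F \ {x}) := (hF.subset sdiff_subset).isClosed
  have h2 : ∀ᶠ p : E × ℝ in 𝓝 (x, y), p.1 ∉ F \ {x} := by
    have : (F \ {x})ᶜ ∈ 𝓝 x := h1.isOpen_compl.mem_nhds fun h => h.2 rfl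
    exact (continuous_fst.tendsto (x, y)).eventually this
  filter_upwards [h2] with p hp
  constructor
  · rintro ⟨h3, h4⟩
    refine ⟨?_, h4⟩
    by_contra hne
    exact hp ⟨h3, hne⟩
  · rintro ⟨h3, h4⟩
    have : p.1 = x := h3
    exact ⟨by rw [this]; exact hx, h4⟩

theorem clip_nonneg_iff {z : ℝ} : 0 ≤ clip z ↔ 0 ≤ z := by
  unfold clip
  constructor
  · intro h
    by_contra hz
    rw [not_le] at hz
    have : max (-1) (min 1 z) < 0 := max_lt (by norm_num) ((min_le_right _ _).trans_lt hz)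
    linarith
  · intro h
    exact le_max_of_le_right (le_min zero_le_one h)

theorem clip_eq_zero_iff {z : ℝ} : clip z = 0 ↔ z = 0 := by
  constructor
  · intro h
    rcases lt_or_ge z (-1) with h1 | h1
    · rw [clip_of_le h1.le] at h; norm_num at h
    · rcases lt_or_ge 1 z with h2 | h2
      · rw [clip_of_ge h2.le] at h; norm_num at h
      · rwa [clip_of_mem ⟨h1, h2⟩] at h
  · rintro rfl
    exact clip_of_mem zero_mem_LI

namespace Circles

section

variable {n m : ℕ} {S : Set E} {J : Type*} (D : Circles n S J m)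

/-- the middle circle -/
def gm (c : J) : Set E := (D.a c).toFun '' (Sn n ×ˢ {(0:ℝ)})

theorem gm_sub (c : J) : D.gm c ⊆ S := by
  rintro _ ⟨⟨x, t⟩, ⟨hx, ht⟩, rfl⟩
  have ht : t = 0 := ht
  subst ht
  exact D.sub c (Or.inr ((D.a c).mapsTo ⟨hx, zero_mem_Icc'⟩))

theorem mem_gm_iff {c : J} {x : E} (hx : x ∈ S) : x ∈ D.gm c ↔ D.s c x = 0 := by
  constructor
  · rintro ⟨⟨w, t⟩, ⟨hw, ht⟩, rfl⟩
    have ht : t = 0 := ht
    subst ht
    exact D.s_a c w hw 0 zero_mem_Icc'
  · intro h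
    by_cases h1 : x ∈ D.A c
    · have h2 := (D.a c).mapsTo_inv h1
      have h3 := D.s_a c _ h2.1 _ h2.2
      have h4 : (D.a c).toFun (((D.a c).invFun x).1, ((D.a c).invFun x).2) = x :=
        (D.a c).right_inv h1
      rw [h4, h] at h3
      exact ⟨(((D.a c).invFun x).1, 0), ⟨h2.1, rfl⟩, by rw [h3]; exact h4⟩
    · exfalso
      by_cases h2 : x ∈ D.I c
      · rw [D.s_I c x h2] at h; norm_num at h
      · rw [D.s_out c x hx (by rintro (h | h); exacts [h2 h, h1 h])] at h; norm_num at h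

theorem exists_gm (c : J) : ∃ σ : ConHomeo (Sn n) (D.gm c), ∀ y, σ.toFun y = (D.a c).toFun (y, 0) := by
  have hX := conicalSet_sphere_pi n
  have hsub : (Sn n ×ˢ {(0:ℝ)} : Set ((Fin n → ℝ) × ℝ)) ⊆ Sn n ×ˢ Icc (-1:ℝ) 1 :=
    prod_mono (Subset.refl _) (singleton_subset_iff.2 zero_mem_Icc')
  have h1 := (slice hX (0:ℝ)).conicalSet_right
  exact ⟨(slice hX (0:ℝ)).trans ((D.a c).restr h1 hsub), fun _ => rfl⟩

theorem isCompact_gm (c : J) : IsCompact (D.gm c) := by
  obtain ⟨σ, -⟩ := D.exists_gm c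
  exact σ.isCompact_right (isCompact_sphere _ _)

theorem conicalSet_gm (c : J) : ConicalSet (D.gm c) := by
  obtain ⟨σ, -⟩ := D.exists_gm c
  exact σ.conicalSet_right

theorem conicalSet_half (c c' : J) : ConicalSet (D.gm c ∩ {x | 0 ≤ D.s c' x}) := by
  rintro x ⟨hx, h0⟩
  have h0 : 0 ≤ D.s c' x := h0
  obtain ⟨r1, hr1, H1⟩ := D.conicalSet_gm c x hx
  obtain ⟨r2, hr2, H2⟩ := D.s_con c' x (D.gm_sub c hx)
  refine ⟨min r1 r2, lt_min hr1 hr2, fun v hv hxv t ht => ⟨?_, ?_⟩⟩
  · exact H1 v (hv.trans (min_le_left _ _)) hxv.1 t ht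
  · have h1 := (H2 v (hv.trans (min_le_right _ _)) (D.gm_sub c hxv.1) t ht).2
    have h2 : 0 ≤ D.s c' (x + v) := hxv.2
    show 0 ≤ D.s c' (x + t • v)
    rw [h1, smul_eq_mul]
    nlinarith [ht.1, ht.2]

theorem isClosed_half (c c' : J) : IsClosed (D.gm c ∩ {x | 0 ≤ D.s c' x}) :=
  ((D.s_cont c').mono (D.gm_sub c)).preimage_isClosed_of_isClosed (D.isCompact_gm c).isClosed
    isClosed_Ici

theorem mid_eq (c : J) : D.mid c = D.gm c ×ˢ {D.top} := rfl

/-- **The intersection of two middle sheets**, `c` deeper than `c'` -/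
theorem N0_inter_eq {c c' : J} (h : D.yy c + 4 ≤ D.yy c') :
    D.N0 c ∩ D.N0 c' = (D.gm c ∩ D.gm c') ×ˢ Icc (D.yy c') D.top ∪
      (D.gm c ∩ {x | 0 ≤ D.s c' x}) ×ˢ {D.yy c'} := by
  have hyy := D.yy_dp c
  have hyy' := D.yy_dp c'
  have hdp := D.three_le_dp c
  have hdp' := D.three_le_dp c'
  ext p
  constructor
  · rintro ⟨h1, h2⟩
    obtain ⟨hS, hp1, hp2⟩ := D.N_sub c ((D.fib c).sub h1)
    have b1 := (D.mem_N0_iff hS hp2).1 h1
    have b2 := (D.mem_N0_iff hS hp2).1 h2
    have c1 : 0 ≤ D.s c' p.1 := by rw [← b2]; exact min_le_left _ _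
    have c2 : 0 ≤ p.2 - D.yy c' := by
      rw [← clip_nonneg_iff, ← b2]; exact min_le_right _ _
    have c3 : D.s c p.1 = 0 := by
      have : D.b c p = min (D.s c p.1) (clip (p.2 - D.yy c)) := rfl
      rw [this, clip_of_ge (by linarith), min_eq_left (D.s_mem hS).2] at b1
      exact b1
    rcases min_cases (D.s c' p.1) (clip (p.2 - D.yy c')) with ⟨h3, -⟩ | ⟨h3, -⟩
    · left
      refine ⟨⟨(D.mem_gm_iff hS).2 c3, (D.mem_gm_iff hS).2 ?_⟩, by linarith, hp2⟩
      rw [← b2]; exact h3.symm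
    · right
      refine ⟨⟨(D.mem_gm_iff hS).2 c3, c1⟩, ?_⟩
      have : clip (p.2 - D.yy c') = 0 := by rw [← b2]; exact h3.symm
      rw [clip_eq_zero_iff] at this
      show p.2 = D.yy c'
      linarith
  · have key : ∀ p : E × ℝ, p.1 ∈ D.gm c → 0 ≤ D.s c' p.1 → D.yy c' ≤ p.2 → p.2 ≤ D.top →
        (D.s c' p.1 = 0 ∨ p.2 = D.yy c') → p ∈ D.N0 c ∩ D.N0 c' := by
      intro p hg hs hp1 hp2 hor
      have hS := D.gm_sub c hg
      have hg' := (D.mem_gm_iff hS).1 hg
      refine ⟨(D.mem_N0_iff hS hp2).2 ?_, (D.mem_N0_iff hS hp2).2 ?_⟩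
      · show min (D.s c p.1) (clip (p.2 - D.yy c)) = 0
        rw [hg', clip_of_ge (by linarith), min_eq_left zero_le_one]
      · show min (D.s c' p.1) (clip (p.2 - D.yy c')) = 0
        rcases hor with h0 | h0
        · rw [h0, min_eq_left (clip_nonneg_iff.2 (by linarith))]
        · rw [h0, sub_self, clip_of_mem zero_mem_LI, min_eq_right hs]
    rintro (⟨⟨h1, h2⟩, h3, h4⟩ | ⟨⟨h1, h2⟩, h3⟩)
    · have h5 := (D.mem_gm_iff (D.gm_sub c h1)).1 h2
      exact key p h1 h5.ge h3 h4 (Or.inl h5)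
    · have h3 : p.2 = D.yy c' := h3
      exact key p h1 h2 h3.ge (by linarith) (Or.inr h3)

/-- the points of the intersection at the top -/
theorem N0_inter_top (c c' : J) :
    D.N0 c ∩ D.N0 c' ∩ (univ ×ˢ {D.top}) = (D.gm c ∩ D.gm c') ×ˢ {D.top} := by
  have h1 := D.N0_top c
  have h2 := D.N0_top c'
  rw [D.mid_eq] at h1 h2
  rw [← inter_self (univ ×ˢ {D.top} : Set (E × ℝ)), inter_inter_inter_comm, h1, h2]
  ext p
  constructor
  · rintro ⟨⟨a, b⟩, ⟨a', -⟩⟩; exact ⟨⟨a, a'⟩, b⟩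
  · rintro ⟨⟨a, a'⟩, b⟩; exact ⟨⟨a, b⟩, ⟨a', b⟩⟩

end

section Two

variable {m : ℕ} {S : Set E} {J : Type*} (D : Circles 2 S J m)

theorem isCircle_gm (c : J) : IsCircle (D.gm c) := by
  obtain ⟨σ, -⟩ := D.exists_gm c
  exact conSphere_iff.1 ⟨σ.symm⟩

/-- half of the middle circle: two directions inside, one at the crossing points -/
theorem encard_half {c c' : J} (ht : D.typ c ≠ D.typ c') {x : E} (hx : x ∈ D.gm c) :
    (x ∈ D.gm c' → (dirs (D.gm c ∩ {x | 0 ≤ D.s c' x}) x).encard = 1) ∧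
    (0 < D.s c' x → (dirs (D.gm c ∩ {x | 0 ≤ D.s c' x}) x).encard = 2) := by
  constructor
  · intro hx'
    obtain ⟨⟨w, t⟩, ⟨hw, ht0⟩, hwx⟩ := hx'
    have ht0 : t = 0 := ht0
    subst ht0
    -- the fibre of `c'` through `x`
    have hfib : ∀ r ∈ Icc (-1:ℝ) 1, (D.a c').toFun (w, r) ∈ D.gm c := by
      intro r hr
      have hS : (D.a c').toFun (w, r) ∈ S := D.sub c' (Or.inr ((D.a c').mapsTo ⟨hw, hr⟩))
      rw [D.mem_gm_iff hS, (D.vert c' c ht.symm w hw r hr).1, hwx]
      exact (D.mem_gm_iff (D.gm_sub c hx)).1 hx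
    have hC : ∀ a b : ℝ, -1 ≤ a → b ≤ 1 → ∃ φ : ConHomeo (Icc a b)
        ((fun r => (D.a c').toFun (w, r)) '' Icc a b), ∀ r, φ.toFun r = (D.a c').toFun (w, r) := by
      intro a b ha hb
      have hsub : ConicalSet (Icc a b) := conicalSet_Icc a b
      have hws : ({w} : Set (Fin 2 → ℝ)) ×ˢ Icc a b ⊆ Sn 2 ×ˢ Icc (-1:ℝ) 1 :=
        prod_mono (singleton_subset_iff.2 hw) (Icc_subset_Icc ha hb)
      let φ0 : ConHomeo (Icc a b) (({w} : Set (Fin 2 → ℝ)) ×ˢ Icc a b) :=
        { toFun := fun t => (w, t)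
          invFun := fun p => p.2
          mapsTo := fun t ht => ⟨rfl, ht⟩
          mapsTo_inv := fun p hp => hp.2
          left_inv := fun _ _ => rfl
          right_inv := fun p hp => Prod.ext (show w = p.1 from hp.1.symm) rfl
          cont := by fun_prop
          cont_inv := by fun_prop
          conical := by
            have h1 : ConicalOn (fun _ : ℝ => w) (Icc a b) := conicalOn_const w hsub
            have h2 : ConicalOn (fun t : ℝ => t) (Icc a b) := conicalOn_id hsub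
            exact h1.prodMk h2 }
      refine ⟨(φ0.trans ((D.a c').restr φ0.conicalSet_right hws)).cast rfl ?_, fun r => rfl⟩
      ext y
      constructor
      · rintro ⟨⟨w', r⟩, ⟨hw', hr⟩, rfl⟩
        have hw' : w' = w := hw'
        subst hw'
        exact ⟨r, hr, rfl⟩
      · rintro ⟨r, hr, rfl⟩
        exact ⟨(w, r), ⟨rfl, hr⟩, rfl⟩
    let f : Set E := (fun r => (D.a c').toFun (w, r)) '' Icc (-1) 1
    let f' : Set E := (fun r => (D.a c').toFun (w, r)) '' Icc 0 1
    obtain ⟨φ, hφ⟩ : ∃ φ : ConHomeo (Icc (-1:ℝ) 1) f, ∀ r, φ.toFun r = (D.a c').toFun (w, r) :=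
      hC (-1) 1 le_rfl le_rfl
    obtain ⟨ψ, hψ⟩ : ∃ φ : ConHomeo (Icc (0:ℝ) 1) f', ∀ r, φ.toFun r = (D.a c').toFun (w, r) :=
      hC 0 1 (by norm_num) le_rfl
    have e1 : (dirs f x).encard = 2 := by
      have h := encard_dirs φ zero_mem_Icc'
      rw [hφ, hwx, dirs_Icc_mid ⟨by norm_num, zero_lt_one⟩, encard_pair (by norm_num)] at h
      exact h
    have e2 : (dirs f' x).encard = 1 := by
      have h := encard_dirs ψ (x := (0:ℝ)) ⟨le_rfl, zero_le_one⟩
      rw [hψ, hwx, dirs_Icc_left zero_lt_one, encard_singleton] at h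
      exact h
    have hfg : f ⊆ D.gm c := by
      rintro _ ⟨r, hr, rfl⟩
      exact hfib r hr
    have e3 : dirs f x = dirs (D.gm c) x := by
      have h3 := (D.isCircle_gm c).encard_dirs hx
      refine (finite_of_encard_eq_coe (k := 2) ?_).eq_of_subset_of_encard_le (dirs_mono hfg x) ?_
      · rw [e1]; rfl
      · rw [e1, h3]
    have e4 : dirs (D.gm c ∩ {x | 0 ≤ D.s c' x}) x = dirs f' x := by
      apply Subset.antisymm
      · intro u hu
        have h1 : u ∈ dirs f x := by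
          rw [e3]; exact dirs_mono inter_subset_left x hu
        refine ⟨hu.1, ?_⟩
        filter_upwards [ev_of_mem_dirs hu, ev_of_mem_dirs h1] with r hr1 hr2
        obtain ⟨q, hq, hq2⟩ := hr2
        have h5 : 0 ≤ D.s c' (x + r • u) := hr1.2
        rw [← hq2] at h5
        simp only at h5
        rw [D.s_a c' w hw q hq] at h5
        exact ⟨q, ⟨h5, hq.2⟩, hq2⟩
      · apply dirs_mono
        rintro _ ⟨r, hr, rfl⟩
        have hr' : r ∈ Icc (-1:ℝ) 1 := ⟨by linarith [hr.1], hr.2⟩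
        refine ⟨hfib r hr', ?_⟩
        show 0 ≤ D.s c' ((D.a c').toFun (w, r))
        rw [D.s_a c' w hw r hr']
        exact hr.1
    rw [e4, e2]
  · intro hpos
    rw [← (D.isCircle_gm c).encard_dirs hx]
    congr 1
    -- near `x` the function `s c'` is positive on the circle
    apply Subset.antisymm (dirs_mono inter_subset_left x)
    intro u hu
    refine ⟨hu.1, ?_⟩
    have h1 := ev_of_mem_dirs hu
    have hcont : ContinuousOn (D.s c') (D.gm c) := (D.s_cont c').mono (D.gm_sub c)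
    have h2 : ∀ᶠ y in 𝓝[D.gm c] x, 0 < D.s c' y := (hcont x hx).eventually_mem (Ioi_mem_nhds hpos)
    have h3 : Tendsto (fun t : ℝ => x + t • u) (𝓝[>] 0) (𝓝[D.gm c] x) :=
      tendsto_nhdsWithin_iff.2 ⟨tendsto_add_smul x u, h1⟩
    filter_upwards [h1, h3.eventually h2] with r hr1 hr2
    exact ⟨hr1, hr2.le⟩

/-- **Directions of the intersection of two middle sheets.** -/
theorem encard_dirs_inter {c c' : J} (ht : D.typ c ≠ D.typ c') (hF : (D.gm c ∩ D.gm c').Finite)
    {p : E × ℝ} (hp : p ∈ D.N0 c ∩ D.N0 c') :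
    (p.2 = D.top → (dirs (D.N0 c ∩ D.N0 c') p).encard = 1) ∧
    (p.2 ≠ D.top → (dirs (D.N0 c ∩ D.N0 c') p).encard = 2) := by
  -- it is enough to treat `c` deeper
  suffices key : ∀ c c' : J, D.typ c ≠ D.typ c' → (D.gm c ∩ D.gm c').Finite →
      D.yy c + 4 ≤ D.yy c' → ∀ p : E × ℝ, p ∈ D.N0 c ∩ D.N0 c' →
      (p.2 = D.top → (dirs (D.N0 c ∩ D.N0 c') p).encard = 1) ∧
      (p.2 ≠ D.top → (dirs (D.N0 c ∩ D.N0 c') p).encard = 2) by
    rcases D.yy_cases ht with h | h
    · have := key c' c ht.symm (by rwa [inter_comm]) h p (by rwa [inter_comm])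
      rwa [inter_comm] at this
    · exact key c c' ht hF h p hp
  clear hp hF ht
  intro c c' ht hF hy p hp
  have hyy' := D.yy_dp c'
  have hdp' := D.three_le_dp c'
  have hlt : D.yy c' < D.top := by linarith
  rw [D.N0_inter_eq hy] at hp ⊢
  set V : Set (E × ℝ) := (D.gm c ∩ D.gm c') ×ˢ Icc (D.yy c') D.top with hV
  set H : Set (E × ℝ) := (D.gm c ∩ {x | 0 ≤ D.s c' x}) ×ˢ {D.yy c'} with hH
  have hVc : ConicalSet V :=
    ((D.conicalSet_gm c).inter (D.conicalSet_gm c')).prod (conicalSet_Icc _ _)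
  have hVcl : IsClosed V := hF.isClosed.prod isClosed_Icc
  have hHset : ConicalSet (D.gm c ∩ {x | 0 ≤ D.s c' x}) := D.conicalSet_half c c'
  have hHcl : IsClosed H := (D.isClosed_half c c').prod isClosed_singleton
  have hVH : (V ∩ H).Finite := by
    refine ((hF.prod (finite_singleton (D.yy c')))).subset ?_
    rintro q ⟨h1, h2⟩
    exact ⟨h1.1, h2.2⟩
  by_cases hpy : p.2 = D.yy c'
  · -- at the corner height
    refine ⟨fun h => absurd h (by rw [hpy]; exact hlt.ne), fun _ => ?_⟩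
    have hp1 : p.1 ∈ D.gm c := by
      rcases hp with hp | hp
      · exact hp.1.1
      · exact hp.1.1
    have hpe : p = (p.1, D.yy c') := Prod.ext rfl hpy
    have h0 : 0 ≤ D.s c' p.1 := by
      rcases hp with hp | hp
      · exact ((D.mem_gm_iff (D.gm_sub c hp1)).1 hp.1.2).ge
      · exact hp.1.2
    have hHx : (dirs H p).encard = (dirs (D.gm c ∩ {x | 0 ≤ D.s c' x}) p.1).encard := by
      conv_lhs => rw [hpe]
      exact encard_dirs_slice hHset ⟨hp1, h0⟩ _
    by_cases hp' : p.1 ∈ D.gm c'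
    · rw [encard_dirs_union (hVc p ⟨⟨hp1, hp'⟩, by rw [hpy]; exact ⟨le_rfl, hlt.le⟩⟩) hVH, hHx,
        ((D.encard_half ht hp1).1 hp')]
      have : (dirs V p).encard = 1 := by
        conv_lhs => rw [hpe]
        rw [hV, encard_dirs_fin hF ⟨hp1, hp'⟩ ⟨le_rfl, hlt.le⟩, dirs_Icc_left hlt,
          encard_singleton]
      rw [this]
      norm_num
    · have hpos : 0 < D.s c' p.1 := by
        rcases h0.lt_or_eq with h | h
        · exact h
        · exact absurd ((D.mem_gm_iff (D.gm_sub c hp1)).2 h.symm) hp'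
      rw [union_comm, dirs_union_of_notMem hVcl (fun h => hp' h.1.2), hHx,
        (D.encard_half ht hp1).2 hpos]
  · -- above the corner height
    have hpV : p ∈ V := by
      rcases hp with hp | hp
      · exact hp
      · exact absurd hp.2 hpy
    rw [dirs_union_of_notMem hHcl (fun h => hpy h.2)]
    have hpe : p = (p.1, p.2) := rfl
    have e := encard_dirs_fin hF hpV.1 hpV.2
    rw [← hpe] at e
    rw [hV, e]
    constructor
    · intro h
      rw [h, dirs_Icc_right hlt, encard_singleton]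
    · intro h
      rw [dirs_Icc_mid ⟨lt_of_le_of_ne hpV.2.1 (Ne.symm hpy), lt_of_le_of_ne hpV.2.2 h⟩,
        encard_pair (by norm_num)]

theorem ncard_dirs_top {c c' : J} (ht : D.typ c ≠ D.typ c') (hF : (D.gm c ∩ D.gm c').Finite)
    {p : E × ℝ} (hp : p ∈ D.N0 c ∩ D.N0 c') (h : p.2 = D.top) :
    (dirs (D.N0 c ∩ D.N0 c') p).ncard = 1 := by
  rw [ncard_def, (D.encard_dirs_inter ht hF hp).1 h]; rfl

theorem ncard_dirs_mid {c c' : J} (ht : D.typ c ≠ D.typ c') (hF : (D.gm c ∩ D.gm c').Finite)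
    {p : E × ℝ} (hp : p ∈ D.N0 c ∩ D.N0 c') (h : p.2 ≠ D.top) :
    (dirs (D.N0 c ∩ D.N0 c') p).ncard = 2 := by
  rw [ncard_def, (D.encard_dirs_inter ht hF hp).2 h]; rfl

/-- **The intersection of two middle sheets is a curve** (with boundary at the top). -/
theorem curve_inter {c c' : J} (ht : D.typ c ≠ D.typ c') (hF : (D.gm c ∩ D.gm c').Finite) :
    TR.Curve (D.N0 c ∩ D.N0 c') where
  compact := (D.isCompact_N0 c).inter (D.isCompact_N0 c')
  cone := fun p _ => ((D.ball c).locCone.inter (D.ball c').locCone) p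
  card := fun p hp => by
    by_cases h : p.2 = D.top
    · exact Or.inl (D.ncard_dirs_top ht hF hp h)
    · exact Or.inr (D.ncard_dirs_mid ht hF hp h)

end Two

end Circles

end P073.H267
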