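import Vale.Agent.P073.H267.K2Num
import Vale.Agent.P073.H267.RoundTF
import Vale.Agent.P073.H142.PCone6
import Vale.Agent.P073.H805.PTile
import Vale.Agent.P073.H238.NumP
import Vale.Agent.P073.H155.K2AL

/-!
# P073, H267: the last map before the collapse, without the sharp faces; **`K2A p`**

`exists_last`: rounds T and P with all their numbers.
-/

open Set Metric Topology Filter MeasureTheory
open scoped ENNReal

namespace P073.H267

open _root_.P073 _root_.P073.Net _root_.P073.PA691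
open _root_.P073.H142 _root_.P073.H155 _root_.P073.H236 _root_.P073.H345 _root_.P073.H579
open Vale.Agent.P073.St (V)
open Vale.Agent.P073.H471 Vale.Agent.P073.H267
open Vale.Agent.P073.H73 (Mesh onSeg sqr offY)
open Vale.Agent.P073.H193 (Edges edges)
open Vale.Agent.P073.H581 (NearAt ImgAt TileAt TileIff)
open Vale.Agent.P073.H669 (PLv)
open Vale.Agent.P073.H805 (RIn ROut)

/-- **the last map before the collapse**, with one constant `C₁` -/
theorem exists_last : ∃ C₁ : ℝ, 0 < C₁ ∧ ∀ (η₀ : ℝ) (Ω Λ : Set V) (w : V) (ρ : V → ℝ)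
    (M : Mesh Ω) (h : ConHomeo Ω Λ) (Pr : Set M.ι) (D : KIn η₀ w ρ M h Pr) (K : BoxCx Λ w)
    (C : Cells ρ w K) (ε : M.κ → ℝ), (∀ k, 0 < ε k) → ∃ f : ConHomeo Ω Λ,
      NearAt (2 ^ 18) ρ M h.toFun f.toFun ∧ ImgAt M Pr h.toFun f.toFun ∧
      TileAt ρ w M Pr h.toFun f.toFun ∧ ∀ k, FaceOKB (D.B C) h.toFun f.toFun C₁ 1 (ε k) k := by
  classical
  obtain ⟨C₀, hC₀1, HRT⟩ := Vale.Agent.P073.H267.roundT
  have hC₀ : 0 ≤ C₀ := by linarith
  set C₂ : ℝ := 96 * C₀ with hC₂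
  have hC₂0 : 0 ≤ C₂ := by positivity
  refine ⟨156 * C₂ + 576 * C₀ + 51, by positivity, ?_⟩
  intro η₀ Ω Λ w ρ M h Pr D K C ε hε
  have hΩ : IsOpen Ω := D.bΩ.1
  have hΛ : IsOpen Λ := D.bΛ.1
  set E := edges M with hE
  -- stars and tiny numbers
  have T : ∀ k, FStar E k := fun k => (exists_fstar E k).some
  obtain ⟨εe, hεe, hNumE⟩ := exists_numE M hε
  -- ROUND T
  obtain ⟨b₀, LaT, LfT, N₀, Lam1, hLam1, HT⟩ := HRT η₀ Ω Λ w ρ M h Pr D K C E T (μN η₀)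
    (μN_pos D.pos) (ωT η₀ C) (oscT D C) (D.win_T C) εe hεe
  have N := Vale.Agent.P073.H238.TNum.toLen N₀ hC₀ hεe
  set b : E.ε → ℝ := fun e => (lenE E h.toFun e).toReal + εe e with hb
  have hNum : ∀ k, Num k h.toFun 1 (ε k) b := by
    refine hNumE h.toFun 1 b (fun e => (N.b_pos e).le) fun e => ?_
    rw [ENNReal.ofReal_one, one_mul]
    exact N.b_le e
  obtain ⟨ε₁, hε₁, hTiny⟩ := exists_tinyF T N.b_pos
  -- the displacement of ROUND P
  obtain ⟨μP, hμP0, hμPm, hμPω, hμPk⟩ := exists_mu D C hLam1 hε₁ (m₀ := fun _ => 1)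
    (fun _ => one_pos)
  obtain ⟨μ', σ, hμ'0, hμ'le, hσ0, HL⟩ := Vale.Agent.P073.H669.exists_plev' C (D.G C) hμP0
  obtain ⟨sl, h1, hsl, TO⟩ := HT σ hσ0
  -- the levels of ROUND P
  obtain ⟨δ, hδ, ⟨L⟩⟩ := HL hΩ E h1 Pr TO.sl_le hsl hεe (C := ∅) countable_empty
    (η := 1 / 4) (by norm_num) le_rfl (dmax := fun _ => 1) (fun _ => one_pos)
  -- ROUND P
  set La : E.ε → ℝ := fun e => max (laE E (We3 L) e) (16 * LaT e) with hLa
  have hLa0 : ∀ e, 0 ≤ La e := fun e => le_trans (by linarith [N.La_nonneg e]) (le_max_right _ _)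
  have hWe : ∀ e, We3 L e ≤ C₂ * b e := fun e => by
    have h1 := Vale.Agent.P073.H238.We3_le_b D C L TO hC₀1 hεe hεe (fun _ => le_rfl) e
    have h2 : 0 ≤ C₀ * b e := mul_nonneg hC₀ (N.b_pos e).le
    refine h1.trans ?_
    rw [hC₂]
    linarith
  have hLa' : ∀ e, La e * ‖E.b e - E.a e‖ ≤ C₂ * b e := fun e =>
    Vale.Agent.P073.H238.La_le_b D C L N₀ TO hC₀1 hεe hεe (fun _ => le_rfl) e
  obtain ⟨κ₀, κ₁, h2, h3, RP⟩ := exists_roundP_gfp D C TO.toT3Out TO.ends TO.tile TO.img L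
    (La := La) (mu := fun _ => 1 / 4) (fun _ => by norm_num) N.La_nonneg
    (fun e => le_max_left _ _) (fun e => le_max_right _ _) (fun k => (T k).C)
    (O' := fun k => (T k).O) (r0 := fun k => (T k).rho) (Rr := fun k => (T k).R)
    (fun k => (T k).star)
  -- the staircases
  obtain ⟨Lam3, hLam30, hLam3⟩ := exists_lam hΩ h3
  obtain ⟨e, he, he8, -, he3⟩ := exists_thr (D.G C) h1 hLam30 hε₁ L.δ0 (e₁ := fun _ => 1)
    (fun _ => one_pos)
  choose Sm hS using fun β => (L.bfam e he he8 β).exists_isS hΛ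
  -- tiles
  obtain ⟨hf1, hf2, hf3⟩ := Vale.Agent.P073.H805.ptile_TOut D C TO RP.rout RP.isQ₀ RP.isQ₁ RP.out
    (Ψ := (Sm false).trans (Sm true)) (Vale.Agent.P073.H805.tileIff_SP C L.lev
      (F₀ := L.bfam e he he8 false)
      (F₁ := L.bfam e he he8 true) rfl rfl (hS false) (hS true))
  refine ⟨lastMap h3 Sm, hf3, hf2, hf1, fun k => ?_⟩
  have h4 := faceOK_round D C T hC₀ hC₂0 N hLam1 hNum TO.toT3Out L RP (q := fun _ => 1)
    (fun _ => le_rfl)
    (fun k Φ hΦ s hs e he x hx y hy => by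
      rw [one_mul]
      exact (hΦ s hs).1 e he x hx y hy) hLa0 hLa' hWe hS
    (fun k => (hε₁ k).le) hTiny (fun s => (hμ'le s).trans (hμPω s))
    (fun k s hs => hμPk h1 TO.near k s hs _ (hμ'le s)) hLam3
    (fun k s hs => he3 k s hs _ le_rfl) k
  rw [one_mul] at h4
  exact h4

/-- **`K2A p`** -/
theorem k2A {p : ℝ} (hp : 1 ≤ p) : Vale.Agent.P073.H73.K2A p := by
  obtain ⟨C₁, hC₁, H⟩ := exists_last
  refine k2a_of_last hp ⟨C₁, 1, 2 ^ 18, 1 / 8, hC₁, zero_le_one, by norm_num, by norm_num,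
    by norm_num, ?_⟩
  intro Ω Λ w ρ M h P D K C ε hε
  exact H (1 / 8) Ω Λ w ρ M h P D K C ε hε

end P073.H267
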