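import Vale.Agent.P073.H267.RoundDefs
import Vale.Agent.P073.H212.Soft
import Vale.Agent.P073.H142.FaceTail3
import Vale.Agent.P073.H669.PLevD

/-!
# P073, H267: numbers for the last composition of `K2C`
-/

open Set Metric Topology Filter
open scoped ENNReal

namespace P073.H267

open _root_.P073 _root_.P073.Net _root_.P073.PA691
open Vale.Agent.P073.St (V)
open Vale.Agent.P073.H471 Vale.Agent.P073.H267
open Vale.Agent.P073.H73 (Mesh onSeg sqr)
open Vale.Agent.P073.H193 (Edges edges)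
open _root_.P073.H142 (FStar)

variable {η₀ : ℝ} {Ω Λ : Set V} {w : V} {ρ : V → ℝ} {M : Mesh Ω} {h : ConHomeo Ω Λ} {P : Set M.ι}
  {K : BoxCx Λ w} {E : Edges M}

/-- the oscillation for ROUND T -/
theorem oscT (D : KIn η₀ w ρ M h P) (C : Cells ρ w K) : OscT (D.G C) M h.toFun (ωT η₀ C) where
  pos := D.ωT_pos C
  le := fun b => (D.ωT_oT C b).le
  osc := D.osc_T C

/-- the numbers of the soft collapse -/
theorem softN (D : KIn η₀ w ρ M h P) (C : Cells ρ w K) :
    Vale.Agent.P073.H212.SoftN (D.B C) (1 / μN η₀) := by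
  have h1 := μN_pos D.pos
  have h2 := μN_lt D.lt
  refine ⟨?_, ?_, ?_, ?_, ?_⟩
  · rw [le_div_iff₀ h1]; linarith
  · intro e
    have h3 := (D.T_wv C e).1
    rw [one_div_mul_eq_div, div_le_iff₀ h1]; linarith
  · intro e
    have h3 := (D.T_wv C e).2
    rw [one_div_mul_eq_div, div_le_iff₀ h1]; linarith
  · intro e
    have h3 := D.T_q C e
    rw [one_div_mul_eq_div, div_le_iff₀ h1]; linarith
  · intro i
    have h3 := D.wv_r C i
    rw [one_div_mul_eq_div, div_le_iff₀ h1]; linarith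

/-- monotonicity in `b` -/
theorem TNum.up {h : V → V} {T : ∀ k, FStar E k} {C₀ : ℝ} (hC₀ : 0 ≤ C₀) {ε b b' La : E.ε → ℝ}
    {Lf : M.κ → E.ε → ℝ} (N : TNum M E h T C₀ ε b La Lf) (hb : ∀ e, b e ≤ b' e)
    (hb' : ∀ e, ENNReal.ofReal (b' e) ≤ lenE E h e + ENNReal.ofReal (ε e)) :
    TNum M E h T C₀ ε b' La Lf where
  b_pos := fun e => (N.b_pos e).trans_le (hb e)
  b_le := hb'
  La_nonneg := N.La_nonneg
  La_le := fun e => (N.La_le e).trans (mul_le_mul_of_nonneg_left (hb e) hC₀)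
  Lf_nonneg := N.Lf_nonneg
  Lf_le := fun k e he => by
    refine (N.Lf_le k e he).trans ?_
    have hr := (T k).rho_pos
    have hR := (T k).R0
    unfold FStar.con
    refine mul_le_mul_of_nonneg_left ?_ (by positivity)
    refine add_le_add (div_le_div_of_nonneg_right (hb e) (norm_nonneg _))
      (div_le_div_of_nonneg_right (Finset.sum_le_sum fun e _ => hb e) hr.le)

/-- finitely many faces at every edge -/
theorem fin_face_edge (E : Edges M) (e : E.ε) : {k | E.seg e ⊆ M.F k}.Finite := by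
  have hc : IsCompact (E.seg e) := by
    show IsCompact (segment ℝ (E.a e) (E.b e))
    rw [segment_eq_image_lineMap]
    exact isCompact_Icc.image AffineMap.lineMap_continuous
  refine (M.ffin (E.seg e) (E.seg_sub_Ω e) hc).subset fun k hk => ?_
  exact ⟨E.a e, hk (left_mem_segment ℝ _ _), left_mem_segment ℝ _ _⟩

/-- the tiny numbers of the edges -/
theorem exists_epsE {M : Mesh Ω} {ε : M.κ → ℝ} (hε : ∀ k, 0 < ε k) :
    ∃ εe : (edges M).ε → ℝ, (∀ e, 0 < εe e) ∧ ∀ k, ∃ t : ℝ, t ≤ ε k ∧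
      (∀ e, (edges M).seg e ⊆ M.F k → ∀ (a : V) (l : Fin 3) (σ : ℝ), 0 < σ →
        M.F k = sqr a l σ → t ≤ ε k / σ * ‖(edges M).b e - (edges M).a e‖) ∧
      ∀ e, (edges M).seg e ⊆ M.F k → εe e ≤ t := by
  choose t ht h1 h2 using fun k => _root_.P073.H142.exists_tiny (edges M) k (hε k)
  obtain ⟨m, hm0, hm⟩ := Vale.Agent.P073.H669.exists_le_of_finite
    (R := fun (e : (edges M).ε) k => (edges M).seg e ⊆ M.F k) (fun e => fin_face_edge (edges M) e)
    (f := t) ht
  exact ⟨m, hm0, fun k => ⟨t k, h1 k, h2 k, fun e he => hm e k he⟩⟩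

end P073.H267
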