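import Vale.Agent.P073.H267.K2Num
import Vale.Agent.P073.H142.NumE
import Vale.Agent.P073.H142.PCone5

/-!
# P073, H267: the choice of the last small numbers of `K2C`
-/

open Set Metric Topology Filter
open scoped ENNReal

namespace P073.H267

open _root_.P073 _root_.P073.Net _root_.P073.PA691
open Vale.Agent.P073.St (V)
open Vale.Agent.P073.H471 Vale.Agent.P073.H267
open Vale.Agent.P073.H73 (Mesh onSeg sqr)
open Vale.Agent.P073.H193 (Edges edges)
open _root_.P073.H345 (PK)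

variable {Ω Λ : Set V} {M : Mesh Ω} {v : V} {K : BoxCx Λ v} {S : Rad K} {W : Wid K S}
  {B : Boxes W}

/-- **bound for the spacings**: small with respect to the square faces near the plate -/
theorem exists_dmax (G : Geo B) (M : Mesh Ω) (h1 : ConHomeo Ω Λ) {c : ℝ} (hc : 0 < c) :
    ∃ dmax : K.S → ℝ, (∀ s, 0 < dmax s) ∧ ∀ s k, (h1.toFun '' M.F k ∩ PK G s).Nonempty →
      ∀ (a : V) (l : Fin 3) (σ : ℝ), 0 < σ → M.F k = sqr a l σ → dmax s ≤ c * σ := by
  classical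
  have hfin : ∀ s, {k | (h1.toFun '' M.F k ∩ PK G s).Nonempty}.Finite := fun s =>
    Vale.Agent.P073.H669.face_fin h1 (Vale.Agent.P073.H669.PK_compact G s)
      (Vale.Agent.P073.H669.PK_sub G s)
  have key : ∀ k : M.κ, ∃ t > 0, ∀ (a : V) (l : Fin 3) (σ : ℝ), 0 < σ → M.F k = sqr a l σ →
      t ≤ c * σ := by
    intro k
    by_cases hs : ∃ (a : V) (l : Fin 3) (σ : ℝ), 0 < σ ∧ M.F k = sqr a l σ
    · obtain ⟨a, l, σ, hσ, hk⟩ := hs
      refine ⟨c * σ, by positivity, fun a' l' σ' hσ' hk' => ?_⟩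
      rw [_root_.P073.H142.sqr_inj hσ hσ' (hk.symm.trans hk')]
    · exact ⟨1, one_pos, fun a l σ hσ hk => absurd ⟨a, l, σ, hσ, hk⟩ hs⟩
  choose t ht0 ht using key
  obtain ⟨m, hm0, hm⟩ := Vale.Agent.P073.H669.exists_le_of_finite
    (R := fun s k => (h1.toFun '' M.F k ∩ PK G s).Nonempty) hfin (f := t) ht0
  exact ⟨m, hm0, fun s k hk a l σ hσ hF => (hm s k hk).trans (ht k a l σ hσ hF)⟩

/-- **the tiny numbers for the levels** -/
theorem exists_epsE2 {E : Edges M} {ε : M.κ → ℝ} (hε : ∀ k, 0 < ε k) {εe : E.ε → ℝ}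
    (hεe : ∀ e, 0 < εe e) {c : ℝ} (hc : 0 < c) :
    ∃ εE : E.ε → ℝ, (∀ e, 0 < εE e) ∧ (∀ e, εE e ≤ εe e) ∧
      (∀ e, εE e ≤ c * ‖E.b e - E.a e‖) ∧ ∀ e k, E.seg e ⊆ M.F k → εE e ≤ c * ε k := by
  obtain ⟨m, hm0, hm⟩ := Vale.Agent.P073.H669.exists_le_of_finite
    (R := fun (e : E.ε) k => E.seg e ⊆ M.F k) (fun e => fin_face_edge E e)
    (f := fun k => c * ε k) (fun k => mul_pos hc (hε k))
  have hne : ∀ e, 0 < ‖E.b e - E.a e‖ := fun e => norm_pos_iff.2 (sub_ne_zero.2 (E.ne e).symm)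
  refine ⟨fun e => min (min (εe e) (c * ‖E.b e - E.a e‖)) (m e), fun e =>
    lt_min (lt_min (hεe e) (mul_pos hc (hne e))) (hm0 e), fun e =>
    (min_le_left _ _).trans (min_le_left _ _), fun e =>
    (min_le_left _ _).trans (min_le_right _ _), fun e k he => (min_le_right _ _).trans (hm e k he)⟩

end P073.H267
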