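import Vale.Agent.P073.H267.K3St1
import Vale.Agent.P073.H238.NumP
import Vale.Agent.P073.H233.Tail3C
import Vale.Agent.P073.H238.RTC

/-!
# P073, H267: **[K3-TOP]**, the first stage from ROUND T
-/

open Set Metric Topology Filter
open scoped ENNReal

set_option linter.unusedSectionVars false

namespace Vale.Agent.P073.H267.K3

open _root_.P073 _root_.P073.Net _root_.P073.PA691 _root_.P073.H236 _root_.P073.H579
open _root_.P073.H142 (FStar)
open _root_.P073.H267 (lenE)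
open Vale.Agent.P073.St (V)
open Vale.Agent.P073.H471 Vale.Agent.P073.H267
open Vale.Agent.P073.H73 (Mesh onSeg)
open Vale.Agent.P073.H193 (Edges Cyc edges)
open Vale.Agent.P073.H304 (Nb In Zmax)
open Vale.Agent.P073.H926
open Vale.Agent.P073.H238.K3

section len

variable {Ω Λ : Set V} {M : Mesh Ω}

/-- the variation of `h` on an edge, for the sup norm -/
noncomputable def varE (E : Edges M) (h : V → V) (e : E.ε) : ℝ :=
  (var (onSeg h (E.a e, E.b e)) (Icc 0 1)).toReal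

theorem lenE_ne_top (E : Edges M) (h : ConHomeo Ω Λ) (e : E.ε) : lenE E h.toFun e ≠ ⊤ :=
  (conical_len_lt_top zero_le_one (Croft.conicalOn_onS h.conical (E.seg_sub_Ω e))).ne

theorem varE_eq (E : Edges M) (h : ConHomeo Ω Λ) (e : E.ε) :
    ENNReal.ofReal (varE E h.toFun e) = var (onSeg h.toFun (E.a e, E.b e)) (Icc 0 1) :=
  ENNReal.ofReal_toReal (ne_top_of_le_ne_top (lenE_ne_top E h e)
    (_root_.P073.H926.var_le_len _ _))

/-- the length of an edge -/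
theorem lenE_le_varE (E : Edges M) (h : ConHomeo Ω Λ) (e : E.ε) :
    lenE E h.toFun e ≤ ENNReal.ofReal (2 * varE E h.toFun e) := by
  refine (len_le_var _ _).trans ?_
  rw [ENNReal.ofReal_mul zero_le_two, show ENNReal.ofReal 2 = 2 by norm_num, varE_eq]

theorem varE_le_lenE (E : Edges M) (h : ConHomeo Ω Λ) (e : E.ε) :
    ENNReal.ofReal (varE E h.toFun e) ≤ lenE E h.toFun e := by
  rw [varE_eq]
  exact _root_.P073.H926.var_le_len _ _

theorem varE_le_lip (E : Edges M) {h : V → V} {e : E.ε} {L : ℝ} (hL : 0 ≤ L)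
    (h1 : ∀ x ∈ E.seg e, ∀ y ∈ E.seg e, ‖h x - h y‖ ≤ L * ‖x - y‖) :
    varE E h e ≤ L * ‖E.b e - E.a e‖ := by
  have hmem : ∀ t ∈ Icc (0:ℝ) 1, E.a e + t • (E.b e - E.a e) ∈ E.seg e := by
    intro t ht
    show _ ∈ segment ℝ _ _
    rw [segment_eq_image']
    exact ⟨t, ht, rfl⟩
  set C : NNReal := ⟨L * ‖E.b e - E.a e‖, mul_nonneg hL (norm_nonneg _)⟩ with hC
  have h2 : LipschitzOnWith C (onSeg h (E.a e, E.b e)) (Icc 0 1) := by
    refine LipschitzOnWith.of_dist_le_mul fun s hs t ht => ?_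
    rw [dist_eq_norm, dist_eq_norm]
    refine (h1 _ (hmem s hs) _ (hmem t ht)).trans (le_of_eq ?_)
    have h2 : E.a e + s • (E.b e - E.a e) - (E.a e + t • (E.b e - E.a e)) =
        (s - t) • (E.b e - E.a e) := by module
    rw [h2, norm_smul]
    show _ = L * ‖E.b e - E.a e‖ * ‖s - t‖
    ring
  have h3 : eVariationOn (onSeg h (E.a e, E.b e)) (Icc 0 1) ≤
      C * eVariationOn (fun t : ℝ => t) (Icc (0:ℝ) 1) :=
    h2.comp_eVariationOn_le (g := fun t : ℝ => t) (s := Icc (0:ℝ) 1) (mapsTo_id _)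
  have h4 : eVariationOn (fun t : ℝ => t) (Icc (0:ℝ) 1) ≤ 1 := by
    have h4 := MonotoneOn.eVariationOn_eq (f := fun t : ℝ => t) (s := Icc (0:ℝ) 1)
      (monotone_id.monotoneOn _) (left_mem_Icc.2 zero_le_one) (right_mem_Icc.2 zero_le_one)
    rw [inter_self] at h4
    rw [h4]
    simp
  have h5 : var (onSeg h (E.a e, E.b e)) (Icc 0 1) ≤ ENNReal.ofReal (L * ‖E.b e - E.a e‖) := by
    refine (h3.trans (mul_le_mul_right h4 _)).trans ?_
    rw [mul_one, ENNReal.ofReal_eq_coe_nnreal (mul_nonneg hL (norm_nonneg _))]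
    exact le_rfl
  exact ENNReal.toReal_le_of_le_ofReal (mul_nonneg hL (norm_nonneg _)) h5

/-- **larger numbers of the edges** -/
theorem TNum3_up {E : Edges M} {h : ConHomeo Ω Λ} {T : ∀ k, FStar E k} {C₀ : ℝ} (hC₀ : 0 ≤ C₀)
    {ε b La : E.ε → ℝ} {Lf : M.κ → E.ε → ℝ} {Wl : Set M.ι}
    (N : TNum3 M E h.toFun T C₀ ε Wl b La Lf) :
    TNum3 M E h.toFun T C₀ ε Wl (fun e => max (b e) (varE E h.toFun e)) La Lf where
  b_pos := fun e => (N.b_pos e).trans_le (le_max_left _ _)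
  b_le := fun e he => by
    rw [ENNReal.ofReal_max]
    exact max_le (N.b_le e he) ((varE_le_lenE E h e).trans le_self_add)
  b_lip := fun e i hi he L hL hh => max_le (N.b_lip e i hi he L hL hh)
    (varE_le_lip E hL.le fun x hx y hy => hh x (he hx) y (he hy))
  La_nonneg := N.La_nonneg
  La_le := fun e => (N.La_le e).trans (mul_le_mul_of_nonneg_left (le_max_left _ _) hC₀)
  Lf_nonneg := N.Lf_nonneg
  Lf_le := fun k e he => by
    have hq : 0 ≤ (T k).R / (T k).rho := div_nonneg (T k).R0 (T k).star.rho0.le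
    exact (N.Lf_le k e he).trans (Vale.Agent.P073.H238.con_mono' (T k) (by positivity) le_rfl
      (fun e => (N.b_pos e).le) (fun e => le_max_left _ _) e)

end len

/-- **the first stage**: ROUND T for `K3C` over the edges of the mesh -/
theorem exists_s1 (hRT : RoundT3) : ∃ C₀ : ℝ, 1 ≤ C₀ ∧
    ∀ {c₀ n δ : ℝ} {j : ℕ} {Ω Λ : Set V} {v w : V} {ρ : V → ℝ} {M : Mesh Ω} {h : ConHomeo Ω Λ}
      {J₀ J : Set (ℕ × (Fin 3 → ℤ))} {P Z : Set M.ι} {K : BoxCx Λ w}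
      (D : KIn3 c₀ n j δ v w ρ M h J₀ J P Z) (C : Cells ρ w K)
      (T : ∀ k, FStar (edges M) k) (μ : ℝ), 0 < μ →
      (∀ b ∈ pB C J₀, 300 * ω3T δ C b ≤ μ * ((D.G C).thi true b b.ax - (D.G C).tlo true b b.ax)) →
      ∀ Zw : Set (Set V), ZWall (D.G C) M h (Act D C) (pB C J₀) (ω3T δ C) Zw →
      ∀ ε : (edges M).ε → ℝ, (∀ e, 0 < ε e) →
      (∀ e, ε e ≤ ‖h.toFun ((edges M).b e) - h.toFun ((edges M).a e)‖) →
      ∀ εd : pB C J₀ → ℝ, (∀ b, 0 < εd b) →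
      ∃ (bn La : (edges M).ε → ℝ) (Lf : M.κ → (edges M).ε → ℝ) (Lam1 : M.κ → ℝ)
        (nT : pB C J₀ → ℕ), TNum3 M (edges M) h.toFun T C₀ ε (Wc D C) bn La Lf ∧
      (∀ k, 0 ≤ Lam1 k) ∧ ∃ Lh : M.ι → ℝ, (∀ i, 0 ≤ Lh i) ∧
      ∀ σ fat : pB C J₀ → ℝ, (∀ b, 0 < σ b) → (∀ b, 0 ≤ fat b) →
      ∃ X : S1 D C C₀ μ, X.T = T ∧ X.εe = ε ∧ X.εd = εd ∧ X.bn = bn ∧ X.La = La ∧ X.Lf = Lf ∧
        X.Lam1 = Lam1 ∧ X.nT = nT ∧ X.σ = σ ∧ X.fat = fat ∧ LipH M Lh X.h1.toFun ∧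
        WallOut D C (edges M) Zw X.h1 := by
  obtain ⟨C₀, hC₀, H⟩ := hRT
  refine ⟨C₀, hC₀, ?_⟩
  intro c₀ n δ j Ω Λ v w ρ M h J₀ J P Z K D C T μ hμ hω Zw HZ ε hε hch εd hεd
  obtain ⟨bn, La, Lf, hN, Lam1, nT, hLam, Lh, hLh, H2⟩ := H c₀ n j δ Ω Λ v w ρ M h J₀ J P Z D K C (edges M)
    (fun k => (Vale.Agent.P073.H193.exists_cyc (edges M) k).some) T μ hμ hω Zw HZ ε hε εd hεd
  have hN' := TNum3_up (by linarith) hN
  refine ⟨_, La, Lf, Lam1, nT, hN', hLam, Lh, hLh, fun σ fat hσ hfat => ?_⟩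
  obtain ⟨sl, h1, hcard, hsl, hlip, hwall, hout⟩ := H2 σ hσ
  refine ⟨⟨T, ε, εd, _, La, Lf, Lam1, nT, σ, sl, fat, h1, hfat, hε, hεd, hN', fun e => ?_, hch,
    hLam, hcard, hsl, hout⟩, rfl, rfl, rfl, rfl, rfl, rfl, rfl, rfl, rfl, rfl, hlip, hwall⟩
  refine (lenE_le_varE (edges M) h e).trans (ENNReal.ofReal_le_ofReal ?_)
  exact mul_le_mul_of_nonneg_left (le_max_right _ _) zero_le_two

end Vale.Agent.P073.H267.K3
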